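import Crest.Agent.R239.Inno

/-! # Sums over the levels -/

set_option autoImplicit false
set_option linter.unusedSectionVars false

namespace Crest.Agent.R239

open Finset Module
open scoped InnerProductSpace

variable {E : Type} [NormedAddCommGroup E] [InnerProductSpace ℝ E] [FiniteDimensional ℝ E]

theorem Gf_nonneg {x μ : ℝ} (hx : 0 < x) (hμ : 0 < μ) : 0 ≤ Gf x μ := by
  unfold Gf; positivity

theorem Gf_le {x μ : ℝ} (hx : 0 < x) (hμ : 0 < μ) : Gf x μ ≤ 1 / 4 := by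
  unfold Gf
  rw [div_le_iff₀ (by positivity)]
  nlinarith [sq_nonneg (x - μ)]

/-- `x ≤ μ → x / μ ≤ 4 Gf x μ` -/
theorem div_le_Gf {x μ : ℝ} (hx : 0 < x) (h : x ≤ μ) : x / μ ≤ 4 * Gf x μ := by
  have hμ : 0 < μ := hx.trans_le h
  unfold Gf
  rw [← mul_div_assoc, div_le_div_iff₀ hμ (by positivity)]
  have h1 : (x + μ) ^ 2 ≤ (2 * μ) ^ 2 := pow_le_pow_left₀ (by positivity) (by linarith) 2
  nlinarith [mul_le_mul_of_nonneg_left h1 hx.le]

/-- `μ ≤ x → μ / x ≤ 4 Gf x μ` -/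
theorem div_le_Gf' {x μ : ℝ} (hμ : 0 < μ) (h : μ ≤ x) : μ / x ≤ 4 * Gf x μ := by
  have h1 := div_le_Gf hμ h
  have h2 : Gf μ x = Gf x μ := by unfold Gf; ring
  rwa [h2] at h1

/-- telescoping: `Gf x μ ≤ (4/3) (4x/(μ+4x) - x/(μ+x))` and `0 ≤ x/(μ+x) ≤ 1` -/
theorem Gf_sum {x μ : ℝ} (hx : 0 < x) (hμ : 0 < μ) (K : ℕ) :
    ∑ k ∈ range K, Gf (4 ^ k * x) μ ≤ 4 / 3 := by
  have h1 : ∀ y : ℝ, 0 < y → Gf y μ ≤ 4 / 3 * (4 * y / (μ + 4 * y) - y / (μ + y)) := by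
    intro y hy
    have e1 : 4 / 3 * (4 * y / (μ + 4 * y) - y / (μ + y)) =
        4 * y * μ / ((μ + 4 * y) * (μ + y)) := by
      field_simp
      ring
    rw [e1]
    unfold Gf
    rw [div_le_div_iff₀ (by positivity) (by positivity)]
    have h2 : 0 < y * μ * (μ + y) := by positivity
    nlinarith [mul_pos h2 hμ]
  have h2 := sum_range_sub (fun k : ℕ => 4 ^ k * x / (μ + 4 ^ k * x)) K
  calc _ ≤ ∑ k ∈ range K, 4 / 3 * (4 ^ (k + 1) * x / (μ + 4 ^ (k + 1) * x) -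
        4 ^ k * x / (μ + 4 ^ k * x)) := by
        refine sum_le_sum fun k _ => ?_
        have := h1 (4 ^ k * x) (by positivity)
        rwa [show (4 : ℝ) * (4 ^ k * x) = 4 ^ (k + 1) * x by ring] at this
    _ ≤ 4 / 3 := by
        rw [← mul_sum, h2]
        have h3 : 4 ^ K * x / (μ + 4 ^ K * x) ≤ 1 := by
          rw [div_le_one (by positivity)]; linarith
        have h4 : 0 ≤ 4 ^ 0 * x / (μ + 4 ^ 0 * x) := by positivity
        linarith

/-- `∑_{4^k x ≤ y} 4^k x ≤ 6 y` (from `div_le_Gf` and `Gf_sum`: `≤ (16/3) y`) -/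
theorem geom_sum_le {x y : ℝ} (hx : 0 < x) (hy : 0 < y) (K : ℕ) :
    ∑ k ∈ range K, (if 4 ^ k * x ≤ y then 4 ^ k * x else 0) ≤ 6 * y := by
  calc _ ≤ ∑ k ∈ range K, 4 * y * Gf (4 ^ k * x) y := by
        refine sum_le_sum fun k _ => ?_
        have hk : (0 : ℝ) < 4 ^ k * x := by positivity
        split_ifs with h
        · have := div_le_Gf hk h
          rw [div_le_iff₀ hy] at this
          linarith
        · have := Gf_nonneg hk hy
          positivity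
    _ ≤ 6 * y := by
        rw [← mul_sum]
        have := Gf_sum hx hy K
        nlinarith

theorem sum_weighted_Gf {ι : Type} [Fintype ι] {x : ℝ} (hx : 0 < x) (μ c : ι → ℝ)
    (hμ : ∀ i, 0 < μ i) (hc : ∀ i, 0 ≤ c i) (K : ℕ) :
    ∑ k ∈ range K, ∑ i, c i * Gf (4 ^ k * x) (μ i) ≤ 4 / 3 * ∑ i, c i := by
  rw [sum_comm, mul_sum]
  refine sum_le_sum fun i _ => ?_
  rw [← mul_sum, mul_comm]
  exact mul_le_mul_of_nonneg_right (Gf_sum hx (hμ i) K) (hc i)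

theorem f_sq_le {x w μ : ℝ} (hw : 0 < w) (hwx : w ≤ x) (hμ : 0 < μ) :
    ((w + x) * (μ + x)⁻¹ - (w + x / 4) * (μ + x / 4)⁻¹) ^ 2 ≤ 9 / 2 * Gf x μ + 72 * Gf x w := by
  have hx : 0 < x := hw.trans_le hwx
  have e1 : (w + x) * (μ + x)⁻¹ - (w + x / 4) * (μ + x / 4)⁻¹ =
      3 * x * μ / ((μ + x) * (4 * μ + x)) - 3 * x * w / ((μ + x) * (4 * μ + x)) := by
    field_simp
    ring
  have a0 : 0 ≤ 3 * x * μ / ((μ + x) * (4 * μ + x)) := by positivity
  have b0 : 0 ≤ 3 * x * w / ((μ + x) * (4 * μ + x)) := by positivity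
  have a1 : 3 * x * μ / ((μ + x) * (4 * μ + x)) ≤ 3 * Gf x μ := by
    unfold Gf
    rw [← mul_div_assoc, div_le_div_iff₀ (by positivity) (by positivity)]
    have h2 : 0 < x * μ * (μ + x) := by positivity
    nlinarith [mul_pos h2 hμ]
  have b1 : 3 * x * w / ((μ + x) * (4 * μ + x)) ≤ 3 * (w / x) := by
    rw [← mul_div_assoc, div_le_div_iff₀ (by positivity) hx]
    have h2 : x * x ≤ (μ + x) * (4 * μ + x) := by nlinarith
    nlinarith [mul_le_mul_of_nonneg_left h2 hw.le]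
  have g0 := Gf_nonneg hx hμ
  have g1 := Gf_le hx hμ
  have c0 : 0 ≤ w / x := by positivity
  have c1 : w / x ≤ 1 := (div_le_one hx).2 hwx
  have c2 := div_le_Gf' hw hwx
  rw [e1]
  generalize 3 * x * μ / ((μ + x) * (4 * μ + x)) = a at *
  generalize 3 * x * w / ((μ + x) * (4 * μ + x)) = b at *
  have a2 : a ^ 2 ≤ (3 * Gf x μ) ^ 2 := pow_le_pow_left₀ a0 a1 2
  have b2 : b ^ 2 ≤ (3 * (w / x)) ^ 2 := pow_le_pow_left₀ b0 b1 2
  nlinarith [mul_nonneg a0 b0, mul_le_mul_of_nonneg_left g1 g0, mul_le_mul_of_nonneg_left c1 c0]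

theorem conv_geom_le (a : ℕ → ℝ) (ha : ∀ k, 0 ≤ a k) (K : ℕ) :
    ∑ k ∈ range K, ∑ k' ∈ range (k + 1), (5 / 8 : ℝ) ^ (k - k') * a k' ≤
      8 / 3 * ∑ k ∈ range K, a k := by
  simp only [range_eq_Ico]
  rw [← sum_Ico_Ico_comm 0 K (fun k' k => (5 / 8 : ℝ) ^ (k - k') * a k'), mul_sum]
  refine sum_le_sum fun k' _ => ?_
  rw [← sum_mul]
  refine mul_le_mul_of_nonneg_right ?_ (ha k')
  rw [sum_Ico_eq_sum_range]
  simp only [Nat.add_sub_cancel_left]
  rw [geom_sum_eq (by norm_num)]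
  have : (0 : ℝ) ≤ (5 / 8) ^ (K - k') := by positivity
  rw [div_le_iff_of_neg (by norm_num)]
  linarith

theorem min_mul_le {l μ : ℝ} (hl : 0 < l) (hμ : 0 < μ) :
    (l * (μ + l)⁻¹) ^ 2 * min (μ / l) eps ≤ 1 / 500 * Gf l (2000 * μ) := by
  have h0 : 0 ≤ (l * (μ + l)⁻¹) ^ 2 := sq_nonneg _
  rcases le_total (2000 * μ) l with h | h
  · have h1 := div_le_Gf' (by positivity) h
    have h2 : (l * (μ + l)⁻¹) ^ 2 ≤ 1 := by
      refine pow_le_one₀ (by positivity) ?_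
      rw [← div_eq_mul_inv, div_le_one (by positivity)]; linarith
    have h3 : 0 ≤ μ / l := by positivity
    rw [mul_div_assoc] at h1
    calc _ ≤ (l * (μ + l)⁻¹) ^ 2 * (μ / l) := mul_le_mul_of_nonneg_left (min_le_left _ _) h0
      _ ≤ 1 * (μ / l) := mul_le_mul_of_nonneg_right h2 h3
      _ ≤ _ := by linarith
  · have h1 := div_le_Gf hl h
    have h2 : (l * (μ + l)⁻¹) ^ 2 ≤ l / μ := by
      rw [← div_eq_mul_inv, div_pow, div_le_div_iff₀ (by positivity) hμ]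
      nlinarith [mul_pos hl (mul_pos hμ hμ), mul_pos hl (mul_pos hl hμ), mul_pos hl (mul_pos hl hl)]
    have h3 : l / (2000 * μ) = 1 / 2000 * (l / μ) := by field_simp
    rw [h3] at h1
    calc _ ≤ (l * (μ + l)⁻¹) ^ 2 * eps := mul_le_mul_of_nonneg_left (min_le_right _ _) h0
      _ ≤ l / μ * eps := mul_le_mul_of_nonneg_right h2 eps_pos.le
      _ ≤ _ := by unfold eps; linarith

namespace Sys
variable (S : Sys E)

theorem del_lam (k : ℕ) : del * S.lam k = 4 ^ k * (del * S.om) := by unfold lam; ring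

theorem lam_mul_sq (k : ℕ) {μ : ℝ} (hμ : 0 < μ) :
    S.lam k * (μ / (μ + del * S.lam k)) ^ 2 = μ / del * Gf (4 ^ k * (del * S.om)) μ := by
  rw [← S.del_lam]
  have := S.lam_pos k
  have := del_pos
  unfold Gf
  field_simp
  ring

theorem p_Y (k t : ℕ) (g : G) (i : Fin (finrank ℝ E)) :
    ⟪S.p t i, S.Y k t g⟫_ℝ = S.lam k * (S.μ t i + S.lam k)⁻¹ * ⟪S.p t i, S.st t g⟫_ℝ := by
  unfold Y
  rw [real_inner_smul_right, S.p_R t (S.lam_pos k), mul_assoc]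

theorem nW_eta_le (N k s : ℕ) :
    nW N S.w (S.eta k s) ≤ 30 * (if 4 ^ k * S.om ≤ S.w s then 4 ^ k * S.om else 0) +
      (∑ i, (9 * (S.μ s i * ⟪S.p s i, S.φ s⟫_ℝ ^ 2)) * Gf (4 ^ k * S.om) (S.μ s i) +
        ∑ i, (144 * (S.μ s i * ⟪S.p s i, S.φ s⟫_ℝ ^ 2)) * Gf (4 ^ k * S.om) (S.w s)) := by
  have hx := S.lam_pos k
  have hw := S.w_pos s
  have hxe : 4 ^ k * S.om = S.lam k := rfl
  rw [hxe]
  have hA : 0 ≤ ∑ i, (9 * (S.μ s i * ⟪S.p s i, S.φ s⟫_ℝ ^ 2)) * Gf (S.lam k) (S.μ s i) :=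
    sum_nonneg fun i _ => mul_nonneg (by have := S.mu_pos s i; positivity)
      (Gf_nonneg hx (S.mu_pos s i))
  have hB : 0 ≤ ∑ i, (144 * (S.μ s i * ⟪S.p s i, S.φ s⟫_ℝ ^ 2)) * Gf (S.lam k) (S.w s) :=
    sum_nonneg fun i _ => mul_nonneg (by have := S.mu_pos s i; positivity) (Gf_nonneg hx hw)
  rcases le_or_gt (S.lam k) (S.w s) with h1 | h1
  · have hZ : S.Z k s = 0 := by
      cases k with
      | zero => rfl
      | succ k =>
        have : S.lam (k + 1) = 4 * S.lam k := by unfold lam; ring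
        simp only [Z]
        rw [if_neg (by linarith)]
    rw [if_pos h1]
    unfold eta
    rw [hZ, sub_zero]
    simp only [Z]
    split_ifs with h2
    · have h3 := S.white N hx {s} (fun _ => 1)
      simp only [sum_singleton, one_smul, one_pow, one_mul] at h3
      have h4 := S.V_le hx h2
      linarith
    · rw [nW_zero]
      linarith
  · rw [if_neg (not_le.2 h1), mul_zero, zero_add]
    obtain ⟨k, rfl⟩ : ∃ k0, k = k0 + 1 := by
      cases k with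
      | zero =>
        have := S.hw s
        simp only [lam, pow_zero, one_mul] at h1
        linarith
      | succ k => exact ⟨k, rfl⟩
    have hl : S.lam k = S.lam (k + 1) / 4 := by unfold lam; ring
    generalize hxd : S.lam (k + 1) = x at *
    have hx4 : 0 < x / 4 := by positivity
    have hr := rr_pos (S.hφ s)
    have hr2 := half_le_rr_sq (S.hφ s)
    have he : S.eta (k + 1) s = (-(rr (S.φ s))⁻¹) • S.pair s
        ((S.w s + x) • S.R s x (S.φ s) - (S.w s + x / 4) • S.R s (x / 4) (S.φ s)) := by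
      unfold eta
      simp only [Z]
      rw [hxd, hl, if_pos (by linarith), if_pos (by linarith)]
      ext1 g
      simp only [LinearMap.sub_apply, LinearMap.smul_apply, iota_apply, pair_apply,
        inner_sub_left, real_inner_smul_left, smul_eq_mul]
      ring
    rw [he, nW_smul]
    have h2 := S.nW_pair N s
      ((S.w s + x) • S.R s x (S.φ s) - (S.w s + x / 4) • S.R s (x / 4) (S.φ s))
    have h3 : (-(rr (S.φ s))⁻¹) ^ 2 ≤ 2 := by
      rw [neg_sq, inv_pow, inv_le_comm₀ (by positivity) (by norm_num)]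
      linarith
    have h4 := nW_nonneg (N := N) (fun i => (S.w_pos i).le) (S.pair s
      ((S.w s + x) • S.R s x (S.φ s) - (S.w s + x / 4) • S.R s (x / 4) (S.φ s)))
    refine (mul_le_mul_of_nonneg_right h3 h4).trans
      ((mul_le_mul_of_nonneg_left h2 (by norm_num)).trans ?_)
    rw [inner_M_eig, mul_sum, ← sum_add_distrib]
    refine sum_le_sum fun i _ => ?_
    simp only [inner_sub_right, real_inner_smul_right, S.p_R s hx, S.p_R s hx4]
    have h5 := f_sq_le hw h1.le (S.mu_pos s i)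
    have h6 : 0 ≤ S.μ s i * ⟪S.p s i, S.φ s⟫_ℝ ^ 2 := by have := S.mu_pos s i; positivity
    have h7 := mul_le_mul_of_nonneg_left h5 h6
    nlinarith

/-- In the eigenbasis of `M (s+1)` (`norm_sq_eig`, `p_R`):
`λ ‖φ - δλ R φ‖² = ∑_i ⟪p i, φ⟫² λ μ²/(μ + δλ)² = ∑_i ⟪p i, φ⟫² (μ/δ) Gf (δλ) μ`; `Gf_sum` with
`x = δ om`, `inner_M_eig`, `M_succ_phi`.  Heavy part: `geom_sum_le` with `y = w/eps`. -/
theorem sum_clock (K s : ℕ) :
    ∑ k ∈ range K, S.lam k * S.clock k s ≤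
      6 / del * (⟪S.φ s, S.M s (S.φ s)⟫_ℝ + S.w s) + 6 / eps * S.w s := by
  have hd := del_pos
  have he := eps_pos
  have hom := S.om_pos
  have hw := S.w_pos s
  have h1 : ∀ k, S.lam k * S.clock k s =
      ∑ i, (4 * (S.μ (s + 1) i / del) * ⟪S.p (s + 1) i, S.φ s⟫_ℝ ^ 2) *
        Gf (4 ^ k * (del * S.om)) (S.μ (s + 1) i) +
      (if 4 ^ k * S.om ≤ S.w s / eps then 4 ^ k * S.om else 0) := by
    intro k
    have hl := S.lam_pos k
    have hdl : 0 < del * S.lam k := mul_pos hd hl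
    unfold clock
    rw [mul_add, S.norm_sq_eig (s + 1), mul_sum, mul_sum]
    congr 1
    · refine sum_congr rfl fun i _ => ?_
      have hμ := S.mu_pos (s + 1) i
      have h2 := S.lam_mul_sq k hμ
      rw [inner_sub_right, real_inner_smul_right, S.p_R (s + 1) hdl]
      have h3 : ⟪S.p (s + 1) i, S.φ s⟫_ℝ - del * S.lam k *
          ((S.μ (s + 1) i + del * S.lam k)⁻¹ * ⟪S.p (s + 1) i, S.φ s⟫_ℝ) =
          S.μ (s + 1) i / (S.μ (s + 1) i + del * S.lam k) * ⟪S.p (s + 1) i, S.φ s⟫_ℝ := by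
        field_simp
        ring
      rw [h3]
      linear_combination (4 * ⟪S.p (s + 1) i, S.φ s⟫_ℝ ^ 2) * h2
    · have : 4 ^ k * S.om ≤ S.w s / eps ↔ eps * S.lam k ≤ S.w s := by
        rw [le_div_iff₀ he, mul_comm]; rfl
      simp only [this]
      split_ifs
      · rw [mul_one]; rfl
      · rw [mul_zero]
  simp only [h1]
  rw [sum_add_distrib]
  have h2 := sum_weighted_Gf (mul_pos hd hom) (S.μ (s + 1))
    (fun i => 4 * (S.μ (s + 1) i / del) * ⟪S.p (s + 1) i, S.φ s⟫_ℝ ^ 2) (S.mu_pos (s + 1))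
    (fun i => by have := S.mu_pos (s + 1) i; positivity) K
  have h3 := geom_sum_le hom (div_pos hw he) K
  have h4 : ∑ i, 4 * (S.μ (s + 1) i / del) * ⟪S.p (s + 1) i, S.φ s⟫_ℝ ^ 2 =
      4 / del * ⟪S.φ s, S.M (s + 1) (S.φ s)⟫_ℝ := by
    rw [inner_M_eig, mul_sum]
    exact sum_congr rfl fun i _ => by ring
  rw [h4] at h2
  have h5 := S.M_succ_phi s
  have h6 := S.M_nonneg (s + 1) (S.φ s)
  have h7 : 0 < 1 / del := by positivity
  have h8 := mul_le_mul_of_nonneg_left h5 h7.le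
  have h9 := mul_nonneg h7.le h6
  refine add_le_add (h2.trans ?_) (h3.trans (le_of_eq (by ring)))
  calc 4 / 3 * (4 / del * ⟪S.φ s, S.M (s + 1) (S.φ s)⟫_ℝ)
      = 16 / 3 * (1 / del * ⟪S.φ s, S.M (s + 1) (S.φ s)⟫_ℝ) := by ring
    _ ≤ 6 * (1 / del * (⟪S.φ s, S.M s (S.φ s)⟫_ℝ + S.w s)) := by linarith
    _ = _ := by ring

theorem sum_qq (K t : ℕ) : ∑ k ∈ range K, S.lam k * S.qq k t ≤ 2 / del * ∑ i, S.μ t i := by
  have hd := del_pos
  have h1 : ∀ k, S.lam k * S.qq k t =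
      ∑ i, S.μ t i / del * Gf (4 ^ k * (del * S.om)) (S.μ t i) := by
    intro k
    unfold qq
    rw [mul_sum]
    exact sum_congr rfl fun i _ => S.lam_mul_sq k (S.mu_pos t i)
  simp only [h1]
  have h2 := sum_weighted_Gf (mul_pos hd S.om_pos) (S.μ t) (fun i => S.μ t i / del) (S.mu_pos t)
    (fun i => by have := S.mu_pos t i; positivity) K
  refine h2.trans ?_
  rw [← sum_div]
  have h3 : 0 ≤ (∑ i, S.μ t i) / del :=
    div_nonneg (sum_nonneg fun i _ => (S.mu_pos t i).le) hd.le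
  calc _ ≤ 2 * ((∑ i, S.μ t i) / del) := by linarith
    _ = _ := by ring

theorem sum_Gf (K t : ℕ) :
    ∑ k ∈ range K, ∑ i, Gf (S.lam k) (S.μ t i) ≤ 2 * finrank ℝ E := by
  have h2 := sum_weighted_Gf S.om_pos (S.μ t) (fun _ => 1) (S.mu_pos t) (fun _ => zero_le_one) K
  simp only [one_mul, sum_const, card_univ, Fintype.card_fin, nsmul_eq_mul, mul_one] at h2
  have h3 : (0 : ℝ) ≤ finrank ℝ E := Nat.cast_nonneg _
  exact h2.trans (by linarith)

/-- `∑_{k<K} nW (eta k s) ≤ 204 (w + ⟪φ, M φ⟫)`.  Three cases for `x = lam k`, `w = w s`: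
(i) `4x ≤ w`: `eta k s = 0`.  (ii) `x ≤ w < 4x`: `eta k s = iota x s` (for `k = k₀+1`,
`4 lam k₀ = x ≤ w`), `nW ≤ V ≤ 30 x` (`white` with `I = {s}`, `V_le`), and
`∑_{x ≤ w} 30 x ≤ 180 w`.  (iii) `w < x` (so `k = k₀+1` because `om ≤ w`):
`eta k s = iota x s - iota (x/4) s = -(1/r) • pair s u` with
`u = (w+x) • R s x φ - (w+x/4) • R s (x/4) φ`, so `nW ≤ 2 ⟪u, M s u⟫ = 2 ∑_i μ ⟪p i, φ⟫² f²`,
`f = (w+x)/(μ+x) - (w+x/4)/(μ+x/4) = (3x/4)(μ-w)/((μ+x)(μ+x/4))`,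
`|f| ≤ 3 Gf x μ + 3 w/x`, `f² ≤ (9/2) Gf x μ + 72 Gf x w`, whose sum over the levels is `≤ 102`. -/
theorem sum_eta (N K s : ℕ) :
    ∑ k ∈ range K, nW N S.w (S.eta k s) ≤ 204 * (S.w s + ⟪S.φ s, S.M s (S.φ s)⟫_ℝ) := by
  refine (sum_le_sum fun k _ => S.nW_eta_le N k s).trans ?_
  rw [sum_add_distrib, sum_add_distrib, ← mul_sum]
  have hc : ∀ i, 0 ≤ S.μ s i * ⟪S.p s i, S.φ s⟫_ℝ ^ 2 := fun i => by
    have := S.mu_pos s i; positivity
  have h1 := geom_sum_le S.om_pos (S.w_pos s) K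
  have h2 := sum_weighted_Gf S.om_pos (S.μ s)
    (fun i => 9 * (S.μ s i * ⟪S.p s i, S.φ s⟫_ℝ ^ 2)) (S.mu_pos s)
    (fun i => by have := hc i; positivity) K
  have h3 := sum_weighted_Gf S.om_pos (fun _ : Fin (finrank ℝ E) => S.w s)
    (fun i => 144 * (S.μ s i * ⟪S.p s i, S.φ s⟫_ℝ ^ 2)) (fun _ => S.w_pos s)
    (fun i => by have := hc i; positivity) K
  have h4 : ∑ i, S.μ s i * ⟪S.p s i, S.φ s⟫_ℝ ^ 2 = ⟪S.φ s, S.M s (S.φ s)⟫_ℝ := by
    rw [inner_M_eig]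
    exact sum_congr rfl fun i _ => by ring
  rw [← mul_sum, h4] at h2 h3
  have h5 := S.w_pos s
  linarith

/-- exchange the sums; `∑_j (5/8)^j ≤ 8/3`; `∑_{4 lam k ≤ w} lam k ≤ 6 w/4` -/
theorem sum_bud (N K s : ℕ) :
    ∑ k ∈ range K, S.bud N k s ≤ 600 * (S.w s + ⟪S.φ s, S.M s (S.φ s)⟫_ℝ) := by
  unfold bud
  rw [sum_add_distrib]
  have h1 := geom_sum_le S.om_pos (show 0 < S.w s / 4 by have := S.w_pos s; positivity) K
  have h2 := conv_geom_le (fun k' => nW N S.w (S.eta k' s))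
    (fun k' => nW_nonneg (fun i => (S.w_pos i).le) _) K
  have h3 := S.sum_eta N K s
  have h4 : ∑ k ∈ range K, (if 4 * S.lam k ≤ S.w s then S.lam k else 0) =
      ∑ k ∈ range K, (if 4 ^ k * S.om ≤ S.w s / 4 then 4 ^ k * S.om else 0) := by
    refine sum_congr rfl fun k _ => ?_
    have : 4 ^ k * S.om ≤ S.w s / 4 ↔ 4 * S.lam k ≤ S.w s := by
      rw [le_div_iff₀ (by norm_num), mul_comm]; rfl
    simp only [this]
    rfl
  have h5 := S.w_pos s
  have h6 := S.M_nonneg s (S.φ s)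
  rw [h4]
  linarith

/-- With `s i = ⟪p i, st t g⟫`, `⟪p i, Y⟫ = λ s i/(μ+λ)`.  First term:
`12 eps ∑ s² Gf λ μ`.  Second term, with `e = 1/2000` (`eps = e²`):
`min (μ/λ) eps * (λ/(μ+λ))² ≤ 4 e Gf λ (μ/e)` (cases `μ/e ≤ λ`: `≤ μ/λ = e (μ/e)/λ`;
`λ ≤ μ/e`: `≤ eps λ/μ = e λ/(μ/e)`).  Total `≤ (16 e² + 32 e) ‖st‖²`. -/
theorem sum_err (K t : ℕ) (g : G) :
    ∑ k ∈ range K, S.err k t (S.Y k t g) ≤ ‖S.st t g‖ ^ 2 / 40 := by
  have he := eps_pos
  have h1 : ∀ k, S.err k t (S.Y k t g) ≤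
      ∑ i, (12 * eps * ⟪S.p t i, S.st t g⟫_ℝ ^ 2) * Gf (4 ^ k * S.om) (S.μ t i) +
      ∑ i, (6 / 500 * ⟪S.p t i, S.st t g⟫_ℝ ^ 2) * Gf (4 ^ k * S.om) (2000 * S.μ t i) := by
    intro k
    have hl := S.lam_pos k
    have hxe : 4 ^ k * S.om = S.lam k := rfl
    rw [hxe]
    unfold err
    rw [inner_M_eig, mul_sum, mul_sum]
    simp only [p_Y]
    refine add_le_add (le_of_eq (sum_congr rfl fun i _ => ?_)) (sum_le_sum fun i _ => ?_)
    · have := S.mu_pos t i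
      unfold Gf
      field_simp
      ring
    · have h2 := mul_le_mul_of_nonneg_left (min_mul_le hl (S.mu_pos t i))
        (sq_nonneg ⟪S.p t i, S.st t g⟫_ℝ)
      nlinarith
  refine (sum_le_sum fun k _ => h1 k).trans ?_
  rw [sum_add_distrib]
  have h2 := sum_weighted_Gf S.om_pos (S.μ t)
    (fun i => 12 * eps * ⟪S.p t i, S.st t g⟫_ℝ ^ 2) (S.mu_pos t) (fun i => by positivity) K
  have h3 := sum_weighted_Gf S.om_pos (fun i => 2000 * S.μ t i)
    (fun i => 6 / 500 * ⟪S.p t i, S.st t g⟫_ℝ ^ 2)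
    (fun i => by have := S.mu_pos t i; positivity) (fun i => by positivity) K
  rw [← mul_sum, ← S.norm_sq_eig t] at h2 h3
  have h4 := sq_nonneg ‖S.st t g‖
  have h5 : eps = 1 / 4000000 := rfl
  rw [h5] at h2 ⊢
  linarith

/-- `beta k t Y = ∑_i s i² λ² μ/(μ+λ)³`; for each `i` some `k ≤ K` has `μ ≤ lam k ≤ 4 μ`
(least `k` with `μ ≤ lam k`; `om ≤ μ ≤ W ≤ lam K`), and then `λ² μ/(μ+λ)³ ≥ 1/20`. -/
theorem sum_beta {W : ℝ} (hW : ∀ s, S.w s ≤ W) {K : ℕ} (hK : W ≤ S.lam K) (t : ℕ) (g : G) :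
    ‖S.st t g‖ ^ 2 / 20 ≤ ∑ k ∈ range (K + 1), S.beta k t (S.Y k t g) := by
  have h1 : ∀ k, S.beta k t (S.Y k t g) = ∑ i, ⟪S.p t i, S.st t g⟫_ℝ ^ 2 *
      (S.lam k ^ 2 * S.μ t i / (S.μ t i + S.lam k) ^ 3) := by
    intro k
    have hl := S.lam_pos k
    unfold beta
    rw [inner_M_eig]
    refine sum_congr rfl fun i _ => ?_
    have := S.mu_pos t i
    rw [S.p_R t hl, p_Y]
    field_simp
  simp only [h1]
  rw [sum_comm, S.norm_sq_eig t, sum_div]
  refine sum_le_sum fun i _ => ?_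
  rw [← mul_sum, div_eq_mul_one_div]
  refine mul_le_mul_of_nonneg_left ?_ (sq_nonneg _)
  have hμ := S.mu_pos t i
  have hex : ∃ k, S.μ t i ≤ S.lam k := ⟨K, (S.mu_upper hW t i).trans hK⟩
  classical
  have hk1 := Nat.find_spec hex
  have hk2 : Nat.find hex ≤ K := Nat.find_min' hex ((S.mu_upper hW t i).trans hK)
  have hk3 : S.lam (Nat.find hex) ≤ 4 * S.μ t i := by
    rcases Nat.eq_zero_or_pos (Nat.find hex) with h | h
    · rw [h]
      have := S.mu_lower t i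
      simp only [lam, pow_zero, one_mul]
      linarith
    · obtain ⟨k, hk⟩ : ∃ k, Nat.find hex = k + 1 := ⟨Nat.find hex - 1, by omega⟩
      have h2 := Nat.find_min hex (m := k) (by omega)
      have h3 : S.lam (k + 1) = 4 * S.lam k := by unfold lam; ring
      rw [hk, h3]
      push Not at h2
      linarith
  refine le_trans ?_ (single_le_sum
    (f := fun k => S.lam k ^ 2 * S.μ t i / (S.μ t i + S.lam k) ^ 3)
    (fun k _ => by have := S.lam_pos k; positivity) (mem_range.2 (Nat.lt_succ_of_le hk2)))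
  have hl := S.lam_pos (Nat.find hex)
  generalize S.lam (Nat.find hex) = l at *
  generalize S.μ t i = μ at *
  rw [div_le_div_iff₀ (by norm_num) (by positivity)]
  have h4 : (μ + l) ^ 2 ≤ (2 * l) ^ 2 := pow_le_pow_left₀ (by positivity) (by linarith) 2
  have h5 : (μ + l) ^ 2 * (μ + l) ≤ (2 * l) ^ 2 * (5 * μ) :=
    mul_le_mul h4 (by linarith) (by positivity) (by positivity)
  nlinarith

end Sys

end Crest.Agent.R239
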