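import Crest.Agent.R239.Ctl

/-! # Chaining with slabs -/

set_option autoImplicit false

namespace Crest.Agent.R239

open Finset Module
open scoped InnerProductSpace

variable {F : Type} [NormedAddCommGroup F] [InnerProductSpace ℝ F] [FiniteDimensional ℝ F]
  {N : ℕ} {w : ℕ → ℝ}

/-- (N1, nuclear-norm bound)  Let `B : EuclideanSpace ℝ I →ₗ F`, `B y = ∑ s, y s • ξ s`, and let
`v a` be an orthonormal eigenbasis of the symmetric map `B† B` on `EuclideanSpace ℝ I`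
(`LinearMap.IsSymmetric.eigenvectorBasis`; or of the Gram matrix `⟪ξ s, ξ s'⟫`), eigenvalues
`σ a = ‖B (v a)‖² ≥ 0`, `∑ σ a = ∑ ‖ξ s‖² ≤ X`.  Rows: `(√X/θ) • ∑ s, v a s • η s` (`Ctl.slab'`,
`Ctl.biInter`); their total cost is `(X/θ²) ∑_i w i ∑_a (∑_s v a s * η s (e i))² =
(X/θ²) ∑_s nW (η s)` by Parseval.  On the slabs, with `y s = η s g`:
`‖B y‖² = ∑_a σ a ⟪v a, y⟫²` and `X ⟪v a, y⟫² ≤ θ²`, so `X ‖B y‖² ≤ X θ²`; if `X = 0` all `ξ s`
vanish. -/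
theorem ctl_N1 (hw : ∀ i, 0 ≤ w i) (I : Finset ℕ) (ξ : ℕ → F) (η : ℕ → G →ₗ[ℝ] ℝ) {X θ : ℝ}
    (hθ : 0 < θ) (hX : ∑ s ∈ I, ‖ξ s‖ ^ 2 ≤ X) :
    Ctl N w {g | ‖∑ s ∈ I, η s g • ξ s‖ ≤ θ} (X * (∑ s ∈ I, nW N w (η s)) / θ ^ 2) := by
  classical
  have hX0 : 0 ≤ X := (sum_nonneg fun _ _ => sq_nonneg _).trans hX
  let B : EuclideanSpace ℝ I →ₗ[ℝ] F :=
    ∑ s : I, (EuclideanSpace.projₗ s : EuclideanSpace ℝ I →ₗ[ℝ] ℝ).smulRight (ξ s)
  have hB : ∀ y, B y = ∑ s : I, y s • ξ s := fun y => by simp [B]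
  have hA : (B.adjoint ∘ₗ B).IsSymmetric := fun x y => by
    simp only [LinearMap.comp_apply, LinearMap.adjoint_inner_left, LinearMap.adjoint_inner_right]
  let v := hA.eigenvectorBasis rfl
  let σ := hA.eigenvalues rfl
  have hv : ∀ a, B.adjoint (B (v a)) = σ a • v a := fun a => hA.apply_eigenvectorBasis rfl a
  have h1 : ∀ y, ‖B y‖ ^ 2 = ∑ a, σ a * ⟪v a, y⟫_ℝ ^ 2 := fun y => by
    rw [← real_inner_self_eq_norm_sq, ← LinearMap.adjoint_inner_right, ← v.sum_inner_mul_inner]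
    refine sum_congr rfl fun a _ => ?_
    rw [LinearMap.adjoint_inner_right, ← LinearMap.adjoint_inner_left, hv, real_inner_smul_left,
      real_inner_comm]
    ring
  have h2 : ∀ a, 0 ≤ σ a := fun a => by
    have : ⟪B (v a), B (v a)⟫_ℝ = σ a := by
      rw [← LinearMap.adjoint_inner_left, hv, real_inner_smul_left, real_inner_self_eq_norm_sq,
        v.orthonormal.1]
      ring
    rw [← this]; exact real_inner_self_nonneg
  have h3 : ∀ a (y : I → ℝ), ⟪v a, WithLp.toLp 2 y⟫_ℝ = ∑ s, v a s * y s := fun a y => by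
    simp [PiLp.inner_apply, mul_comm]
  have h4 : ∑ a, σ a ≤ X := by
    refine le_trans (le_of_eq ?_) hX
    have e : ∀ s : I, ‖ξ s‖ ^ 2 = ∑ a, σ a * v a s ^ 2 := fun s => by
      have := h1 (EuclideanSpace.single s 1)
      rw [hB] at this
      simpa [EuclideanSpace.inner_single_right, Pi.single_apply, ite_smul] using this
    rw [← sum_coe_sort I, sum_congr rfl fun s _ => e s, sum_comm]
    refine sum_congr rfl fun a _ => ?_
    rw [← mul_sum, ← EuclideanSpace.real_norm_sq_eq, v.orthonormal.1]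
    ring
  have h5 : ∀ y : I → ℝ, ∑ a, (∑ s, v a s * y s) ^ 2 = ∑ s, y s ^ 2 := fun y => by
    have := v.sum_sq_norm_inner_right (WithLp.toLp 2 y)
    simpa only [h3, Real.norm_eq_abs, sq_abs, EuclideanSpace.real_norm_sq_eq] using this
  refine (Ctl.biInter univ _ _ fun a _ => Ctl.slab' (∑ s : I, v a s • η s) (√X / θ)).mono
    (fun g hg => ?_) (le_of_eq ?_)
  · change ‖∑ s ∈ I, η s g • ξ s‖ ≤ θ
    rcases hX0.eq_or_lt with rfl | hX1
    · rw [sum_eq_zero fun s hs => ?_, norm_zero]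
      · exact hθ.le
      have := (sum_eq_zero_iff_of_nonneg fun _ _ => sq_nonneg _).mp
        (le_antisymm hX (sum_nonneg fun _ _ => sq_nonneg _)) s hs
      rw [norm_eq_zero.mp (pow_eq_zero_iff two_ne_zero |>.mp this), smul_zero]
    have e1 := h1 (WithLp.toLp 2 fun s : I => η s g)
    rw [hB, sum_coe_sort I fun s => η s g • ξ s] at e1
    have e2 : ∀ a, ⟪v a, WithLp.toLp 2 fun s : I => η s g⟫_ℝ ^ 2 ≤ θ ^ 2 / X := fun a => by
      have c1 : |√X / θ * (∑ s : I, v a s • η s) g| ≤ 1 := hg a (mem_univ a)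
      have c2 := (sq_le_one_iff_abs_le_one _).mpr c1
      rw [mul_pow, div_pow, Real.sq_sqrt hX0, div_mul_eq_mul_div, div_le_one (by positivity)] at c2
      rw [h3, le_div_iff₀' hX1]
      simpa using c2
    refine (pow_le_pow_iff_left₀ (norm_nonneg _) hθ.le two_ne_zero).mp ?_
    rw [e1]
    refine (sum_le_sum fun a _ => mul_le_mul_of_nonneg_left (e2 a) (h2 a)).trans ?_
    rw [← sum_mul]
    refine (mul_le_mul_of_nonneg_right h4 (by positivity)).trans (le_of_eq ?_)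
    field_simp
  · rw [← mul_sum, div_pow, Real.sq_sqrt hX0, div_mul_eq_mul_div, ← sum_coe_sort I]
    congr 2
    simp only [nW]
    rw [sum_comm, sum_comm (s := univ)]
    refine sum_congr rfl fun i _ => ?_
    rw [← mul_sum, ← mul_sum, ← h5]
    simp

/-- (N2, whiteness bound)  Take an orthonormal basis `b` of `F` (`stdOrthonormalBasis`), `n` its
cardinality, rows `(√n/θ) • ∑ s, ⟪b c, ξ s⟫ • η s`. -/
theorem ctl_N2 (I : Finset ℕ) (ξ : ℕ → F) (η : ℕ → G →ₗ[ℝ] ℝ) {ω θ : ℝ}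
    (hθ : 0 < θ)
    (hwh : ∀ c : ℕ → ℝ, nW N w (∑ s ∈ I, c s • η s) ≤ ω * ∑ s ∈ I, c s ^ 2) :
    Ctl N w {g | ‖∑ s ∈ I, η s g • ξ s‖ ≤ θ}
      (finrank ℝ F * ω * (∑ s ∈ I, ‖ξ s‖ ^ 2) / θ ^ 2) := by
  let b := stdOrthonormalBasis ℝ F
  refine (Ctl.biInter univ _ _ fun c _ =>
    Ctl.slab' (∑ s ∈ I, ⟪b c, ξ s⟫_ℝ • η s) (√(finrank ℝ F) / θ)).mono (fun g hg => ?_) ?_
  · change ‖∑ s ∈ I, η s g • ξ s‖ ≤ θ
    refine (pow_le_pow_iff_left₀ (norm_nonneg _) hθ.le two_ne_zero).mp ?_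
    rw [← b.sum_sq_norm_inner_right]
    have e2 : ∀ c, ‖⟪b c, ∑ s ∈ I, η s g • ξ s⟫_ℝ‖ ^ 2 ≤ θ ^ 2 / finrank ℝ F := fun c => by
      have c1 : |√(finrank ℝ F) / θ * (∑ s ∈ I, ⟪b c, ξ s⟫_ℝ • η s) g| ≤ 1 := hg c (mem_univ c)
      have c2 := (sq_le_one_iff_abs_le_one _).mpr c1
      rw [mul_pow, div_pow, Real.sq_sqrt (Nat.cast_nonneg _), div_mul_eq_mul_div,
        div_le_one (by positivity)] at c2
      rw [Real.norm_eq_abs, sq_abs, le_div_iff₀' (by exact_mod_cast c.pos), inner_sum]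
      simpa [real_inner_smul_right, mul_comm] using c2
    refine (sum_le_sum fun c _ => e2 c).trans ?_
    rw [sum_const, card_univ, Fintype.card_fin, nsmul_eq_mul, mul_div_left_comm]
    exact mul_le_of_le_one_right (sq_nonneg _) (div_self_le_one _)
  · rw [← mul_sum, div_pow, Real.sq_sqrt (Nat.cast_nonneg _), div_mul_eq_mul_div, mul_assoc]
    gcongr
    refine (sum_le_sum fun c _ => hwh _).trans (le_of_eq ?_)
    rw [← mul_sum, sum_comm]
    congr 1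
    refine sum_congr rfl fun s _ => ?_
    simpa using b.sum_sq_norm_inner_right (ξ s)

theorem min_le_avg {p q α : ℝ} (hp : 0 ≤ p) (hq : 0 ≤ q) (hα : 0 < α) :
    min p q ≤ (α * p + q / α) / 2 := by
  have h1 : α * min p q ≤ α * p := mul_le_mul_of_nonneg_left (min_le_left _ _) hα.le
  have h2 : min p q / α ≤ q / α := div_le_div_of_nonneg_right (min_le_right _ _) hα.le
  have h3 : 0 ≤ min p q * (α - 1) ^ 2 / α := by
    have := le_min hp hq
    positivity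
  have h4 : min p q * (α - 1) ^ 2 / α = α * min p q + min p q / α - 2 * min p q := by
    field_simp; ring
  linarith

/-- **Chaining.**  Strong induction on `b - a` (for all `a b X θ α`).  If `b ≤ a` nothing is to
be shown (`Ico a t = ∅`).  Otherwise let `s₀ ∈ [a, b)` be the least index with
`∑_{Ico a (s₀+1)} ‖ξ‖² > X/2`, or `s₀ = b - 1` if there is none; then both `Ico a s₀` and
`Ico (s₀+1) b` have mass `≤ X/2`.  Constrain `‖∑_{Ico a (s₀+1)} η s g • ξ s‖ ≤ θ` at cost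
`min (N1) (N2) ≤ (α N1 + N2/α)/2` (`Ctl.min`; `min p q ≤ (α p + q/α)/2` for `p, q ≥ 0`), and
apply the induction hypothesis to `[a, s₀]` and `[s₀+1, b]` with `(X/2, 0.9 θ, 1.4 α)`:
`5 * 0.7/0.81 + 1/2 ≤ 5`, `5/(1.4 * 0.81) + 1/2 ≤ 5`, `θ + 10 * 0.9 θ = 10 θ`. -/
theorem chain (hw : ∀ i, 0 ≤ w i) (ξ : ℕ → F) (η : ℕ → G →ₗ[ℝ] ℝ) {ω : ℝ} (hω : 0 ≤ ω)
    (hwh : ∀ (I : Finset ℕ) (c : ℕ → ℝ), nW N w (∑ s ∈ I, c s • η s) ≤ ω * ∑ s ∈ I, c s ^ 2)
    (a b : ℕ) {X θ α : ℝ} (hθ : 0 < θ) (hα : 0 < α) (hX : ∑ s ∈ Ico a b, ‖ξ s‖ ^ 2 ≤ X) :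
    Ctl N w {g | ∀ t, a ≤ t → t ≤ b → ‖∑ s ∈ Ico a t, η s g • ξ s‖ ≤ 10 * θ}
      (5 * (α * X * (∑ s ∈ Ico a b, nW N w (η s)) +
        finrank ℝ F * ω * (∑ s ∈ Ico a b, ‖ξ s‖ ^ 2) / α) / θ ^ 2) := by
  induction h : b - a using Nat.strong_induction_on generalizing a b X θ α with
  | _ n ih =>
  have hX0 : 0 ≤ X := (sum_nonneg fun _ _ => sq_nonneg _).trans hX
  have hW : ∀ I : Finset ℕ, 0 ≤ ∑ s ∈ I, nW N w (η s) := fun I =>
    sum_nonneg fun _ _ => nW_nonneg hw _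
  have hm : ∀ I : Finset ℕ, 0 ≤ ∑ s ∈ I, ‖ξ s‖ ^ 2 := fun I => sum_nonneg fun _ _ => sq_nonneg _
  rcases le_or_gt b a with hab | hab
  · refine Ctl.of_forall (fun g t h1 h2 => ?_) ?_
    · rw [Ico_eq_empty_of_le (h2.trans hab), sum_empty, norm_zero]; positivity
    · have := hW (Ico a b)
      have := hm (Ico a b)
      positivity
  obtain ⟨s, hs, hmax⟩ := exists_max_image
    ((Ico a b).filter fun s => ∑ r ∈ Ico a s, ‖ξ r‖ ^ 2 ≤ X / 2) id
    ⟨a, mem_filter.mpr ⟨mem_Ico.mpr ⟨le_rfl, hab⟩, by simp; positivity⟩⟩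
  obtain ⟨hs, m1⟩ := mem_filter.mp hs
  obtain ⟨s1, s2⟩ := mem_Ico.mp hs
  have split : ∀ f : ℕ → ℝ, ∑ r ∈ Ico a (s + 1), f r + ∑ r ∈ Ico (s + 1) b, f r =
      ∑ r ∈ Ico a b, f r := fun f => sum_Ico_consecutive f (by omega) s2
  have m2 : ∑ r ∈ Ico (s + 1) b, ‖ξ r‖ ^ 2 ≤ X / 2 := by
    rcases (Nat.succ_le_of_lt s2).eq_or_lt with h1 | h1
    · rw [Ico_eq_empty_of_le h1.ge, sum_empty]; positivity
    · by_contra h2
      have := hmax (s + 1) (mem_filter.mpr ⟨mem_Ico.mpr ⟨by omega, h1⟩, by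
        linarith [split fun r => ‖ξ r‖ ^ 2]⟩)
      simp at this
  have i1 := ih (s - a) (by omega) a s (θ := 9 / 10 * θ) (α := 7 / 5 * α) (by positivity)
    (by positivity) m1 rfl
  have i2 := ih (b - (s + 1)) (by omega) (s + 1) b (θ := 9 / 10 * θ) (α := 7 / 5 * α)
    (by positivity) (by positivity) m2 rfl
  have i3 := (ctl_N1 (N := N) hw (Ico a (s + 1)) ξ η hθ (X := X)
    (by linarith [split fun r => ‖ξ r‖ ^ 2, hm (Ico (s + 1) b)])).min
    (ctl_N2 (Ico a (s + 1)) ξ η hθ (hwh _))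
  refine ((i1.inter i2).inter i3).mono ?_ ?_
  · rintro g ⟨⟨g1, g2⟩, g3⟩ t t1 t2
    rcases le_or_gt t s with h1 | h1
    · exact (g1 t t1 h1).trans (by linarith)
    · rw [← sum_Ico_consecutive _ (show a ≤ s + 1 by omega) h1]
      have g4 : ‖∑ s ∈ Ico a (s + 1), η s g • ξ s‖ ≤ θ := g3
      exact (norm_add_le _ _).trans (by linarith [g2 t h1 t2])
  · rw [← split, ← split, sum_Ico_succ_top s1, sum_Ico_succ_top s1]
    have a1 := hW (Ico a s)
    have a2 := hW (Ico (s + 1) b)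
    have a3 := hm (Ico a s)
    have a4 := hm (Ico (s + 1) b)
    have a5 := nW_nonneg (N := N) hw (η s)
    have a6 := sq_nonneg ‖ξ s‖
    generalize ∑ r ∈ Ico a s, nW N w (η r) = W1 at *
    generalize ∑ r ∈ Ico (s + 1) b, nW N w (η r) = W2 at *
    generalize ∑ r ∈ Ico a s, ‖ξ r‖ ^ 2 = M1 at *
    generalize ∑ r ∈ Ico (s + 1) b, ‖ξ r‖ ^ 2 = M2 at *
    generalize nW N w (η s) = W0 at *
    generalize ‖ξ s‖ ^ 2 = M0 at *
    have a7 : 0 ≤ finrank ℝ F * ω := by positivity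
    generalize finrank ℝ F * ω = c at *
    have a8 := min_le_avg (p := X * (W1 + W0) / θ ^ 2) (q := c * (M1 + M0) / θ ^ 2)
      (by positivity) (by positivity) hα
    refine (add_le_add le_rfl a8).trans ?_
    have b1 : 0 ≤ α * X * W1 / θ ^ 2 := by positivity
    have b2 : 0 ≤ α * X * W2 / θ ^ 2 := by positivity
    have b3 : 0 ≤ α * X * W0 / θ ^ 2 := by positivity
    have b4 : 0 ≤ c * M1 / α / θ ^ 2 := by positivity
    have b5 : 0 ≤ c * M2 / α / θ ^ 2 := by positivity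
    have b6 : 0 ≤ c * M0 / α / θ ^ 2 := by positivity
    have e1 : ∀ W M : ℝ, 5 * (7 / 5 * α * (X / 2) * W + c * M / (7 / 5 * α)) / (9 / 10 * θ) ^ 2 =
        350 / 81 * (α * X * W / θ ^ 2) + 2500 / 567 * (c * M / α / θ ^ 2) := fun W M => by
      field_simp; ring
    rw [e1, e1]
    have e2 : (α * (X * (W1 + W0) / θ ^ 2) + c * (M1 + M0) / θ ^ 2 / α) / 2 =
        (α * X * W1 / θ ^ 2 + α * X * W0 / θ ^ 2 + c * M1 / α / θ ^ 2 + c * M0 / α / θ ^ 2) / 2 := by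
      ring
    have e3 : 5 * (α * X * (W1 + W0 + W2) + c * (M1 + M0 + M2) / α) / θ ^ 2 =
        5 * (α * X * W1 / θ ^ 2 + α * X * W0 / θ ^ 2 + α * X * W2 / θ ^ 2 + c * M1 / α / θ ^ 2 +
          c * M0 / α / θ ^ 2 + c * M2 / α / θ ^ 2) := by
      ring
    rw [e2, e3]
    linarith

end Crest.Agent.R239
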