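import Crest.Agent.R239.Bud

/-! # The band size at the anchor is comparable with the band size during the window -/

set_option autoImplicit false
set_option linter.unusedSectionVars false

namespace Crest.Agent.R239

open Finset Module
open scoped InnerProductSpace

variable {E : Type} [NormedAddCommGroup E] [InnerProductSpace ℝ E] [FiniteDimensional ℝ E]

/-- `res_rank_one` with a weight -/
theorem cmp_res_rank_one {A : E →ₗ[ℝ] E} (hA : A.IsSymmetric) (hpos : ∀ y, 0 ≤ ⟪y, A y⟫_ℝ)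
    {x : ℝ} (hx : 0 < x) {c : ℝ} (hc : 0 ≤ c) {z : E}
    (hz : ∀ u, c * ⟪z, u⟫_ℝ ^ 2 ≤ ⟪u, A u⟫_ℝ) :
    c * ⟪z, res A x z⟫_ℝ ≤ c * ‖z‖ ^ 2 / (c * ‖z‖ ^ 2 + x) := by
  have hs : √c * √c = c := Real.mul_self_sqrt hc
  have h1 : ∀ u, ⟪√c • z, u⟫_ℝ ^ 2 ≤ ⟪u, A u⟫_ℝ := by
    intro u
    have h2 : ⟪√c • z, u⟫_ℝ ^ 2 = c * ⟪z, u⟫_ℝ ^ 2 := by
      rw [real_inner_smul_left, mul_pow, Real.sq_sqrt hc]
    rw [h2]; exact hz u
  have h3 := res_rank_one hA hpos hx h1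
  have h4 : ‖√c • z‖ ^ 2 = c * ‖z‖ ^ 2 := by
    rw [norm_smul, mul_pow, Real.norm_eq_abs, sq_abs, Real.sq_sqrt hc]
  have h5 : ⟪√c • z, res A x (√c • z)⟫_ℝ = c * ⟪z, res A x z⟫_ℝ := by
    rw [map_smul, real_inner_smul_left, real_inner_smul_right, ← mul_assoc, hs]
  rw [h4, h5] at h3
  exact h3

theorem cmp_pt {l m : ℝ} (hl : 0 < l) (hm : 0 < m) :
    (m / (m + del * l)) ^ 2 - max 0 (1 - l / m) ≤ 4 / del * Gf l m := by
  have hd := del_pos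
  have hd' := del_le
  have hdl : 0 < del * l := mul_pos hd hl
  have hq0 : 0 ≤ m / (m + del * l) := by positivity
  have hq1 : m / (m + del * l) ≤ 1 := by
    rw [div_le_one (by positivity)]; linarith
  have hq2 : (m / (m + del * l)) ^ 2 ≤ m / (m + del * l) := by nlinarith
  have hG := Gf_nonneg hl hm
  rcases le_total m l with h | h
  · have h1 := div_le_Gf' hm h
    have h2 : m / (m + del * l) ≤ m / (del * l) :=
      div_le_div_of_nonneg_left hm.le hdl (by linarith)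
    have h3 : m / (del * l) = (m / l) / del := by field_simp
    have h4 : (m / l) / del ≤ 4 * Gf l m / del := div_le_div_of_nonneg_right h1 hd.le
    have h5 : 4 * Gf l m / del = 4 / del * Gf l m := by ring
    have h6 : (0 : ℝ) ≤ max 0 (1 - l / m) := le_max_left _ _
    linarith
  · have h1 := div_le_Gf hl h
    have h2 : 1 - l / m ≤ max 0 (1 - l / m) := le_max_right _ _
    have h3 : (4 : ℝ) ≤ 4 / del := by
      rw [le_div_iff₀ hd]; linarith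
    have h4 : 4 * Gf l m ≤ 4 / del * Gf l m := mul_le_mul_of_nonneg_right h3 hG
    linarith

namespace Sys
variable (S : Sys E)

/-- Bessel for the transported eigenvectors -/
theorem cmp_bessel (a b : ℕ) (I : Finset (Fin (finrank ℝ E))) (y : E) :
    ∑ j ∈ I, ⟪S.T a b (S.p a j), y⟫_ℝ ^ 2 ≤ ‖y‖ ^ 2 := by
  calc ∑ j ∈ I, ⟪S.T a b (S.p a j), y⟫_ℝ ^ 2
      ≤ ∑ j, ⟪S.T a b (S.p a j), y⟫_ℝ ^ 2 :=
        sum_le_sum_of_subset_of_nonneg (subset_univ _) fun _ _ _ => sq_nonneg _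
    _ = ‖S.Tt a b y‖ ^ 2 := by
        rw [S.norm_sq_eig a]
        exact sum_congr rfl fun j _ => by rw [S.inner_T]
    _ ≤ ‖y‖ ^ 2 := pow_le_pow_left₀ (norm_nonneg _) (S.norm_Tt_le a b y) 2

theorem cmp_pRp (a : ℕ) {x : ℝ} (hx : 0 < x) (j : Fin (finrank ℝ E)) :
    ⟪S.p a j, S.R a x (S.p a j)⟫_ℝ = (S.μ a j + x)⁻¹ := by
  rw [S.p_R a hx, real_inner_self_eq_norm_sq, (S.p a).orthonormal.1 j]
  simp

theorem cmp_qv_R_le {x : ℝ} (hx : 0 < x) {a t : ℕ} (h : a ≤ t) (z : E) :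
    ⟪S.T a t z, S.R t x (S.T a t z)⟫_ℝ ≤ ⟪z, S.R a x z⟫_ℝ := by
  have h1 := S.qv_sum hx h z
  have h2 : 0 ≤ ∑ s ∈ Ico a t, S.V x s * ⟪S.T a (s + 1) z, S.R (s + 1) x (S.φ s)⟫_ℝ ^ 2 :=
    sum_nonneg fun s _ => mul_nonneg (by linarith [S.V_ge hx s, S.w_pos s]) (sq_nonneg _)
  linarith

theorem cmp_qv_sum_le {x : ℝ} (hx : 0 < x) {a t : ℕ} (h : a ≤ t) (z : E) :
    ∑ s ∈ Ico a t, x * ⟪S.T a (s + 1) z, S.R (s + 1) x (S.φ s)⟫_ℝ ^ 2 ≤ ⟪z, S.R a x z⟫_ℝ := by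
  have h1 := S.qv_sum hx h z
  have h2 : 0 ≤ ⟪S.T a t z, S.R t x (S.T a t z)⟫_ℝ :=
    res_nonneg (S.M_symm t) (S.M_nonneg t) hx _
  have h3 : ∑ s ∈ Ico a t, x * ⟪S.T a (s + 1) z, S.R (s + 1) x (S.φ s)⟫_ℝ ^ 2 ≤
      ∑ s ∈ Ico a t, S.V x s * ⟪S.T a (s + 1) z, S.R (s + 1) x (S.φ s)⟫_ℝ ^ 2 :=
    sum_le_sum fun s _ =>
      mul_le_mul_of_nonneg_right (by linarith [S.V_ge hx s, S.w_pos s]) (sq_nonneg _)
  linarith

/-- for `μ ≥ ελ`: `δλ/(μ+δλ) ≤ δλ/μ ≤ δ (1 + 1/ε) λ/(μ+λ)`, and `del_eps` -/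
theorem tail_le (k a : ℕ) :
    ∑ j ∈ S.H k a, del * S.lam k / (S.μ a j + del * S.lam k) ≤ S.nn k a / 24 := by
  rw [nn, sum_div]
  refine sum_le_sum fun j hj => ?_
  have h1 : eps * S.lam k ≤ S.μ a j := (mem_filter.1 hj).2
  have hl := S.lam_pos k
  have hm := S.mu_pos a j
  have hd := del_pos
  have he := eps_le
  have he0 := eps_pos
  have hde : del = eps / 48 := rfl
  generalize S.lam k = l at *
  generalize S.μ a j = m at *
  rw [div_div, div_le_div_iff₀ (by positivity) (by positivity)]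
  have h2 : 24 * del * (m + l) ≤ m + del * l := by
    have h3 : eps * m ≤ m := by nlinarith
    have h4 : 0 ≤ del * l := by positivity
    rw [hde] at h4 ⊢
    nlinarith
  nlinarith

/-- `x = δλ`.  By `norm_T_sq`, `Dd = ∑_{s ∈ Ico a t} ∑_{j∈H} ⟪φ s, T a s p j⟫²`, and with
`z = T a (s+1) p j`: `⟪φ, z⟫ = rr * ⟪φ, T a s p j⟫` (`inner_Ph_self`), `rr² ≥ 1/2`,
`⟪z, φ⟫² ≤ 2 ⟪z, φ - x R φ⟫² + 2 x² ⟪z, R (s+1) x φ⟫²`.  Bessel + `norm_Tt_le`:
`∑_j ⟪T p j, ψ⟫² ≤ ‖ψ‖²`; `qv_sum`, `V_ge`: `∑_s x² ⟪z, R φ⟫² ≤ x ⟪p j, R a x p j⟫ = x/(μ+x)`. -/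
theorem Dd_le (k : ℕ) {a t : ℕ} (h : a ≤ t) :
    S.Dd k a t ≤
      ∑ s ∈ Ico a t, 4 * ‖S.φ s - (del * S.lam k) • S.R (s + 1) (del * S.lam k) (S.φ s)‖ ^ 2 +
        4 * ∑ j ∈ S.H k a, del * S.lam k / (S.μ a j + del * S.lam k) := by
  have hx : 0 < del * S.lam k := mul_pos del_pos (S.lam_pos k)
  generalize del * S.lam k = x at *
  have h1 : ∀ j ∈ S.H k a, 1 - ‖S.T a t (S.p a j)‖ ^ 2 ≤
      ∑ s ∈ Ico a t, 4 * ⟪S.T a (s + 1) (S.p a j), S.φ s - x • S.R (s + 1) x (S.φ s)⟫_ℝ ^ 2 +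
        4 * (x / (S.μ a j + x)) := by
    intro j _
    rw [S.norm_T_sq h, (S.p a).orthonormal.1 j]
    have h2 := S.cmp_qv_sum_le hx h (S.p a j)
    rw [S.cmp_pRp a hx] at h2
    have h3 : ∑ s ∈ Ico a t, ⟪S.φ s, S.T a s (S.p a j)⟫_ℝ ^ 2 ≤
        ∑ s ∈ Ico a t, (4 * ⟪S.T a (s + 1) (S.p a j), S.φ s - x • S.R (s + 1) x (S.φ s)⟫_ℝ ^ 2 +
          4 * x * (x * ⟪S.T a (s + 1) (S.p a j), S.R (s + 1) x (S.φ s)⟫_ℝ ^ 2)) := by
      refine sum_le_sum fun s hs => ?_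
      have has : a ≤ s := (mem_Ico.1 hs).1
      have h4 : ⟪S.T a (s + 1) (S.p a j), S.φ s⟫_ℝ =
          rr (S.φ s) * ⟪S.φ s, S.T a s (S.p a j)⟫_ℝ := by
        rw [real_inner_comm, S.T_succ has, inner_Ph_self (S.hφ s)]
      have h5 := half_le_rr_sq (S.hφ s)
      rw [inner_sub_right, real_inner_smul_right, h4]
      generalize ⟪S.φ s, S.T a s (S.p a j)⟫_ℝ = α
      generalize ⟪S.T a (s + 1) (S.p a j), S.R (s + 1) x (S.φ s)⟫_ℝ = β
      generalize rr (S.φ s) = r at h5 ⊢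
      have h6 : α ^ 2 ≤ 2 * (r * α) ^ 2 := by nlinarith [sq_nonneg α]
      nlinarith [sq_nonneg (r * α - 2 * (x * β))]
    rw [sum_add_distrib, ← mul_sum (Ico a t) _ (4 * x)] at h3
    have h7 : 4 * x * ∑ s ∈ Ico a t,
        x * ⟪S.T a (s + 1) (S.p a j), S.R (s + 1) x (S.φ s)⟫_ℝ ^ 2 ≤ 4 * x * (S.μ a j + x)⁻¹ :=
      mul_le_mul_of_nonneg_left h2 (by positivity)
    have h8 : 4 * x * (S.μ a j + x)⁻¹ = 4 * (x / (S.μ a j + x)) := by ring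
    linarith
  refine (sum_le_sum h1).trans ?_
  rw [sum_add_distrib, ← mul_sum, sum_comm]
  refine add_le_add (sum_le_sum fun s _ => ?_) le_rfl
  rw [← mul_sum]
  exact mul_le_mul_of_nonneg_left (S.cmp_bessel a (s + 1) _ _) (by norm_num)

/-- `card H - Dd = ∑_{j∈H} ‖T p j‖²`; for `z = T a t p j`, in the eigenbasis `y i = p t i`, with
`q i = μ/(μ+x)`: `1 ≤ q² + 2 (1 - q)`, so `‖z‖² ≤ ∑ q² ⟪y i, z⟫² + 2 x ⟪z, R t x z⟫`,
`⟪z, R t x z⟫ ≤ 1/(μ a j + x)` (`qv_sum`), `∑_{j} ⟪y i, T p j⟫² ≤ 1`. -/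
theorem card_H_le (k : ℕ) {a t : ℕ} (h : a ≤ t) :
    ((S.H k a).card : ℝ) ≤ S.qq k t + S.Dd k a t +
      2 * ∑ j ∈ S.H k a, del * S.lam k / (S.μ a j + del * S.lam k) := by
  have hx : 0 < del * S.lam k := mul_pos del_pos (S.lam_pos k)
  rw [qq, Dd]
  generalize del * S.lam k = x at *
  have h1 : ∀ j ∈ S.H k a, ‖S.T a t (S.p a j)‖ ^ 2 ≤
      ∑ i, (S.μ t i / (S.μ t i + x)) ^ 2 * ⟪S.T a t (S.p a j), S.p t i⟫_ℝ ^ 2 +
        2 * (x / (S.μ a j + x)) := by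
    intro j _
    have h2 := S.cmp_qv_R_le hx h (S.p a j)
    rw [S.cmp_pRp a hx, S.inner_R_eig t hx] at h2
    have h3 : 2 * x * ∑ i, (S.μ t i + x)⁻¹ *
        (⟪S.p t i, S.T a t (S.p a j)⟫_ℝ * ⟪S.p t i, S.T a t (S.p a j)⟫_ℝ) ≤
        2 * x * (S.μ a j + x)⁻¹ := mul_le_mul_of_nonneg_left h2 (by positivity)
    have h4 : 2 * x * (S.μ a j + x)⁻¹ = 2 * (x / (S.μ a j + x)) := by ring
    rw [← h4]
    refine le_trans ?_ (add_le_add le_rfl h3)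
    rw [S.norm_sq_eig t, mul_sum, ← sum_add_distrib]
    refine sum_le_sum fun i _ => ?_
    rw [real_inner_comm (S.p t i)]
    have hm := S.mu_pos t i
    generalize ⟪S.p t i, S.T a t (S.p a j)⟫_ℝ = α
    generalize S.μ t i = m at hm
    have h5 : x * (m + x)⁻¹ = 1 - m / (m + x) := by field_simp; ring
    have h6 : 2 * x * ((m + x)⁻¹ * (α * α)) = 2 * (1 - m / (m + x)) * α ^ 2 := by
      rw [← h5]; ring
    rw [h6]
    nlinarith [mul_nonneg (sq_nonneg (1 - m / (m + x))) (sq_nonneg α)]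
  have h7 := sum_le_sum h1
  rw [sum_add_distrib, ← mul_sum, sum_comm] at h7
  have h8 : ∑ i, ∑ j ∈ S.H k a,
      (S.μ t i / (S.μ t i + x)) ^ 2 * ⟪S.T a t (S.p a j), S.p t i⟫_ℝ ^ 2 ≤
      ∑ i, (S.μ t i / (S.μ t i + x)) ^ 2 := by
    refine sum_le_sum fun i _ => ?_
    rw [← mul_sum]
    have h9 := S.cmp_bessel a t (S.H k a) (S.p t i)
    rw [(S.p t).orthonormal.1 i, one_pow] at h9
    exact mul_le_of_le_one_right (sq_nonneg _) h9
  rw [sum_sub_distrib, sum_const, nsmul_eq_mul, mul_one]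
  linarith

/-- `A' = ∑_{j∈H} μ j • rk (T p j) (T p j) + ∑_{i ∈ hv k a t} w i • rk (A i t) (A i t)` is
symmetric, `≥ 0`, and `M t ≤ A' + λ` (`M_decomp`, `id_decomp`, `eps ≤ 1`).  `R' = res A' λ`.
For `y = p t i`, `u = R' y`: `⟪y, u⟫ = ⟪u, A' u⟫ + λ‖u‖² ≥ ⟪u, M t u⟫ ≥ μ ⟪y, u⟫²`, so
`⟪y, R' y⟫ ≤ 1/μ`; also `λ ⟪y, R' y⟫ ≤ 1` (`res_le`).  Thus
`max 0 (1 - λ/μ) ≤ 1 - λ ⟪y, R' y⟫ = ⟪y, A' (R' y)⟫`, and summing over `i`,
`∑_i ⟪y i, A' R' y i⟫ = ∑_v ⟪v, R' v⟫` over `v = √μ j • T p j`, `√w i • A i t`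
(`OrthonormalBasis.sum_inner_mul_inner`), each term bounded by `res_rank_one`. -/
theorem heavy_le (k : ℕ) {a t : ℕ} (h : a ≤ t) :
    ∑ i, max 0 (1 - S.lam k / S.μ t i) ≤
      ∑ j ∈ S.H k a, S.μ a j / (S.μ a j + S.lam k) + (S.hv k a t).card := by
  have hl := S.lam_pos k
  obtain ⟨B, hB⟩ : ∃ B : E →ₗ[ℝ] E, ∀ u v, ⟪u, B v⟫_ℝ =
      ∑ j ∈ S.H k a, S.μ a j * (⟪S.T a t (S.p a j), u⟫_ℝ * ⟪S.T a t (S.p a j), v⟫_ℝ) +
        ∑ i ∈ S.hv k a t, S.w i * (⟪S.A i t, u⟫_ℝ * ⟪S.A i t, v⟫_ℝ) := by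
    refine ⟨∑ j ∈ S.H k a, S.μ a j • rk (S.T a t (S.p a j)) (S.T a t (S.p a j)) +
      ∑ i ∈ S.hv k a t, S.w i • rk (S.A i t) (S.A i t), fun u v => ?_⟩
    rw [LinearMap.add_apply, LinearMap.sum_apply, LinearMap.sum_apply, inner_add_right,
      inner_sum, inner_sum]
    congr 1
    · refine sum_congr rfl fun j _ => ?_
      rw [LinearMap.smul_apply, rk_apply, real_inner_smul_right, real_inner_smul_right,
        real_inner_comm u]
      ring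
    · refine sum_congr rfl fun j _ => ?_
      rw [LinearMap.smul_apply, rk_apply, real_inner_smul_right, real_inner_smul_right,
        real_inner_comm u]
      ring
  have hsym : B.IsSymmetric := by
    intro u v
    rw [real_inner_comm, hB, hB]
    simp only [mul_comm]
  have hn1 : ∀ u, ∀ j ∈ S.H k a,
      0 ≤ S.μ a j * (⟪S.T a t (S.p a j), u⟫_ℝ * ⟪S.T a t (S.p a j), u⟫_ℝ) :=
    fun u j _ => mul_nonneg (S.mu_pos a j).le (mul_self_nonneg _)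
  have hn2 : ∀ u, ∀ i ∈ S.hv k a t, 0 ≤ S.w i * (⟪S.A i t, u⟫_ℝ * ⟪S.A i t, u⟫_ℝ) :=
    fun u i _ => mul_nonneg (S.w_pos i).le (mul_self_nonneg _)
  have hpos : ∀ u, 0 ≤ ⟪u, B u⟫_ℝ := by
    intro u
    rw [hB]
    exact add_nonneg (sum_nonneg (hn1 u)) (sum_nonneg (hn2 u))
  have hel : eps * S.lam k ≤ S.lam k := by nlinarith [eps_le]
  have hM : ∀ u, ⟪u, S.M t u⟫_ℝ ≤ ⟪u, B u⟫_ℝ + S.lam k * ‖u‖ ^ 2 := by
    intro u
    have e1 := S.id_decomp h u u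
    rw [real_inner_self_eq_norm_sq, real_inner_self_eq_norm_sq, S.norm_sq_eig a (S.Tt a t u)] at e1
    rw [S.M_decomp h, S.inner_M_eig, hB, e1, mul_add, mul_sum, mul_sum, H, hv, sum_filter,
      sum_filter]
    have e2 : ∑ j, S.μ a j * (⟪S.p a j, S.Tt a t u⟫_ℝ * ⟪S.p a j, S.Tt a t u⟫_ℝ) ≤
        ∑ j, ((if eps * S.lam k ≤ S.μ a j then
          S.μ a j * (⟪S.T a t (S.p a j), u⟫_ℝ * ⟪S.T a t (S.p a j), u⟫_ℝ) else 0) +
          S.lam k * ⟪S.p a j, S.Tt a t u⟫_ℝ ^ 2) := by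
      refine sum_le_sum fun j _ => ?_
      rw [S.inner_T]
      generalize ⟪S.p a j, S.Tt a t u⟫_ℝ = α
      split_ifs with hj
      · nlinarith [mul_nonneg hl.le (sq_nonneg α)]
      · have : S.μ a j ≤ S.lam k := by linarith [not_le.1 hj]
        nlinarith [mul_le_mul_of_nonneg_right this (sq_nonneg α)]
    have e3 : ∑ i ∈ Ico a t, S.w i * (⟪S.A i t, u⟫_ℝ * ⟪S.A i t, u⟫_ℝ) ≤
        ∑ i ∈ Ico a t, ((if eps * S.lam k ≤ S.w i then
          S.w i * (⟪S.A i t, u⟫_ℝ * ⟪S.A i t, u⟫_ℝ) else 0) +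
          S.lam k * (⟪S.A i t, u⟫_ℝ * ⟪S.A i t, u⟫_ℝ)) := by
      refine sum_le_sum fun i _ => ?_
      generalize ⟪S.A i t, u⟫_ℝ = α
      split_ifs with hj
      · nlinarith [mul_nonneg hl.le (mul_self_nonneg α)]
      · have : S.w i ≤ S.lam k := by linarith [not_le.1 hj]
        nlinarith [mul_le_mul_of_nonneg_right this (mul_self_nonneg α)]
    rw [sum_add_distrib] at e2 e3
    linarith
  have hpt : ∀ i, max 0 (1 - S.lam k / S.μ t i) ≤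
      ⟪S.p t i, B (res B (S.lam k) (S.p t i))⟫_ℝ := by
    intro i
    have hm := S.mu_pos t i
    have hy : ‖S.p t i‖ = 1 := (S.p t).orthonormal.1 i
    have f1 := res_spec hsym hpos hl (S.p t i)
    have f2 := res_le hsym hpos hl (S.p t i)
    have f3 := res_nonneg hsym hpos hl (S.p t i)
    have f4 := hM (res B (S.lam k) (S.p t i))
    have f5 : S.μ t i * ⟪S.p t i, res B (S.lam k) (S.p t i)⟫_ℝ ^ 2 ≤
        ⟪res B (S.lam k) (S.p t i), S.M t (res B (S.lam k) (S.p t i))⟫_ℝ := by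
      rw [S.inner_M_eig, sq]
      exact single_le_sum (f := fun j => S.μ t j * (⟪S.p t j, res B (S.lam k) (S.p t i)⟫_ℝ *
        ⟪S.p t j, res B (S.lam k) (S.p t i)⟫_ℝ))
        (fun j _ => mul_nonneg (S.mu_pos t j).le (mul_self_nonneg _)) (mem_univ i)
    generalize res B (S.lam k) (S.p t i) = u at *
    have f6 : ⟪u, B u⟫_ℝ + S.lam k * ‖u‖ ^ 2 = ⟪S.p t i, u⟫_ℝ := by
      rw [real_inner_comm u (S.p t i), ← real_inner_self_eq_norm_sq, ← real_inner_smul_right,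
        ← inner_add_right, f1]
    have f7 : ⟪S.p t i, B u⟫_ℝ + S.lam k * ⟪S.p t i, u⟫_ℝ = 1 := by
      rw [← real_inner_smul_right, ← inner_add_right, f1, real_inner_self_eq_norm_sq, hy, one_pow]
    rw [hy, one_pow] at f2
    generalize ⟪S.p t i, u⟫_ℝ = σ at *
    have f8 : σ ≤ 1 / S.μ t i := by
      rw [le_div_iff₀ hm]
      by_contra hc
      have hc := not_le.1 hc
      have hσ : 0 < σ := by
        by_contra h0
        have : σ = 0 := le_antisymm (not_lt.1 h0) f3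
        rw [this] at hc; linarith
      nlinarith
    have f9 : S.lam k * σ ≤ S.lam k / S.μ t i := by
      rw [div_eq_mul_one_div]
      exact mul_le_mul_of_nonneg_left f8 hl.le
    exact max_le (by linarith) (by linarith)
  refine (sum_le_sum fun i _ => hpt i).trans ?_
  have hRs := res_symm hsym hpos hl
  have htr : ∀ v : E, ∑ i, ⟪v, S.p t i⟫_ℝ * ⟪v, res B (S.lam k) (S.p t i)⟫_ℝ =
      ⟪v, res B (S.lam k) v⟫_ℝ := by
    intro v
    rw [← (S.p t).sum_inner_mul_inner v (res B (S.lam k) v)]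
    refine sum_congr rfl fun i _ => ?_
    rw [← hRs v, real_inner_comm (S.p t i) (res B (S.lam k) v)]
  simp only [hB]
  rw [sum_add_distrib, sum_comm, sum_comm (s := univ) (t := S.hv k a t)]
  refine add_le_add (sum_le_sum fun j hj => ?_) ?_
  · rw [← mul_sum, htr]
    have hm := S.mu_pos a j
    have g1 := cmp_res_rank_one hsym hpos hl hm.le (z := S.T a t (S.p a j)) (by
      intro u
      rw [hB, sq]
      have := single_le_sum (hn1 u) hj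
      linarith [sum_nonneg (hn2 u)])
    refine g1.trans ?_
    have g2 : ‖S.T a t (S.p a j)‖ ^ 2 ≤ 1 := by
      have := S.norm_T_le a t (S.p a j)
      rw [(S.p a).orthonormal.1 j] at this
      exact pow_le_one₀ (norm_nonneg _) this
    have g3 : 0 ≤ ‖S.T a t (S.p a j)‖ ^ 2 := sq_nonneg _
    generalize ‖S.T a t (S.p a j)‖ ^ 2 = n at g2 g3
    rw [div_le_div_iff₀ (by positivity) (by positivity)]
    nlinarith [mul_nonneg (mul_nonneg hm.le hl.le) (sub_nonneg.2 g2)]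
  · rw [card_eq_sum_ones, Nat.cast_sum]
    refine sum_le_sum fun i hi => ?_
    rw [← mul_sum, htr]
    have hw := S.w_pos i
    have g1 := cmp_res_rank_one hsym hpos hl hw.le (z := S.A i t) (by
      intro u
      rw [hB, sq]
      have := single_le_sum (hn2 u) hi
      linarith [sum_nonneg (hn1 u)])
    refine g1.trans ?_
    rw [Nat.cast_one, div_le_one (by positivity)]
    linarith

/-- `nn = card H - ∑_H μ/(μ+λ)`; `∑ clock = ∑ 4‖…‖² + card hv`; pointwise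
`(μ/(μ+δλ))² - max 0 (1 - λ/μ) ≤ (4/δ) Gf λ μ` (`μ ≤ λ`: `≤ μ/(δλ)`; `λ ≤ μ`: `≤ λ/μ`). -/
theorem window (k : ℕ) {a t : ℕ} (h : a ≤ t)
    (hc : ∑ s ∈ Ico a t, S.clock k s ≤ S.nn k a / 4) :
    S.Dd k a t + (S.hv k a t).card ≤ 5 / 12 * S.nn k a ∧
      S.nn k a ≤ 2 * S.qq k t ∧
      S.nn k a ≤ 8 / del * ∑ i, Gf (S.lam k) (S.μ t i) := by
  have hl := S.lam_pos k
  have h1 := S.tail_le k a
  have h2 := S.Dd_le k h
  have h3 := S.card_H_le k h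
  have h4 := S.heavy_le k h
  have h5 : ∑ s ∈ Ico a t, S.clock k s =
      ∑ s ∈ Ico a t, 4 * ‖S.φ s - (del * S.lam k) • S.R (s + 1) (del * S.lam k) (S.φ s)‖ ^ 2 +
        (S.hv k a t).card := by
    simp only [clock]
    rw [sum_add_distrib, hv, card_eq_sum_ones, Nat.cast_sum, sum_filter]
    simp
  have h6 : S.nn k a + ∑ j ∈ S.H k a, S.μ a j / (S.μ a j + S.lam k) = (S.H k a).card := by
    rw [nn, ← sum_add_distrib, card_eq_sum_ones, Nat.cast_sum]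
    refine sum_congr rfl fun j _ => ?_
    have := S.mu_pos a j
    rw [Nat.cast_one]
    field_simp
    ring
  have h7 : 0 ≤ ∑ j ∈ S.H k a, S.μ a j / (S.μ a j + S.lam k) :=
    sum_nonneg fun j _ => by have := S.mu_pos a j; positivity
  have h8 : S.qq k t - ∑ i, max 0 (1 - S.lam k / S.μ t i) ≤
      4 / del * ∑ i, Gf (S.lam k) (S.μ t i) := by
    rw [qq, ← sum_sub_distrib, mul_sum]
    exact sum_le_sum fun i _ => cmp_pt hl (S.mu_pos t i)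
  have h9 : (0 : ℝ) ≤ (S.hv k a t).card := Nat.cast_nonneg _
  have h10 : 8 / del * ∑ i, Gf (S.lam k) (S.μ t i) =
      2 * (4 / del * ∑ i, Gf (S.lam k) (S.μ t i)) := by ring
  refine ⟨by linarith, by linarith, by linarith⟩

end Sys

end Crest.Agent.R239
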