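import Crest.Agent.R239.Inno
import Crest.Agent.R239.Chain

/-! # Controlling a family of transported columns during a window -/

set_option autoImplicit false
set_option linter.unusedSectionVars false

namespace Crest.Agent.R239

open Finset Module
open scoped InnerProductSpace

variable {E : Type} [NormedAddCommGroup E] [InnerProductSpace ℝ E] [FiniteDimensional ℝ E]

namespace ColAux

theorem geo_le {r : ℝ} (h0 : 0 ≤ r) (h1 : r < 1) (k : ℕ) :
    ∑ k' ∈ range (k + 1), r ^ (k - k') ≤ (1 - r)⁻¹ := by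
  rw [Finset.sum_flip (fun i => r ^ i), ← tsum_geometric_of_lt_one h0 h1]
  exact (summable_geometric_of_lt_one h0 h1).sum_le_tsum _ fun i _ => pow_nonneg h0 i

theorem sum_Ico_ite {a c t : ℕ} (h : a ≤ c) (f : ℕ → ℝ) :
    ∑ s ∈ Ico a t, (if c ≤ s then f s else 0) = ∑ s ∈ Ico c t, f s := by
  rw [← Finset.sum_filter]
  refine Finset.sum_congr ?_ fun _ _ => rfl
  ext s
  simp only [mem_filter, mem_Ico]
  omega

end ColAux

namespace Sys
variable (S : Sys E)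

theorem col_w_nonneg (i : ℕ) : 0 ≤ S.w i := (S.w_pos i).le

theorem col_bud_nonneg (N k s : ℕ) : 0 ≤ S.bud N k s := by
  unfold bud
  refine add_nonneg ?_ (sum_nonneg fun k' _ => mul_nonneg (by positivity)
    (nW_nonneg S.col_w_nonneg _))
  split_ifs
  · exact (S.lam_pos k).le
  · exact le_rfl

theorem col_lam_eq {k k' : ℕ} (h : k' ≤ k) : S.lam k = 4 ^ (k - k') * S.lam k' := by
  unfold lam
  rw [← mul_assoc, ← pow_add, Nat.sub_add_cancel h]

theorem col_V_ge (k s : ℕ) : S.lam k ≤ S.V (S.lam k) s :=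
  le_trans (le_add_of_nonneg_left (S.col_w_nonneg s)) (S.V_ge (S.lam_pos k) s)

/-- the coefficient vectors -/
noncomputable def colXi (k : ℕ) {C : Type} (τ : C → ℕ) (z : C → E) (s : ℕ) :
    EuclideanSpace ℝ C :=
  WithLp.toLp 2 fun c => if τ c ≤ s then
    S.lam k * ⟪S.T (τ c) (s + 1) (z c), S.R (s + 1) (S.lam k) (S.φ s)⟫_ℝ else 0

/-- the birth functionals -/
noncomputable def colBeta (k : ℕ) {C : Type} (τ : C → ℕ) (z : C → E) (c : C) : G →ₗ[ℝ] ℝ :=
  S.pair (τ c) (S.lam k • S.R (τ c) (S.lam k) (z c))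

/-- the big part of the innovation -/
noncomputable def colBig (k s : ℕ) : G →ₗ[ℝ] ℝ :=
  if 4 * S.lam k ≤ S.w s then S.iota (S.lam k) s else 0

theorem col_ident (k a t : ℕ) {C : Type} (τ : C → ℕ) (z : C → E) (c : C) (ha : a ≤ τ c)
    (ht : τ c ≤ t) (g : G) :
    ⟪S.T (τ c) t (z c), S.Y k t g⟫_ℝ = S.colBeta k τ z c g +
      ∑ s ∈ Ico a t, S.iota (S.lam k) s g * S.colXi k τ z s c := by
  have h1 : ∑ s ∈ Ico a t, S.iota (S.lam k) s g * S.colXi k τ z s c =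
      ∑ s ∈ Ico (τ c) t, S.lam k * (⟪S.T (τ c) (s + 1) (z c), S.R (s + 1) (S.lam k) (S.φ s)⟫_ℝ *
        S.iota (S.lam k) s g) := by
    rw [← ColAux.sum_Ico_ite ha]
    refine sum_congr rfl fun s _ => ?_
    simp only [colXi]
    split_ifs <;> ring
  rw [h1, ← mul_sum, Y, inner_smul_right, S.pair_sum (S.lam_pos k) ht, colBeta, pair_apply,
    inner_smul_left, S.R_symm _ (S.lam_pos k)]
  simp only [conj_trivial]
  ring

theorem col_qv (k a b : ℕ) {C : Type} [Fintype C] (τ : C → ℕ) (z : C → E)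
    (hτ : ∀ c, a ≤ τ c ∧ τ c ≤ b)
    (hz : ∀ c, S.lam k * ⟪z c, S.R (τ c) (S.lam k) (z c)⟫_ℝ ≤ 1) :
    ∑ s ∈ Ico a b, S.V (S.lam k) s / S.lam k * ‖S.colXi k τ z s‖ ^ 2 ≤ Fintype.card C := by
  have hl := S.lam_pos k
  simp only [EuclideanSpace.real_norm_sq_eq, mul_sum]
  rw [sum_comm]
  calc ∑ c, ∑ s ∈ Ico a b, S.V (S.lam k) s / S.lam k * S.colXi k τ z s c ^ 2 ≤ ∑ _c : C, (1 : ℝ) := by
        refine sum_le_sum fun c _ => ?_
        have h1 : ∑ s ∈ Ico a b, S.V (S.lam k) s / S.lam k * S.colXi k τ z s c ^ 2 =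
            S.lam k * ∑ s ∈ Ico (τ c) b, S.V (S.lam k) s *
              ⟪S.T (τ c) (s + 1) (z c), S.R (s + 1) (S.lam k) (S.φ s)⟫_ℝ ^ 2 := by
          rw [mul_sum, ← ColAux.sum_Ico_ite (hτ c).1]
          refine sum_congr rfl fun s _ => ?_
          simp only [colXi]
          split_ifs
          · field_simp
          · simp
        have h2 := S.qv_sum hl (hτ c).2 (z c)
        have h3 : 0 ≤ ⟪S.T (τ c) b (z c), S.R b (S.lam k) (S.T (τ c) b (z c))⟫_ℝ :=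
          res_nonneg (S.M_symm b) (S.M_nonneg b) hl _
        rw [h1]
        refine le_trans (mul_le_mul_of_nonneg_left ?_ hl.le) (hz c)
        linarith
    _ = Fintype.card C := by simp

theorem col_qv' (k a b : ℕ) {C : Type} [Fintype C] (τ : C → ℕ) (z : C → E)
    (hτ : ∀ c, a ≤ τ c ∧ τ c ≤ b)
    (hz : ∀ c, S.lam k * ⟪z c, S.R (τ c) (S.lam k) (z c)⟫_ℝ ≤ 1) :
    ∑ s ∈ Ico a b, ‖S.colXi k τ z s‖ ^ 2 ≤ Fintype.card C := by
  refine le_trans (sum_le_sum fun s _ => ?_) (S.col_qv k a b τ z hτ hz)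
  have h : 1 ≤ S.V (S.lam k) s / S.lam k := (one_le_div (S.lam_pos k)).2 (S.col_V_ge k s)
  exact le_mul_of_one_le_left (sq_nonneg _) h

theorem col_beta_cost (N k : ℕ) {C : Type} (τ : C → ℕ) (z : C → E) (c : C)
    (hz : S.lam k * ⟪z c, S.R (τ c) (S.lam k) (z c)⟫_ℝ ≤ 1) :
    nW N S.w (S.colBeta k τ z c) ≤ S.lam k := by
  have hl := S.lam_pos k
  refine (S.nW_pair N _ _).trans ?_
  set u := S.R (τ c) (S.lam k) (z c) with hu
  have h1 : S.M (τ c) u + S.lam k • u = z c := S.R_spec _ hl _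
  have h2 : ⟪z c, u⟫_ℝ = ⟪u, S.M (τ c) u⟫_ℝ + S.lam k * ‖u‖ ^ 2 := by
    rw [real_inner_comm, ← h1, inner_add_right, inner_smul_right, real_inner_self_eq_norm_sq]
  rw [map_smul, inner_smul_left, inner_smul_right]
  simp only [conj_trivial]
  have h3 : ⟪u, S.M (τ c) u⟫_ℝ ≤ ⟪z c, u⟫_ℝ := by
    rw [h2]; exact le_add_of_nonneg_right (by positivity)
  calc S.lam k * (S.lam k * ⟪u, S.M (τ c) u⟫_ℝ) ≤ S.lam k * (S.lam k * ⟪z c, u⟫_ℝ) := by gcongr
    _ ≤ S.lam k * 1 := by gcongr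
    _ = S.lam k := mul_one _

/-- births -/
theorem col_births (N k : ℕ) {Γ : ℝ} (hΓ : 0 < Γ) {C : Type} [Fintype C] (τ : C → ℕ) (z : C → E)
    (hz : ∀ c, S.lam k * ⟪z c, S.R (τ c) (S.lam k) (z c)⟫_ℝ ≤ 1) :
    Ctl N S.w {g | ‖(WithLp.toLp 2 fun c => S.colBeta k τ z c g : EuclideanSpace ℝ C)‖ ≤
      Γ * √(Fintype.card C)} (S.lam k * Fintype.card C / Γ ^ 2) := by
  have h := Ctl.biInter (N := N) (w := S.w) (univ : Finset C)
    (fun c => {g | |S.colBeta k τ z c g| ≤ Γ}) (fun _ => S.lam k / Γ ^ 2) fun c _ =>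
      (Ctl.slab _ hΓ).mono subset_rfl (by
        gcongr
        exact S.col_beta_cost N k τ z c (hz c))
  refine h.mono (fun g hg => ?_) (le_of_eq ?_)
  · have hg' : ∀ c, |S.colBeta k τ z c g| ≤ Γ := fun c => hg c (mem_univ c)
    rw [Set.mem_ofPred_eq]
    refine (pow_le_pow_iff_left₀ (norm_nonneg _) (by positivity) two_ne_zero).1 ?_
    rw [EuclideanSpace.real_norm_sq_eq, mul_pow, Real.sq_sqrt (Nat.cast_nonneg _)]
    calc ∑ c, S.colBeta k τ z c g ^ 2 ≤ ∑ _c : C, Γ ^ 2 :=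
          sum_le_sum fun c _ => sq_le_sq' (abs_le.1 (hg' c)).1 (abs_le.1 (hg' c)).2
      _ = Γ ^ 2 * Fintype.card C := by simp [mul_comm]
  · simp only [sum_const, card_univ, nsmul_eq_mul]
    ring

theorem col_big_white (N k : ℕ) (I : Finset ℕ) (c : ℕ → ℝ) :
    nW N S.w (∑ s ∈ I, c s • (√(S.lam k / S.V (S.lam k) s) • S.colBig k s)) ≤
      S.lam k * ∑ s ∈ I, c s ^ 2 := by
  have hl := S.lam_pos k
  have e1 : ∑ s ∈ I, c s • (√(S.lam k / S.V (S.lam k) s) • S.colBig k s) =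
      ∑ s ∈ I, (if 4 * S.lam k ≤ S.w s then c s * √(S.lam k / S.V (S.lam k) s) else 0) •
        S.iota (S.lam k) s := by
    refine sum_congr rfl fun s _ => ?_
    unfold colBig
    split_ifs
    · rw [smul_smul]
    · simp
  rw [e1, mul_sum]
  refine (S.white N hl I _).trans (sum_le_sum fun s _ => ?_)
  have hV : 0 < S.V (S.lam k) s := hl.trans_le (S.col_V_ge k s)
  split_ifs
  · rw [mul_pow, Real.sq_sqrt (by positivity)]
    apply le_of_eq
    field_simp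
  · simp only [ne_eq, OfNat.ofNat_ne_zero, not_false_eq_true, zero_pow, zero_mul]
    positivity

theorem col_big_cost (N k s : ℕ) :
    nW N S.w (√(S.lam k / S.V (S.lam k) s) • S.colBig k s) ≤
      if 4 * S.lam k ≤ S.w s then S.lam k else 0 := by
  split_ifs with h
  · have := S.col_big_white N k {s} fun _ => 1
    simpa using this
  · simp [colBig, h, nW_zero]

/-- the big part -/
theorem col_big (N k a b : ℕ) {Γ : ℝ} (hΓ : 0 < Γ) {C : Type} [Fintype C] (τ : C → ℕ) (z : C → E)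
    (hτ : ∀ c, a ≤ τ c ∧ τ c ≤ b)
    (hz : ∀ c, S.lam k * ⟪z c, S.R (τ c) (S.lam k) (z c)⟫_ℝ ≤ 1) (hn : 0 < Fintype.card C) :
    Ctl N S.w {g | ∀ t, a ≤ t → t ≤ b →
      ‖∑ s ∈ Ico a t, S.colBig k s g • S.colXi k τ z s‖ ≤ 10 * (Γ * √(Fintype.card C))}
      (5 / Γ ^ 2 * (∑ s ∈ Ico a b, (if 4 * S.lam k ≤ S.w s then S.lam k else 0) +
        S.lam k * Fintype.card C)) := by
  have hl := S.lam_pos k
  have hn' : (0 : ℝ) < Fintype.card C := by exact_mod_cast hn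
  have hV : ∀ s, 0 < S.V (S.lam k) s := fun s => hl.trans_le (S.col_V_ge k s)
  have hX : ∑ s ∈ Ico a b, ‖√(S.V (S.lam k) s / S.lam k) • S.colXi k τ z s‖ ^ 2 ≤
      Fintype.card C := by
    refine le_trans (le_of_eq (sum_congr rfl fun s _ => ?_)) (S.col_qv k a b τ z hτ hz)
    have := hV s
    rw [norm_smul, mul_pow, Real.norm_eq_abs, sq_abs, Real.sq_sqrt (by positivity)]
  have h := chain (N := N) S.col_w_nonneg
    (fun s => √(S.V (S.lam k) s / S.lam k) • S.colXi k τ z s)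
    (fun s => √(S.lam k / S.V (S.lam k) s) • S.colBig k s) hl.le (S.col_big_white N k) a b
    (θ := Γ * √(Fintype.card C)) (α := 1) (by positivity) one_pos hX
  refine h.mono (fun g hg t hat htb => ?_) ?_
  · refine le_trans (le_of_eq ?_) (hg t hat htb)
    congr 1
    refine sum_congr rfl fun s _ => ?_
    have := hV s
    rw [LinearMap.smul_apply, smul_smul, smul_eq_mul, mul_right_comm,
      ← Real.sqrt_mul (by positivity), div_mul_div_cancel₀ this.ne', div_self hl.ne',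
      Real.sqrt_one, one_mul]
  · rw [finrank_euclideanSpace, mul_pow, Real.sq_sqrt hn'.le, one_mul, div_one]
    have h1 : ∑ s ∈ Ico a b, nW N S.w (√(S.lam k / S.V (S.lam k) s) • S.colBig k s) ≤
        ∑ s ∈ Ico a b, (if 4 * S.lam k ≤ S.w s then S.lam k else 0) :=
      sum_le_sum fun s _ => S.col_big_cost N k s
    calc _ ≤ 5 * (Fintype.card C * ∑ s ∈ Ico a b, (if 4 * S.lam k ≤ S.w s then S.lam k else 0) +
          Fintype.card C * S.lam k * Fintype.card C) / (Γ ^ 2 * Fintype.card C) := by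
          gcongr
      _ = _ := by field_simp

/-- the class `k'` part -/
theorem col_class (N k a b : ℕ) {Γ : ℝ} (hΓ : 0 < Γ) {C : Type} [Fintype C] (τ : C → ℕ)
    (z : C → E) (hτ : ∀ c, a ≤ τ c ∧ τ c ≤ b)
    (hz : ∀ c, S.lam k * ⟪z c, S.R (τ c) (S.lam k) (z c)⟫_ℝ ≤ 1) (hn : 0 < Fintype.card C)
    {k' : ℕ} (hk : k' ≤ k) :
    Ctl N S.w {g | ∀ t, a ≤ t → t ≤ b →
      ‖∑ s ∈ Ico a t, S.eta k' s g • S.colXi k τ z s‖ ≤
        10 * (Γ * √(Fintype.card C) * (9 / 10) ^ (k - k'))}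
      (5 / Γ ^ 2 * ((5 / 8 : ℝ) ^ (k - k') * (∑ s ∈ Ico a b, nW N S.w (S.eta k' s) +
        75 * (S.lam k * Fintype.card C)))) := by
  have hl := S.lam_pos k'
  have hn' : (0 : ℝ) < Fintype.card C := by exact_mod_cast hn
  have hX := S.col_qv' k a b τ z hτ hz
  have h := chain (N := N) S.col_w_nonneg (S.colXi k τ z) (S.eta k')
    (ω := 75 * S.lam k') (by positivity) (S.white_eta N k') a b
    (θ := Γ * √(Fintype.card C) * (9 / 10) ^ (k - k')) (α := (1 / 2) ^ (k - k'))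
    (by positivity) (by positivity) hX
  refine h.mono subset_rfl ?_
  rw [finrank_euclideanSpace, mul_pow, mul_pow, Real.sq_sqrt hn'.le, S.col_lam_eq hk]
  generalize k - k' = j
  have hS : 0 ≤ ∑ s ∈ Ico a b, nW N S.w (S.eta k' s) :=
    sum_nonneg fun s _ => nW_nonneg S.col_w_nonneg _
  generalize ∑ s ∈ Ico a b, nW N S.w (S.eta k' s) = W at hS
  have e1 : ((9 / 10 : ℝ) ^ j) ^ 2 = (81 / 100) ^ j := by
    rw [← pow_mul, mul_comm, pow_mul]; norm_num
  have e2 : ((1 / 2 : ℝ) ^ j) = (50 / 81) ^ j * (81 / 100) ^ j := by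
    rw [← mul_pow]; norm_num
  have e3 : (4 : ℝ) ^ j * (1 / 2) ^ j * (1 / 2) ^ j = 1 := by
    rw [← mul_pow, ← mul_pow]; norm_num
  have e4 : ((1 / 2 : ℝ) ^ j)⁻¹ = 4 ^ j * (1 / 2) ^ j := by
    symm
    exact eq_inv_of_mul_eq_one_left e3
  have h5 : (50 / 81 : ℝ) ^ j ≤ (5 / 8) ^ j :=
    pow_le_pow_left₀ (by norm_num) (by norm_num) j
  calc _ ≤ 5 * ((1 / 2) ^ j * Fintype.card C * W +
        Fintype.card C * (75 * S.lam k') * Fintype.card C / (1 / 2) ^ j) /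
          (Γ ^ 2 * Fintype.card C * ((9 / 10 : ℝ) ^ j) ^ 2) := by gcongr
    _ = 5 / Γ ^ 2 * ((50 / 81 : ℝ) ^ j * (W + 75 * (4 ^ j * S.lam k' * Fintype.card C))) := by
        rw [div_eq_mul_inv _ ((1 / 2 : ℝ) ^ j), e4, e1, e2]
        field_simp
    _ ≤ _ := by gcongr

/-- **Column lemma.**  `λ = lam k`, `n = card C` (if `n = 0` there is nothing to prove),
`F = EuclideanSpace ℝ C`.  By `pair_sum` (and `R_symm`), for `τ c ≤ t ≤ b`:
`⟪T (τ c) t (z c), Y k t g⟫ = β c g + ∑_{s ∈ Ico a t} ξ s c * iota λ s g`, where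
`β c = pair (τ c) (λ • R (τ c) λ (z c))` and
`ξ s c = if τ c ≤ s then λ ⟪T (τ c) (s+1) (z c), R (s+1) λ (φ s)⟫ else 0`; by `qv_sum`,
`∑_{s ∈ Ico a b} (V λ s/λ) * ξ s c² ≤ λ ⟪z, R z⟫ ≤ 1` (and `V/λ ≥ 1`, `V_ge`).
* births: slabs `|β c g| ≤ Γ`, each of cost `≤ λ/Γ²` (`nW_pair`; with `u = R z`,
  `⟪u, M u⟫ ≤ ⟪u, z⟫` by `R_spec`); the vector `(β c g)_c` has norm `≤ Γ √n`;
* `iota_split`: big part: `chain` with `ξ' s = √(V/λ) • ξ s`,
  `η' s = √(λ/V) • (if 4λ ≤ w s then iota λ s else 0)`, `ω = λ` (`white`), `X = n`, `θ = Γ √n`,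
  `α = 1`; `nW (η' s) ≤ if 4λ ≤ w s then λ else 0`; cost `≤ 5 (∑ 1[4λ ≤ w] λ + λ n)/Γ²`;
* class `k' ≤ k`, `j = k - k'`: `chain` with `ξ`, `eta k'`, `ω = 75 lam k' = 75 λ/4^j`
  (`white_eta`), `X = n`, `θ = Γ √n (9/10)^j`, `α = (1/2)^j`; cost
  `≤ 5 (100/162)^j (∑ nW (eta k' s) + 75 λ n)/Γ²`, `100/162 ≤ 5/8`, `∑ (5/8)^j ≤ 8/3`;
* total norm `≤ Γ √n (1 + 10 + 10 ∑ (9/10)^j) ≤ 111 Γ √n`, and `colE ≤` the squared norm of the
  vector `(β c g + ∑ …)_c`.  Combine with `Ctl.inter`, `Ctl.biInter`. -/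
theorem col (N k a b : ℕ) {Γ : ℝ} (hΓ : 0 < Γ) {C : Type} [Fintype C] (τ : C → ℕ) (z : C → E)
    (hτ : ∀ c, a ≤ τ c ∧ τ c ≤ b)
    (hz : ∀ c, S.lam k * ⟪z c, S.R (τ c) (S.lam k) (z c)⟫_ℝ ≤ 1) :
    Ctl N S.w {g | ∀ t, a ≤ t → t ≤ b →
        S.colE τ z t (S.Y k t g) ≤ (111 * Γ) ^ 2 * Fintype.card C}
      (1100 / Γ ^ 2 * (S.lam k * Fintype.card C + ∑ s ∈ Ico a b, S.bud N k s)) := by
  have hl := S.lam_pos k
  have hbud : 0 ≤ ∑ s ∈ Ico a b, S.bud N k s := sum_nonneg fun s _ => S.col_bud_nonneg N k s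
  rcases Nat.eq_zero_or_pos (Fintype.card C) with hn | hn
  · have : IsEmpty C := Fintype.card_eq_zero_iff.1 hn
    refine Ctl.of_forall (fun g t _ _ => ?_) (by positivity)
    simp [colE]
  have hn' : (0 : ℝ) < Fintype.card C := by exact_mod_cast hn
  have h1 := S.col_births N k hΓ τ z hz
  have h2 := S.col_big N k a b hΓ τ z hτ hz hn
  have h3 := Ctl.biInter (range (k + 1)) _ _ fun k' hk' =>
    S.col_class N k a b hΓ τ z hτ hz hn (Nat.lt_succ_iff.1 (mem_range.1 hk'))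
  refine ((h1.inter h2).inter h3).mono ?_ ?_
  · rintro g ⟨⟨hg1, hg2⟩, hg3⟩ t hat htb
    set θ := Γ * √(Fintype.card C) with hθ
    have hθ0 : 0 < θ := by positivity
    set β : EuclideanSpace ℝ C := WithLp.toLp 2 fun c => S.colBeta k τ z c g with hβ
    set y : EuclideanSpace ℝ C := β + ∑ s ∈ Ico a t, S.iota (S.lam k) s g • S.colXi k τ z s
      with hy
    have hsplit : ∑ s ∈ Ico a t, S.iota (S.lam k) s g • S.colXi k τ z s =
        ∑ s ∈ Ico a t, S.colBig k s g • S.colXi k τ z s +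
          ∑ k' ∈ range (k + 1), ∑ s ∈ Ico a t, S.eta k' s g • S.colXi k τ z s := by
      rw [sum_comm, ← sum_add_distrib]
      refine sum_congr rfl fun s _ => ?_
      rw [← sum_smul, ← add_smul]
      congr 1
      conv_lhs => rw [S.iota_split k s]
      simp only [LinearMap.add_apply, LinearMap.sum_apply, colBig]
    have hcl : ‖∑ k' ∈ range (k + 1), ∑ s ∈ Ico a t, S.eta k' s g • S.colXi k τ z s‖ ≤
        100 * θ := by
      refine (norm_sum_le _ _).trans ?_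
      refine (sum_le_sum fun k' hk' => hg3 k' hk' t hat htb).trans ?_
      rw [← mul_sum, ← mul_sum]
      have := ColAux.geo_le (r := 9 / 10) (by norm_num) (by norm_num) k
      calc 10 * (θ * ∑ k' ∈ range (k + 1), (9 / 10 : ℝ) ^ (k - k')) ≤
            10 * (θ * (1 - 9 / 10)⁻¹) := by gcongr
        _ = 100 * θ := by ring
    have hyn : ‖y‖ ≤ 111 * θ := by
      rw [hy, hsplit]
      have hb : ‖β‖ ≤ θ := hg1
      have hB := hg2 t hat htb
      refine (norm_add_le _ _).trans ?_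
      refine (add_le_add hb ((norm_add_le _ _).trans (add_le_add hB hcl))).trans ?_
      apply le_of_eq
      ring
    calc S.colE τ z t (S.Y k t g) ≤ ‖y‖ ^ 2 := by
          rw [EuclideanSpace.real_norm_sq_eq, colE]
          refine sum_le_sum fun c _ => ?_
          split_ifs with hc
          · rw [S.col_ident k a t τ z c (hτ c).1 hc g, hy]
            simp [hβ]
          · exact sq_nonneg _
      _ ≤ (111 * θ) ^ 2 := by gcongr
      _ = (111 * Γ) ^ 2 * Fintype.card C := by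
          rw [hθ, mul_pow, mul_pow, mul_pow, Real.sq_sqrt hn'.le]; ring
  · have hb : ∑ s ∈ Ico a b, S.bud N k s =
        ∑ s ∈ Ico a b, (if 4 * S.lam k ≤ S.w s then S.lam k else 0) +
          ∑ k' ∈ range (k + 1), (5 / 8 : ℝ) ^ (k - k') * ∑ s ∈ Ico a b, nW N S.w (S.eta k' s) := by
      simp only [bud, sum_add_distrib, mul_sum]
      rw [sum_comm]
    have hg := ColAux.geo_le (r := 5 / 8) (by norm_num) (by norm_num) k
    have e1 : ∑ k' ∈ range (k + 1), 5 / Γ ^ 2 * ((5 / 8 : ℝ) ^ (k - k') *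
        (∑ s ∈ Ico a b, nW N S.w (S.eta k' s) + 75 * (S.lam k * Fintype.card C))) =
        5 / Γ ^ 2 * (∑ k' ∈ range (k + 1), (5 / 8 : ℝ) ^ (k - k') *
          ∑ s ∈ Ico a b, nW N S.w (S.eta k' s) +
          (∑ k' ∈ range (k + 1), (5 / 8 : ℝ) ^ (k - k')) * (75 * (S.lam k * Fintype.card C))) := by
      rw [← mul_sum, sum_mul, ← sum_add_distrib]
      congr 1
      exact sum_congr rfl fun _ _ => mul_add _ _ _
    rw [e1]
    generalize ∑ k' ∈ range (k + 1), (5 / 8 : ℝ) ^ (k - k') = q at hg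
    rw [hb] at hbud ⊢
    generalize ∑ s ∈ Ico a b, (if 4 * S.lam k ≤ S.w s then S.lam k else 0) = u at hbud ⊢
    generalize ∑ k' ∈ range (k + 1), (5 / 8 : ℝ) ^ (k - k') *
      ∑ s ∈ Ico a b, nW N S.w (S.eta k' s) = v at hbud ⊢
    have hm : 0 < S.lam k * Fintype.card C := by positivity
    generalize S.lam k * Fintype.card C = m at hm ⊢
    have hq : q * m ≤ 8 / 3 * m := by
      refine mul_le_mul_of_nonneg_right (hg.trans (le_of_eq ?_)) hm.le
      norm_num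
    have hi : 0 < (Γ ^ 2)⁻¹ := by positivity
    simp only [div_eq_mul_inv]
    generalize (Γ ^ 2)⁻¹ = i at hi
    have : m + 5 * (u + m) + 5 * (v + q * (75 * m)) ≤ 1100 * (m + (u + v)) := by nlinarith
    nlinarith [mul_le_mul_of_nonneg_left this hi.le]

end Sys

end Crest.Agent.R239
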