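import Crest.Agent.R239.Defs

/-! # Calculus of slab systems -/

set_option autoImplicit false

namespace Crest.Agent.R239

open Finset

variable {N : ℕ} {w : ℕ → ℝ}

theorem nW_nonneg (hw : ∀ i, 0 ≤ w i) (f : G →ₗ[ℝ] ℝ) : 0 ≤ nW N w f :=
  sum_nonneg fun i _ => mul_nonneg (hw i) (sq_nonneg _)

theorem nW_zero : nW N w 0 = 0 := by simp [nW]

theorem nW_smul (c : ℝ) (f : G →ₗ[ℝ] ℝ) : nW N w (c • f) = c ^ 2 * nW N w f := by
  simp only [nW, LinearMap.smul_apply, smul_eq_mul, mul_sum]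
  exact sum_congr rfl fun i _ => by ring

theorem nW_neg (f : G →ₗ[ℝ] ℝ) : nW N w (-f) = nW N w f := by
  simp [nW]

theorem nW_add_le (hw : ∀ i, 0 ≤ w i) (f f' : G →ₗ[ℝ] ℝ) :
    nW N w (f + f') ≤ 2 * nW N w f + 2 * nW N w f' := by
  simp only [nW, LinearMap.add_apply, mul_sum, ← sum_add_distrib]
  refine sum_le_sum fun i _ => ?_
  have := hw i
  nlinarith [mul_nonneg this (sq_nonneg (f (e i) - f' (e i)))]

theorem nW_sub_le (hw : ∀ i, 0 ≤ w i) (f f' : G →ₗ[ℝ] ℝ) :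
    nW N w (f - f') ≤ 2 * nW N w f + 2 * nW N w f' := by
  rw [sub_eq_add_neg, ← nW_neg f']
  exact nW_add_le hw _ _

theorem nW_mono {w' : ℕ → ℝ} (h : ∀ i < N, w i ≤ w' i) (f : G →ₗ[ℝ] ℝ) :
    nW N w f ≤ nW N w' f :=
  sum_le_sum fun i hi => mul_le_mul_of_nonneg_right (h i (mem_range.1 hi)) (sq_nonneg _)

theorem Ctl.mono {S S' : Set G} {c c' : ℝ} (h : Ctl N w S c) (hS : S ⊆ S') (hc : c ≤ c') :
    Ctl N w S' c' := by
  obtain ⟨L, h1, h2⟩ := h
  exact ⟨L, h1.trans hc, fun x hx => hS (h2 x hx)⟩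

theorem Ctl.weight {w' : ℕ → ℝ} {S : Set G} {c : ℝ} (h : Ctl N w' S c)
    (hw : ∀ i < N, w i ≤ w' i) : Ctl N w S c := by
  obtain ⟨L, h1, h2⟩ := h
  refine ⟨L, le_trans ?_ h1, h2⟩
  exact List.sum_le_sum fun f _ => nW_mono hw f

theorem Ctl.univ : Ctl N w Set.univ 0 := ⟨[], by simp, fun _ _ => trivial⟩

theorem Ctl.of_forall {S : Set G} {c : ℝ} (hS : ∀ x, x ∈ S) (hc : 0 ≤ c) : Ctl N w S c :=
  Ctl.univ.mono (fun x _ => hS x) hc

theorem Ctl.inter {S S' : Set G} {c c' : ℝ} (h : Ctl N w S c) (h' : Ctl N w S' c') :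
    Ctl N w (S ∩ S') (c + c') := by
  obtain ⟨L, h1, h2⟩ := h
  obtain ⟨L', h1', h2'⟩ := h'
  refine ⟨L ++ L', ?_, fun x hx => ⟨h2 x fun f hf => hx f ?_, h2' x fun f hf => hx f ?_⟩⟩
  · rw [List.map_append, List.sum_append]; exact add_le_add h1 h1'
  · exact List.mem_append_left _ hf
  · exact List.mem_append_right _ hf

theorem Ctl.biInter {ι : Type*} (s : Finset ι) (S : ι → Set G) (c : ι → ℝ)
    (h : ∀ i ∈ s, Ctl N w (S i) (c i)) :
    Ctl N w {x | ∀ i ∈ s, x ∈ S i} (∑ i ∈ s, c i) := by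
  classical
  induction s using Finset.induction_on with
  | empty => exact Ctl.of_forall (by simp) (by simp)
  | insert a s ha ih =>
    rw [sum_insert ha]
    refine ((h a (mem_insert_self _ _)).inter
      (ih fun i hi => h i (mem_insert_of_mem hi))).mono ?_ le_rfl
    rintro x ⟨h1, h2⟩ i hi
    rcases mem_insert.1 hi with rfl | hi
    · exact h1
    · exact h2 i hi

/-- one slab, scaled form -/
theorem Ctl.slab' (f : G →ₗ[ℝ] ℝ) (c : ℝ) :
    Ctl N w {x | |c * f x| ≤ 1} (c ^ 2 * nW N w f) :=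
  ⟨[c • f], by simp [nW_smul], fun x hx => by simpa using hx (c • f) (by simp)⟩

/-- one slab -/
theorem Ctl.slab (f : G →ₗ[ℝ] ℝ) {θ : ℝ} (hθ : 0 < θ) :
    Ctl N w {x | |f x| ≤ θ} (nW N w f / θ ^ 2) := by
  refine (Ctl.slab' f θ⁻¹).mono (fun x hx => ?_) (le_of_eq (by field_simp))
  have hx' : |θ⁻¹ * f x| ≤ 1 := hx
  rw [abs_mul, abs_of_pos (inv_pos.2 hθ), inv_mul_le_iff₀ hθ, mul_one] at hx'
  exact hx'

/-- a cost bound that is the minimum of two bounds -/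
theorem Ctl.min {S : Set G} {c c' : ℝ} (h : Ctl N w S c) (h' : Ctl N w S c') :
    Ctl N w S (min c c') := by
  rcases le_total c c' with h1 | h1
  · rwa [min_eq_left h1]
  · rwa [min_eq_right h1]

end Crest.Agent.R239
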