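import Mathlib

/-!
# rid 239 (S0370): Euclidean prefix discrepancy `O(√d)` — definitions

Overview of the proof (details in the docstrings of the other files of this folder).
Variables `g : ℕ → ℝ`.  State `st (t+1) = Φ_t (st t) + g t • φ t`, `Φ_t² = 1 - φ_t φ_tᵀ`, `φ = √κ v`.
* Part I (`KL`, `Dens`, `Mini`): if for every weight vector `w` the convex set `Ω` contains an
  intersection of slabs of small `w`-cost (`Ctl`), then `Ω` contains a point `g` with
  `g t = m t g ± 1` for any causal feedback `m` with `|m| ≤ 1/2`.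
* Part II: slabs (depending on `w`) forcing `‖st t g‖ ≤ C √d` for all `t`.
-/

set_option autoImplicit false
set_option linter.unusedSectionVars false

namespace Crest.Agent.R239

open Finset Module
open scoped InnerProductSpace

noncomputable section

/-! ### Slab systems -/

/-- the space of coefficient sequences -/
abbrev G : Type := ℕ → ℝ

/-- coordinate vectors -/
def e (i : ℕ) : G := Pi.single i 1

/-- weighted squared norm of a linear functional on `G` (only the first `N` coordinates count) -/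
def nW (N : ℕ) (w : ℕ → ℝ) (f : G →ₗ[ℝ] ℝ) : ℝ := ∑ i ∈ range N, w i * (f (e i)) ^ 2

/-- `S` contains an intersection of slabs `|f x| ≤ 1` of total cost at most `c` -/
def Ctl (N : ℕ) (w : ℕ → ℝ) (S : Set G) (c : ℝ) : Prop :=
  ∃ L : List (G →ₗ[ℝ] ℝ), (L.map (nW N w)).sum ≤ c ∧ ∀ x, (∀ f ∈ L, |f x| ≤ 1) → x ∈ S

/-! ### Finitely supported distributions -/

section dist
variable {V : Type} [AddCommGroup V] [Module ℝ V]

/-- finitely supported probability mass function -/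
structure IsDist (P : V → ℝ) : Prop where
  fin : (Function.support P).Finite
  nonneg : ∀ x, 0 ≤ P x
  total : ∑ᶠ x, P x = 1

/-- overlap of `P` with its translate by `u` (`= 1 -` total variation distance) -/
def ov (P : V → ℝ) (u : V) : ℝ := ∑ᶠ x, min (P x) (P (x - u))

/-- barycentre -/
def mean (P : V → ℝ) : V := ∑ᶠ x, P x • x

end dist

/-! ### Constants -/

def eps : ℝ := 1 / 4000000
def del : ℝ := eps / 48

/-- the bump function whose sums over geometric sequences `x` are bounded -/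
def Gf (x μ : ℝ) : ℝ := x * μ / (x + μ) ^ 2

/-! ### The dynamics -/

variable {E : Type} [NormedAddCommGroup E] [InnerProductSpace ℝ E] [FiniteDimensional ℝ E]

/-- `rk a b x = ⟪b, x⟫ • a` -/
def rk (a b : E) : E →ₗ[ℝ] E := (innerₛₗ ℝ b).smulRight a

def rr (φ : E) : ℝ := √(1 - ‖φ‖ ^ 2)
def gam (φ : E) : ℝ := 1 / (1 + rr φ)

/-- the symmetric square root of `1 - φ φᵀ` -/
def Ph (φ : E) : E →ₗ[ℝ] E := LinearMap.id - gam φ • rk φ φ

/-- resolvent `(A + x)⁻¹` -/
def res (A : E →ₗ[ℝ] E) (x : ℝ) : E →ₗ[ℝ] E :=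
  Ring.inverse (M₀ := Module.End ℝ E) (A + x • LinearMap.id)

variable (E) in
/-- the data: vectors `φ t`, weights `w t ≥ om > 0` -/
structure Sys where
  φ : ℕ → E
  w : ℕ → ℝ
  om : ℝ
  om_pos : 0 < om
  hφ : ∀ t, ‖φ t‖ ^ 2 ≤ 1 / 2
  hw : ∀ t, om ≤ w t

namespace Sys
variable (S : Sys E)

/-- transport from time `a` to time `b ≥ a`: `Φ_{b-1} ∘ ⋯ ∘ Φ_a` -/
def T (a : ℕ) : ℕ → E →ₗ[ℝ] E
  | 0 => LinearMap.id
  | b + 1 => if a ≤ b then Ph (S.φ b) ∘ₗ T a b else LinearMap.id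

/-- adjoint transport `Φ_a ∘ ⋯ ∘ Φ_{b-1}` -/
def Tt (a : ℕ) : ℕ → E →ₗ[ℝ] E
  | 0 => LinearMap.id
  | b + 1 => if a ≤ b then Tt a b ∘ₗ Ph (S.φ b) else LinearMap.id

/-- response at time `t > i` to the input `g i` -/
def A (i t : ℕ) : E := S.T (i + 1) t (S.φ i)

/-- weighted covariance -/
def M : ℕ → E →ₗ[ℝ] E
  | 0 => S.om • LinearMap.id
  | t + 1 => Ph (S.φ t) ∘ₗ M t ∘ₗ Ph (S.φ t) + S.w t • rk (S.φ t) (S.φ t)

/-- state after `t` steps -/
def st : ℕ → G →ₗ[ℝ] E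
  | 0 => 0
  | t + 1 => Ph (S.φ t) ∘ₗ st t + (LinearMap.proj t : G →ₗ[ℝ] ℝ).smulRight (S.φ t)

/-- the functional `g ↦ ⟪u, st t g⟫` -/
def pair (t : ℕ) (u : E) : G →ₗ[ℝ] ℝ := innerₛₗ ℝ u ∘ₗ S.st t

/-- `(M t + x)⁻¹` -/
def R (t : ℕ) (x : ℝ) : E →ₗ[ℝ] E := res (S.M t) x

/-- innovation of step `t` at level `x` -/
def iota (x : ℝ) (t : ℕ) : G →ₗ[ℝ] ℝ :=
  (LinearMap.proj t : G →ₗ[ℝ] ℝ) - ((S.w t + x) / rr (S.φ t)) • S.pair t (S.R t x (S.φ t))

/-- variance of the innovation in the `(w + x)`-metric -/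
def V (x : ℝ) (t : ℕ) : ℝ :=
  (S.w t + x) + (S.w t + x) ^ 2 / rr (S.φ t) ^ 2 * ⟪S.φ t, S.R t x (S.φ t)⟫_ℝ

theorem rk_symm (a : E) : (rk a a).IsSymmetric := by
  intro x y
  simp [rk, inner_smul_left, inner_smul_right, real_inner_comm, mul_comm]

theorem Ph_symm (a : E) : (Ph a).IsSymmetric := by
  intro x y
  have := rk_symm a x y
  simp only [Ph, LinearMap.sub_apply, LinearMap.smul_apply, LinearMap.id_apply, inner_sub_left,
    inner_sub_right, inner_smul_left, inner_smul_right, this]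
  simp

theorem M_symm (t : ℕ) : (S.M t).IsSymmetric := by
  induction t with
  | zero =>
    intro x y
    simp [M, inner_smul_left, inner_smul_right]
  | succ t ih =>
    intro x y
    have h1 := rk_symm (S.φ t) x y
    have h2 : ⟪Ph (S.φ t) (S.M t (Ph (S.φ t) x)), y⟫_ℝ = ⟪x, Ph (S.φ t) (S.M t (Ph (S.φ t) y))⟫_ℝ := by
      rw [Ph_symm, ih, Ph_symm]
    simp only [M, LinearMap.add_apply, LinearMap.comp_apply, LinearMap.smul_apply, inner_add_left,
      inner_add_right, inner_smul_left, inner_smul_right, h1, h2]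
    simp

/-- orthonormal eigenbasis of `M t` -/
def p (t : ℕ) : OrthonormalBasis (Fin (finrank ℝ E)) ℝ E := (S.M_symm t).eigenvectorBasis rfl

/-- eigenvalues of `M t` -/
def μ (t : ℕ) (j : Fin (finrank ℝ E)) : ℝ := (S.M_symm t).eigenvalues rfl j

theorem M_p (t : ℕ) (j : Fin (finrank ℝ E)) : S.M t (S.p t j) = S.μ t j • S.p t j :=
  (S.M_symm t).apply_eigenvectorBasis rfl j

/-- levels -/
def lam (k : ℕ) : ℝ := 4 ^ k * S.om

/-- the "light part" `λ (M t + λ)⁻¹ (st t)` of the state at level `λ = lam k` -/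
def Y (k t : ℕ) (g : G) : E := S.lam k • S.R t (S.lam k) (S.st t g)

/-- the eigenvalue indices at time `a` that are not light for level `k` -/
def H (k a : ℕ) : Finset (Fin (finrank ℝ E)) := univ.filter fun j => eps * S.lam k ≤ S.μ a j

/-- band size at level `k` and time `a` -/
def nn (k a : ℕ) : ℝ := ∑ j ∈ S.H k a, S.lam k / (S.μ a j + S.lam k)

/-- dissipation of the heavy directions of time `a` up to time `t` -/
def Dd (k a t : ℕ) : ℝ := ∑ j ∈ S.H k a, (1 - ‖S.T a t (S.p a j)‖ ^ 2)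

/-- heavy steps of level `k` in `[a, t)` -/
def hv (k a t : ℕ) : Finset ℕ := (Ico a t).filter fun s => eps * S.lam k ≤ S.w s

/-- clock of level `k` at step `s`: `4 ‖Q φ‖² + 1[heavy]`, `Q = M (M + δ λ)⁻¹` at time `s + 1` -/
def clock (k s : ℕ) : ℝ :=
  4 * ‖S.φ s - (del * S.lam k) • S.R (s + 1) (del * S.lam k) (S.φ s)‖ ^ 2 +
    if eps * S.lam k ≤ S.w s then 1 else 0

/-- `∑ᵢ (μᵢ / (μᵢ + δ λ))²` at time `t` -/
def qq (k t : ℕ) : ℝ := ∑ i, (S.μ t i / (S.μ t i + del * S.lam k)) ^ 2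

/-- truncated innovation streams: `Z 0 = 0`, `Z (k+1) = 1[w < 4 lam k] iota (lam k)` -/
def Z : ℕ → ℕ → G →ₗ[ℝ] ℝ
  | 0, _ => 0
  | k + 1, s => if S.w s < 4 * S.lam k then S.iota (S.lam k) s else 0

/-- the class-`k` part of the innovations -/
def eta (k s : ℕ) : G →ₗ[ℝ] ℝ := S.Z (k + 1) s - S.Z k s

/-- chaining budget of level `k` at step `s` -/
def bud (N k s : ℕ) : ℝ :=
  (if 4 * S.lam k ≤ S.w s then S.lam k else 0) +
    ∑ k' ∈ range (k + 1), (5 / 8 : ℝ) ^ (k - k') * nW N S.w (S.eta k' s)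

/-- energy seen by a family of columns (born at times `τ c`) in the vector `y` at time `t` -/
def colE {C : Type} [Fintype C] (τ : C → ℕ) (z : C → E) (t : ℕ) (y : E) : ℝ :=
  ∑ c, if τ c ≤ t then ⟪S.T (τ c) t (z c), y⟫_ℝ ^ 2 else 0

/-- error term of the domination inequality -/
def err (k t : ℕ) (y : E) : ℝ :=
  12 * eps / S.lam k * ⟪y, S.M t y⟫_ℝ + 6 * ∑ i, ⟪S.p t i, y⟫_ℝ ^ 2 * min (S.μ t i / S.lam k) eps

/-- band energy -/
def beta (k t : ℕ) (y : E) : ℝ := ⟪y, S.M t (S.R t (S.lam k) y)⟫_ℝ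

end Sys

end

end Crest.Agent.R239
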