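import Crest.Agent.R239.DensTent

/-! # A slab system of small cost carries a centred distribution with large overlaps -/

set_option autoImplicit false

namespace Crest.Agent.R239

open Finset

namespace DensAux

open MeasureTheory

/-- the shifts -/
noncomputable def u (i : ℕ) : G := (8 : ℝ) • e i

/-- squared mass -/
noncomputable def mass (S : Finset G) (F : G → ℝ) : ℝ := ∑ x ∈ S, F x * F x

/-- correlation with the translate -/
noncomputable def cor (S : Finset G) (F : G → ℝ) (v : G) : ℝ := ∑ x ∈ S, F x * F (x - v)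

/-- weighted defect -/
noncomputable def defect (N : ℕ) (w : ℕ → ℝ) (S : Finset G) (F : G → ℝ) : ℝ :=
  ∑ i ∈ range N, w i * (mass S F - cor S F (u i))

lemma shift_le {S : Finset G} {g : G → ℝ} (h0 : ∀ x, 0 ≤ g x) (hS : ∀ x, g x ≠ 0 → x ∈ S)
    (T : Finset G) (v : G) : ∑ x ∈ T, g (x - v) ≤ ∑ x ∈ S, g x := by
  classical
  have h1 : ∑ x ∈ T, g (x - v) = ∑ y ∈ T.image (fun x => x - v), g y := by
    rw [sum_image]
    intro a _ b _ h
    exact sub_left_injective h
  rw [h1]
  calc ∑ y ∈ T.image (fun x => x - v), g y ≤ ∑ y ∈ T.image (fun x => x - v) ∪ S, g y :=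
        sum_le_sum_of_subset_of_nonneg subset_union_left fun y _ _ => h0 y
    _ = ∑ y ∈ S, g y := by
        symm
        refine sum_subset subset_union_right fun y _ hy => ?_
        by_contra h
        exact hy (hS y h)

lemma shift_sq_le {S : Finset G} {F : G → ℝ} (hS : ∀ x, F x ≠ 0 → x ∈ S) (v : G) :
    ∑ x ∈ S, F (x - v) * F (x - v) ≤ mass S F :=
  shift_le (g := fun x => F x * F x) (fun _ => mul_self_nonneg _)
    (fun x hx => hS x (left_ne_zero_of_mul hx)) S v

lemma mass_nonneg (S : Finset G) (F : G → ℝ) : 0 ≤ mass S F :=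
  sum_nonneg fun _ _ => mul_self_nonneg _

lemma cor_le_mass {S : Finset G} {F : G → ℝ} (hS : ∀ x, F x ≠ 0 → x ∈ S) (v : G) :
    cor S F v ≤ mass S F := by
  have h1 := shift_sq_le hS v
  have h2 : cor S F v ≤ (mass S F + ∑ x ∈ S, F (x - v) * F (x - v)) / 2 := by
    unfold cor mass
    rw [← sum_add_distrib, sum_div]
    exact sum_le_sum fun x _ => by nlinarith [sq_nonneg (F x - F (x - v))]
  linarith

/-- one more row -/
lemma row {N : ℕ} {w : ℕ → ℝ} (hw : ∀ i, 0 ≤ w i) {S : Finset G} {F : G → ℝ}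
    (h0 : ∀ x, 0 ≤ F x) (hS : ∀ x, F x ≠ 0 → x ∈ S) {c : ℝ}
    (hc : defect N w S F < c * mass S F) (f : G →ₗ[ℝ] ℝ) :
    ∃ y : ℝ, defect N w S (fun x => F x * tent (y + 2 * f x))
      < (c + 2048 * nW N w f) * mass S (fun x => F x * tent (y + 2 * f x)) := by
  by_contra hcon
  push Not at hcon
  set c' := c + 2048 * nW N w f with hc'
  have hm : ∀ y, mass S (fun x => F x * tent (y + 2 * f x))
      = ∑ x ∈ S, F x * F x * (tent (y + 2 * f x) * tent (y + 2 * f x)) := fun y =>
    sum_congr rfl fun x _ => by ring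
  have hk : ∀ v y, cor S (fun x => F x * tent (y + 2 * f x)) v
      = ∑ x ∈ S, F x * F (x - v) * (tent (y + 2 * f x) * tent (y + 2 * f (x - v))) := fun v y =>
    sum_congr rfl fun x _ => by ring
  have im : Integrable (fun y => mass S (fun x => F x * tent (y + 2 * f x))) := by
    simp only [hm]
    exact integrable_finsetSum _ fun x _ => (integrable_tent_mul _ _).const_mul _
  have ik : ∀ v, Integrable (fun y => cor S (fun x => F x * tent (y + 2 * f x)) v) := by
    intro v
    simp only [hk]
    exact integrable_finsetSum _ fun x _ => (integrable_tent_mul _ _).const_mul _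
  have em : ∫ y, mass S (fun x => F x * tent (y + 2 * f x)) = I0 * mass S F := by
    simp only [hm]
    rw [integral_finsetSum _ fun x _ => (integrable_tent_mul _ _).const_mul _, mass, mul_sum]
    refine sum_congr rfl fun x _ => ?_
    rw [integral_const_mul, integral_tent_sq]; ring
  have ek : ∀ v, I0 * (1 - 32 * (f v) ^ 2) * cor S F v
      ≤ ∫ y, cor S (fun x => F x * tent (y + 2 * f x)) v := by
    intro v
    simp only [hk]
    rw [integral_finsetSum _ fun x _ => (integrable_tent_mul _ _).const_mul _, cor, mul_sum]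
    refine sum_le_sum fun x _ => ?_
    rw [integral_const_mul, mul_comm]
    refine mul_le_mul_of_nonneg_left ?_ (mul_nonneg (h0 _) (h0 _))
    have := integral_tent_mul_ge (2 * f x) (2 * f (x - v))
    rw [map_sub] at this ⊢
    refine le_trans (le_of_eq ?_) this
    ring
  have id' : ∀ i, Integrable (fun y => w i * (mass S (fun x => F x * tent (y + 2 * f x))
      - cor S (fun x => F x * tent (y + 2 * f x)) (u i))) := fun i =>
    (im.sub (ik (u i))).const_mul _
  have idf : Integrable (fun y => defect N w S (fun x => F x * tent (y + 2 * f x))) :=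
    integrable_finsetSum _ fun i _ => id' i
  have hI : 0 < I0 := by linarith [I0_ge]
  have ed : ∫ y, defect N w S (fun x => F x * tent (y + 2 * f x))
      ≤ I0 * (defect N w S F + 2048 * nW N w f * mass S F) := by
    unfold defect
    rw [integral_finsetSum _ fun i _ => id' i, nW, mul_sum, sum_mul, ← sum_add_distrib, mul_sum]
    refine sum_le_sum fun i _ => ?_
    rw [integral_const_mul, integral_sub im (ik (u i)), em]
    have h1 := ek (u i)
    have h2 : f (u i) = 8 * f (e i) := by simp [u]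
    rw [h2] at h1
    have h3 := cor_le_mass hS (u i)
    have h4 : I0 * (2048 * f (e i) ^ 2) * cor S F (u i) ≤ I0 * (2048 * f (e i) ^ 2) * mass S F :=
      mul_le_mul_of_nonneg_left h3 (by positivity)
    have h5 : I0 * mass S F - ∫ y, cor S (fun x => F x * tent (y + 2 * f x)) (u i)
        ≤ I0 * (mass S F - cor S F (u i) + 2048 * f (e i) ^ 2 * mass S F) := by nlinarith
    calc _ ≤ w i * (I0 * (mass S F - cor S F (u i) + 2048 * f (e i) ^ 2 * mass S F)) :=
          mul_le_mul_of_nonneg_left h5 (hw i)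
      _ = _ := by ring
  have h6 := integral_mono (im.const_mul c') idf hcon
  rw [integral_const_mul, em] at h6
  have h7 : I0 * (c' * mass S F) ≤ I0 * (defect N w S F + 2048 * nW N w f * mass S F) := by
    linarith
  have h8 := le_of_mul_le_mul_left h7 hI
  rw [hc'] at h8
  linarith

/-- all rows -/
lemma rows {N : ℕ} {w : ℕ → ℝ} (hw : ∀ i, 0 ≤ w i) {S : Finset G} {F : G → ℝ}
    (h0 : ∀ x, 0 ≤ F x) (hS : ∀ x, F x ≠ 0 → x ∈ S) {c : ℝ}
    (hc : defect N w S F < c * mass S F) (L : List (G →ₗ[ℝ] ℝ)) :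
    ∃ F' : G → ℝ, (∀ x, 0 ≤ F' x) ∧ (∀ x, F' x ≠ 0 → x ∈ S) ∧
      defect N w S F' < (c + 2048 * (L.map (nW N w)).sum) * mass S F' ∧
      ∀ f ∈ L, ∀ x x', F' x ≠ 0 → F' x' ≠ 0 → |f x - f x'| ≤ 1 := by
  induction L with
  | nil => exact ⟨F, h0, hS, by simpa using hc, by simp⟩
  | cons f L ih =>
    obtain ⟨F', h0', hS', hc', hL⟩ := ih
    obtain ⟨y, hy⟩ := row hw h0' hS' hc' f
    refine ⟨fun x => F' x * tent (y + 2 * f x), fun x => mul_nonneg (h0' x) (tent_nonneg _),
      fun x hx => hS' x (left_ne_zero_of_mul hx), ?_, ?_⟩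
    · refine lt_of_lt_of_le hy (le_of_eq ?_)
      simp only [List.map_cons, List.sum_cons]
      ring
    · intro g hg x x' hx hx'
      rcases List.mem_cons.1 hg with rfl | hg
      · have h1 := abs_lt.1 (abs_lt_of_tent_ne (right_ne_zero_of_mul hx))
        have h2 := abs_lt.1 (abs_lt_of_tent_ne (right_ne_zero_of_mul hx'))
        exact abs_le.2 ⟨by linarith [h1.1, h2.2], by linarith [h1.2, h2.1]⟩
      · exact hL g hg x x' (left_ne_zero_of_mul hx) (left_ne_zero_of_mul hx')

/-- lattice points of a box -/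
noncomputable def emb (N L : ℕ) (k : Fin N → Fin L) : G :=
  fun j => if h : j < N then 8 * ((k ⟨j, h⟩ : ℕ) : ℝ) else 0

lemma emb_injective (N L : ℕ) : Function.Injective (emb N L) := by
  intro k k' h
  funext j
  have := congrFun h j
  simp only [emb, j.2, dif_pos, Fin.eta] at this
  have h2 : ((k j : ℕ) : ℝ) = ((k' j : ℕ) : ℝ) := by linarith
  exact Fin.ext (by exact_mod_cast h2)

/-- Følner box -/
lemma exists_box (N : ℕ) : ∃ (S : Finset G) (F : G → ℝ), (∀ x, 0 ≤ F x) ∧
    (∀ x, F x ≠ 0 → x ∈ S) ∧ 0 < mass S F ∧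
    ∀ i < N, mass S F - cor S F (u i) ≤ mass S F / 1024 := by
  classical
  let S : Finset G := univ.image (emb N 1024)
  let F : G → ℝ := fun x => if x ∈ S then 1 else 0
  have hm : mass S F = (Fintype.card (Fin N → Fin 1024) : ℝ) := by
    unfold mass
    rw [sum_congr rfl (g := fun _ => (1 : ℝ)) fun x hx => by simp [F, hx]]
    simp [S, card_image_of_injective _ (emb_injective N 1024)]
  refine ⟨S, F, fun x => by simp only [F]; split_ifs <;> norm_num, fun x hx => ?_, ?_,
    fun i hi => ?_⟩
  · by_contra h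
    exact hx (by simp [F, h])
  · rw [hm]; exact_mod_cast Fintype.card_pos
  · have h1 : mass S F - cor S F (u i)
        ≤ ((univ.filter (fun k : Fin N → Fin 1024 => k ⟨i, hi⟩ = 0)).card : ℝ) := by
      unfold mass cor
      rw [← sum_sub_distrib, sum_image fun a _ b _ h => emb_injective N 1024 h, card_filter]
      push_cast
      refine sum_le_sum fun k _ => ?_
      have hk : emb N 1024 k ∈ S := mem_image_of_mem _ (mem_univ _)
      by_cases h0 : k ⟨i, hi⟩ = 0
      · simp only [F, hk, h0, if_true]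
        split_ifs <;> norm_num
      · have hpos : 0 < (k ⟨i, hi⟩ : ℕ) := Nat.pos_of_ne_zero fun h => h0 (Fin.ext h)
        have hk' : emb N 1024 k - u i ∈ S := by
          refine mem_image.2 ⟨Function.update k ⟨i, hi⟩
            ⟨k ⟨i, hi⟩ - 1, by have := (k ⟨i, hi⟩).2; omega⟩, mem_univ _, ?_⟩
          funext j
          by_cases hj : j = i
          · subst hj
            simp only [emb, hi, dif_pos, Function.update_self, u, e, Pi.sub_apply, Pi.smul_apply,
              Pi.single_eq_same, smul_eq_mul, mul_one]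
            rw [Nat.cast_sub hpos]
            push_cast
            ring
          · simp only [emb, u, e, Pi.sub_apply, Pi.smul_apply, Pi.single_eq_of_ne hj,
              smul_eq_mul, mul_zero, sub_zero]
            split_ifs with hjN
            · rw [Function.update_of_ne (fun h => hj (congrArg Fin.val h))]
            · rfl
        simp [F, hk, hk', h0]
    have h2 : (univ.filter (fun k : Fin N → Fin 1024 => k ⟨i, hi⟩ = 0)).card * 1024
        ≤ Fintype.card (Fin N → Fin 1024) := by
      have h3 : ((univ.filter (fun k : Fin N → Fin 1024 => k ⟨i, hi⟩ = 0)) ×ˢ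
          (univ : Finset (Fin 1024))).card ≤ (univ : Finset (Fin N → Fin 1024)).card := by
        refine card_le_card_of_injOn (fun p => Function.update p.1 ⟨i, hi⟩ p.2)
          (fun _ _ => mem_coe.2 (mem_univ _)) ?_
        rintro ⟨k, l⟩ hk ⟨k', l'⟩ hk' h
        simp only [coe_product, Set.mem_prod, coe_filter, mem_univ, true_and,
          Set.mem_ofPred_eq] at hk hk'
        simp only at h
        have hl : l = l' := by simpa using congrFun h ⟨i, hi⟩
        refine Prod.ext ?_ hl
        funext j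
        by_cases hj : j = ⟨i, hi⟩
        · subst hj; exact hk.1.trans hk'.1.symm
        · simpa [Function.update_of_ne hj] using congrFun h j
      rwa [card_product, card_univ, card_univ, Fintype.card_fin] at h3
    have h4 : ((univ.filter (fun k : Fin N → Fin 1024 => k ⟨i, hi⟩ = 0)).card : ℝ) * 1024
        ≤ (Fintype.card (Fin N → Fin 1024) : ℝ) := by exact_mod_cast h2
    rw [← hm] at h4
    linarith

lemma min_sq_ge (a b : ℝ) :
    8 * (a * b) - 113 / 32 * (a * a + b * b) ≤ min (a * a) (b * b) :=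
  le_min (by nlinarith [sq_nonneg (128 * a - 113 * b), sq_nonneg a])
    (by nlinarith [sq_nonneg (113 * a - 128 * b), sq_nonneg b])

end DensAux

open DensAux in
/-- **Density lemma.**  Write `W = ∑_{i<N} w i`, `u i = 8 • e i`.
1. (Følner) For every `η > 0` there is a distribution `P₀` on `G` with `ov P₀ (u i) ≥ 1 - η` for
   all `i < N`: induction on `N`, `P' x = (1/L) ∑_{l<L} P (x - l • u)`; `ov P' u ≥ (L-1)/L`, and
   `ov P' u' ≥ ov P u'` because `min (∑ a) (∑ a') ≥ ∑ min a a'`.
2. For `F ≥ 0` with finite support let `mass F = ∑ᶠ F²`, `cor i F = ∑ᶠ x, F x * F (x - u i)`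
   (`0 ≤ cor ≤ mass`), `Δ F = ∑_{i<N} w i * (mass F - cor i F)`.  `F₀ = √P₀` has mass `1` and
   `cor ≥ ov` (`√a √b ≥ min a b`), so `Δ F₀ < (W/512) * mass F₀` for `η = 1/1024`.
3. (one row) Let `ψ y = max 0 (1 - |y|)`, `I₀ = ∫ ψ² ≥ 1/4`; `∫ (ψ y - ψ (y - z))² dy ≤ 4 z²`
   (ψ is 1-Lipschitz, supported in `[-1,1]`), hence `∫ ψ (y+a) ψ (y+a-z) dy ≥ I₀ (1 - 8 z²)`.
   If `Δ F < c * mass F` and `f` is a linear functional, put `F_y x = F x * ψ (y + 2 * f x)`.
   Then `∫ (Δ F_y - c' * mass F_y) dy < 0` for `c' = c + 8 * 256 * nW N w f`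
   (`2 * f (u i) = 16 * f (e i)`), so some `y` has `Δ F_y < c' * mass F_y`.
   Induction on the list of rows: a final `F` with `Δ F < (W/512 + 2048 * W/2^20) * mass F`
   and offsets `y_f` with `|y_f + 2 f x| ≤ 1` for all rows `f` and all `x ∈ support F`
   (e.g. carry: `∀ f ∈ L, ∀ x x' ∈ support F, |f x - f x'| ≤ 1`).
4. `Q = F²/mass F` is a distribution; `min (a²) (b²) ≥ (a²+b²)/2 - 4 (a-b)² - (a²+b²)/32`, so
   `1 - ov Q (u i) ≤ 1/16 + 8 (1 - cor i F / mass F)`; weighted sum `≤ W/16 + 8 W/256 ≤ W/10`.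
5. Recentre: `P x = Q (x + mean Q)`; `mean P = 0`, same overlaps, and for `x ∈ support P` and a
   row `f`: `f x = ∑ᶠ x', Q x' * (f (x + mean Q) - f x')` has absolute value `≤ 1`, so `x ∈ Ω`. -/
theorem dens (N : ℕ) (w : ℕ → ℝ) (hw : ∀ i, 0 ≤ w i) (hpos : 0 < ∑ i ∈ range N, w i)
    (Ω : Set G) (h : Ctl N w Ω ((∑ i ∈ range N, w i) / 2 ^ 20)) :
    ∃ P : G → ℝ, IsDist P ∧ mean P = 0 ∧ Function.support P ⊆ Ω ∧
      ∑ i ∈ range N, w i * (1 - ov P ((8 : ℝ) • e i)) ≤ (∑ i ∈ range N, w i) / 10 := by
  obtain ⟨L, hL, hΩ⟩ := h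
  set W := ∑ i ∈ range N, w i with hW
  obtain ⟨S, F₀, h0, hS0, hm0, hbox⟩ := exists_box N
  have hd0 : defect N w S F₀ < W / 512 * mass S F₀ := by
    have : defect N w S F₀ ≤ W * (mass S F₀ / 1024) := by
      unfold defect
      rw [hW, sum_mul]
      exact sum_le_sum fun i hi => mul_le_mul_of_nonneg_left (hbox i (mem_range.1 hi)) (hw i)
    nlinarith [mul_pos hpos hm0]
  obtain ⟨F, hF0, hS, hd, hrow⟩ := rows hw h0 hS0 hd0 L
  have hdnn : 0 ≤ defect N w S F :=
    sum_nonneg fun i _ => mul_nonneg (hw i) (sub_nonneg.2 (cor_le_mass hS _))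
  have hd' : defect N w S F < W / 256 * mass S F := by
    refine lt_of_lt_of_le hd (mul_le_mul_of_nonneg_right ?_ (mass_nonneg S F))
    norm_num at hL ⊢
    linarith
  have hm : 0 < mass S F := by
    rcases (mass_nonneg S F).lt_or_eq with h | h
    · exact h
    · rw [← h] at hd'; linarith
  set M := mass S F with hM
  let Q : G → ℝ := fun x => F x * F x / M
  have hQ0 : ∀ x, 0 ≤ Q x := fun x => div_nonneg (mul_self_nonneg _) hm.le
  have hQF : ∀ x, Q x ≠ 0 → F x ≠ 0 := fun x hx h => hx (by simp [Q, h])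
  have hQS : Function.support Q ⊆ S := fun x hx => hS x (hQF x hx)
  have hQ1 : ∑ x ∈ S, Q x = 1 := by
    simp only [Q]
    rw [← sum_div]
    exact div_self hm.ne'
  let m : G := ∑ x ∈ S, Q x • x
  have hov : ∀ v : G, 1 - ov (fun x => Q (x + m)) v ≤ 1 / 16 + 8 * ((M - cor S F v) / M) := by
    intro v
    have h1 : ov (fun x => Q (x + m)) v = ∑ x ∈ S, min (Q x) (Q (x - v)) := by
      unfold ov
      rw [← finsum_eq_sum_of_support_subset (fun x => min (Q x) (Q (x - v)))]
      · refine Eq.trans ?_ (finsum_comp_equiv (Equiv.addRight m))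
        refine finsum_congr fun x => ?_
        simp only [Equiv.coe_addRight]
        rw [sub_add_eq_add_sub]
      · intro x hx
        refine hQS fun h => hx ?_
        simp only [h]
        exact min_eq_left (hQ0 _)
    have h2 : (8 * cor S F v - 113 / 32 * (M + ∑ x ∈ S, F (x - v) * F (x - v))) / M
        ≤ ∑ x ∈ S, min (Q x) (Q (x - v)) := by
      rw [hM, cor, mass, ← sum_add_distrib, mul_sum, mul_sum, ← sum_sub_distrib, sum_div]
      refine sum_le_sum fun x _ => ?_
      simp only [Q]
      rw [min_div_div_right hm.le]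
      exact div_le_div_of_nonneg_right (min_sq_ge _ _) hm.le
    have h3 := shift_sq_le hS v
    have h4 : (8 * cor S F v - 113 / 16 * M) / M
        ≤ (8 * cor S F v - 113 / 32 * (M + ∑ x ∈ S, F (x - v) * F (x - v))) / M :=
      div_le_div_of_nonneg_right (by linarith) hm.le
    have h5 : (8 * cor S F v - 113 / 16 * M) / M = 1 - (1 / 16 + 8 * ((M - cor S F v) / M)) := by
      field_simp
      ring
    linarith
  refine ⟨fun x => Q (x + m), ⟨?_, fun x => hQ0 _, ?_⟩, ?_, ?_, ?_⟩
  · refine ((S.finite_toSet.subset hQS).preimage (f := fun x => x + m)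
      (add_left_injective m).injOn).subset fun x hx => hx
  · rw [← hQ1, ← finsum_eq_sum_of_support_subset Q hQS]
    exact finsum_comp_equiv (Equiv.addRight m)
  · unfold mean
    have h1 : ∑ᶠ x, Q (x + m) • x = ∑ᶠ y, Q y • (y - m) := by
      refine Eq.trans ?_ (finsum_comp_equiv (Equiv.addRight m))
      refine finsum_congr fun x => ?_
      simp
    rw [h1, finsum_eq_sum_of_support_subset (s := S)]
    · simp only [smul_sub]
      rw [sum_sub_distrib, ← sum_smul, hQ1, one_smul, sub_self]
    · intro x hx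
      refine hQS fun h => hx ?_
      simp [h]
  · intro x hx
    have hx' : F (x + m) ≠ 0 := hQF _ hx
    refine hΩ x fun f hf => ?_
    have h1 : f x = ∑ y ∈ S, Q y * (f (x + m) - f y) := by
      simp only [mul_sub]
      rw [sum_sub_distrib, ← sum_mul, hQ1, one_mul, map_add]
      have : f m = ∑ y ∈ S, Q y * f y := by simp [m, map_sum]
      linarith
    rw [h1]
    refine (abs_sum_le_sum_abs _ _).trans ?_
    rw [← hQ1]
    refine sum_le_sum fun y _ => ?_
    rw [abs_mul, abs_of_nonneg (hQ0 y)]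
    by_cases hy : Q y = 0
    · simp [hy]
    · exact mul_le_of_le_one_right (hQ0 y) (hrow f hf _ _ hx' (hQF y hy))
  · calc ∑ i ∈ range N, w i * (1 - ov (fun x => Q (x + m)) ((8 : ℝ) • e i))
        ≤ ∑ i ∈ range N, w i * (1 / 16 + 8 * ((M - cor S F (u i)) / M)) :=
          sum_le_sum fun i _ => mul_le_mul_of_nonneg_left (hov _) (hw i)
      _ = W / 16 + 8 * (defect N w S F / M) := by
          rw [hW, defect, sum_div, sum_div, mul_sum, ← sum_add_distrib]
          exact sum_congr rfl fun i _ => by ring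
      _ ≤ W / 16 + 8 * (W / 256) := by
          have : defect N w S F / M ≤ W / 256 := by
            rw [div_le_iff₀ hm]; exact hd'.le
          linarith
      _ ≤ W / 10 := by linarith

end Crest.Agent.R239
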