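import Crest.Agent.R239.Ctl

/-! # One-dimensional integrals of the tent function (auxiliary for `Dens`) -/

set_option autoImplicit false

namespace Crest.Agent.R239.DensAux

open MeasureTheory Set

/-- the tent function -/
noncomputable def tent (y : ℝ) : ℝ := max 0 (1 - |y|)

lemma tent_nonneg (y : ℝ) : 0 ≤ tent y := le_max_left _ _

lemma tent_le_one (y : ℝ) : tent y ≤ 1 := max_le zero_le_one (by linarith [abs_nonneg y])

lemma abs_lt_of_tent_ne {y : ℝ} (h : tent y ≠ 0) : |y| < 1 := by
  by_contra hy
  exact h (max_eq_left (by linarith [not_lt.1 hy]))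

@[fun_prop]
lemma continuous_tent : Continuous tent := by unfold tent; fun_prop

lemma abs_tent_sub_le (y y' : ℝ) : |tent y - tent y'| ≤ |y - y'| := by
  unfold tent
  refine (abs_max_sub_max_le_max _ _ _ _).trans (max_le (by simp) ?_)
  have := abs_abs_sub_abs_le_abs_sub y' y
  rw [abs_sub_comm y' y] at this
  have h : 1 - |y| - (1 - |y'|) = |y'| - |y| := by ring
  rw [h]; exact this

/-- indicator of `[-1, 1]` -/
noncomputable def ind (y : ℝ) : ℝ := (Icc (-1 : ℝ) 1).indicator (fun _ => (1 : ℝ)) y

lemma ind_nonneg (y : ℝ) : 0 ≤ ind y := indicator_nonneg (fun _ _ => zero_le_one) y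

lemma integrable_ind : Integrable ind :=
  (integrable_indicator_iff measurableSet_Icc).2 (integrableOn_const (by simp))

lemma integral_ind : ∫ y, ind y = 2 := by
  unfold ind
  rw [integral_indicator measurableSet_Icc]
  simp; norm_num

lemma ind_eq_one {y : ℝ} (h : tent y ≠ 0) : ind y = 1 := by
  have := abs_lt.1 (abs_lt_of_tent_ne h)
  exact indicator_of_mem (show y ∈ Icc (-1 : ℝ) 1 from ⟨this.1.le, this.2.le⟩) _

lemma tent_le_ind (y : ℝ) : tent y ≤ ind y := by
  by_cases h : tent y = 0
  · rw [h]; exact ind_nonneg y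
  · rw [ind_eq_one h]; exact tent_le_one y

lemma integrable_tent_mul (a b : ℝ) : Integrable (fun y => tent (y + a) * tent (y + b)) := by
  refine Integrable.mono' (integrable_ind.comp_add_right a)
    (Continuous.aestronglyMeasurable (by fun_prop)) (ae_of_all _ fun y => ?_)
  rw [Real.norm_eq_abs, abs_of_nonneg (mul_nonneg (tent_nonneg _) (tent_nonneg _))]
  calc tent (y + a) * tent (y + b) ≤ ind (y + a) * 1 :=
        mul_le_mul (tent_le_ind _) (tent_le_one _) (tent_nonneg _) (ind_nonneg _)
    _ = ind (y + a) := mul_one _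

/-- `∫ ψ²` -/
noncomputable def I0 : ℝ := ∫ y, tent y * tent y

lemma integral_tent_sq (a : ℝ) : ∫ y, tent (y + a) * tent (y + a) = I0 :=
  integral_add_right_eq_self (fun y => tent y * tent y) a

lemma I0_ge : 1 / 4 ≤ I0 := by
  have h1 : ∫ y, (Icc (-1 / 2 : ℝ) (1 / 2)).indicator (fun _ => (1 / 4 : ℝ)) y = 1 / 4 := by
    rw [integral_indicator measurableSet_Icc]
    simp; norm_num
  rw [← h1]
  have h2 := integrable_tent_mul 0 0
  simp only [add_zero] at h2
  refine integral_mono_of_nonneg (ae_of_all _ fun y => ?_) h2 (ae_of_all _ fun y => ?_)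
  · exact indicator_nonneg (fun _ _ => by norm_num) y
  · by_cases hy : y ∈ Icc (-1 / 2 : ℝ) (1 / 2)
    · simp only [indicator_of_mem hy]
      have h3 : |y| ≤ 1 / 2 := abs_le.2 ⟨by linarith [hy.1], hy.2⟩
      have h4 : 1 / 2 ≤ tent y := le_max_of_le_right (by linarith)
      nlinarith
    · simp only [indicator_of_notMem hy]
      exact mul_nonneg (tent_nonneg _) (tent_nonneg _)

lemma integral_tent_mul_ge (a b : ℝ) :
    I0 * (1 - 8 * (a - b) ^ 2) ≤ ∫ y, tent (y + a) * tent (y + b) := by
  have hpt : ∀ y, (tent (y + a) * tent (y + a) + tent (y + b) * tent (y + b)) / 2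
      - (a - b) ^ 2 / 2 * (ind (y + a) + ind (y + b)) ≤ tent (y + a) * tent (y + b) := by
    intro y
    have h1 : (tent (y + a) - tent (y + b)) ^ 2 ≤ (a - b) ^ 2 := by
      have := abs_tent_sub_le (y + a) (y + b)
      rw [show y + a - (y + b) = a - b by ring] at this
      exact sq_le_sq.2 this
    have h2 : (tent (y + a) - tent (y + b)) ^ 2 ≤ (a - b) ^ 2 * (ind (y + a) + ind (y + b)) := by
      by_cases ha : tent (y + a) = 0
      · by_cases hb : tent (y + b) = 0
        · rw [ha, hb]
          have := ind_nonneg (y + a)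
          have := ind_nonneg (y + b)
          simp only [sub_self, ne_eq, OfNat.ofNat_ne_zero, not_false_eq_true, zero_pow]
          positivity
        · rw [ind_eq_one hb]
          nlinarith [ind_nonneg (y + a), sq_nonneg (a - b)]
      · rw [ind_eq_one ha]
        nlinarith [ind_nonneg (y + b), sq_nonneg (a - b)]
    nlinarith
  have i1 := integrable_tent_mul a a
  have i2 := integrable_tent_mul b b
  have i3 := integrable_ind.comp_add_right a
  have i4 := integrable_ind.comp_add_right b
  have j1 : Integrable (fun y =>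
      (tent (y + a) * tent (y + a) + tent (y + b) * tent (y + b)) / 2) := (i1.add i2).div_const 2
  have j2 : Integrable (fun y => (a - b) ^ 2 / 2 * (ind (y + a) + ind (y + b))) :=
    (i3.add i4).const_mul ((a - b) ^ 2 / 2)
  have j3 : Integrable (fun y => (tent (y + a) * tent (y + a) + tent (y + b) * tent (y + b)) / 2
      - (a - b) ^ 2 / 2 * (ind (y + a) + ind (y + b))) := j1.sub j2
  have h := integral_mono j3 (integrable_tent_mul a b) hpt
  rw [integral_sub j1 j2, integral_div, integral_add i1 i2, integral_const_mul,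
    integral_add i3 i4, integral_tent_sq, integral_tent_sq, integral_add_right_eq_self ind a,
    integral_add_right_eq_self ind b, integral_ind] at h
  nlinarith [I0_ge, sq_nonneg (a - b)]

end Crest.Agent.R239.DensAux
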