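import Crest.Agent.R239.DomB

/-! # Few columns dominate the band energy during a window -/

set_option autoImplicit false
set_option linter.unusedSectionVars false

namespace Crest.Agent.R239

open Finset Module
open scoped InnerProductSpace

variable {E : Type} [NormedAddCommGroup E] [InnerProductSpace ℝ E] [FiniteDimensional ℝ E]

namespace Sys
variable (S : Sys E)

theorem first_factor (k : ℕ) {a b t : ℕ} (hat : a ≤ t) (htb : t ≤ b) {Pc : E →ₗ[ℝ] E}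
    (hP0 : ∀ i ∈ S.hv k a b, Pc (S.A i b) = 0) (hP : ∀ z, ‖Pc z‖ ^ 2 ≤ ‖z‖ ^ 2) (c : E) :
    S.lam k * ⟪c, S.Ao k a t c⟫_ℝ +
        ‖Pc (S.T a b (Dg (S.p a) (S.muH k a) (S.Tt a t c)))‖ ^ 2 ≤
      2 * (‖S.M t c‖ ^ 2 + S.lam k * ⟪c, S.M t c⟫_ℝ) := by
  have hl := S.lam_pos k
  have h1 : Pc (S.T t b (S.Ah k a t c)) = 0 := by
    rw [Ah, rkSum_apply, map_sum, map_sum]
    refine sum_eq_zero fun i hi => ?_
    simp only [hv, mem_filter, mem_Ico] at hi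
    rw [map_smul, map_smul, S.T_A hi.1.2 htb, hP0 i, smul_zero]
    simp only [hv, mem_filter, mem_Ico]
    exact ⟨⟨hi.1.1, by omega⟩, hi.2⟩
  have h2 : Pc (S.T a b (Dg (S.p a) (S.muH k a) (S.Tt a t c))) =
      Pc (S.T t b (S.M t c - S.Al k a t c)) := by
    have : S.M t c - S.Al k a t c = S.Ao k a t c + S.Ah k a t c := by
      simp only [Al, LinearMap.sub_apply]; abel
    rw [this, map_add, map_add, h1, add_zero, ← S.T_comp hat htb]; rfl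
  have h3 : ‖S.T t b (S.M t c - S.Al k a t c)‖ ^ 2 ≤ ‖S.M t c - S.Al k a t c‖ ^ 2 :=
    pow_le_pow_left₀ (norm_nonneg _) (S.norm_T_le _ _ _) 2
  have h4 : ‖S.M t c - S.Al k a t c‖ ^ 2 ≤ 2 * ‖S.M t c‖ ^ 2 + 2 * ‖S.Al k a t c‖ ^ 2 := by
    have h5 := norm_sub_le (S.M t c) (S.Al k a t c)
    have h6 := pow_le_pow_left₀ (norm_nonneg _) h5 2
    nlinarith [sq_nonneg (‖S.M t c‖ - ‖S.Al k a t c‖)]
  have h5 := psd_norm_sq_le (S.Al_symm k hat) (S.Al_nonneg k hat)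
    (mul_pos eps_pos hl).le (S.Al_le_eps k hat) c
  have h6 := S.M_eq_sum k a t c c
  have h7 := S.Ah_nonneg k a t c
  have h8 := S.Al_nonneg k hat c
  have h9 := S.Ao_nonneg k a t c
  have h10 : eps * S.lam k * ⟪c, S.Al k a t c⟫_ℝ ≤ 1 / 2 * S.lam k * ⟪c, S.Al k a t c⟫_ℝ :=
    mul_le_mul_of_nonneg_right (mul_le_mul_of_nonneg_right eps_le hl.le) h8
  have h11 := hP (S.T t b (S.M t c - S.Al k a t c))
  rw [h2, h6]
  nlinarith [mul_nonneg hl.le h7, mul_nonneg hl.le h8, mul_nonneg hl.le h9]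

theorem old_bound (k : ℕ) {a b t : ℕ} (hat : a ≤ t) (htb : t ≤ b) {Pc : E →ₗ[ℝ] E}
    (hP0 : ∀ i ∈ S.hv k a b, Pc (S.A i b) = 0) (hP : ∀ z, ‖Pc z‖ ^ 2 ≤ ‖z‖ ^ 2)
    (u : OrthonormalBasis (Fin (finrank ℝ E)) ℝ E) (σ : Fin (finrank ℝ E) → ℝ)
    (hσ : ∀ l, σ l < 1)
    (hu : ∀ x, ∑ l, (1 - σ l) * ⟪u l, x⟫_ℝ ^ 2 =
      ‖x‖ ^ 2 - ‖S.Jm k a x‖ ^ 2 + ‖Pc (S.T a b (S.Jm k a x))‖ ^ 2) (c y : E) :
    ⟪y, S.Ao k a t c⟫_ℝ ^ 2 ≤ (‖S.M t c‖ ^ 2 + S.lam k * ⟪c, S.M t c⟫_ℝ) *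
      (2 * (2 * ‖S.Jm k a (S.Tt a t y)‖ ^ 2 + ∑ l ∈ univ.filter (fun l => 1 / 2 < σ l),
        (1 - σ l)⁻¹ * ⟪S.T a t (S.Jm k a (u l)), y⟫_ℝ ^ 2)) := by
  have hl := S.lam_pos k
  have hJs : (S.Jm k a).IsSymmetric := rkSum_symm _ _ _
  let d' : Fin (finrank ℝ E) → ℝ := fun j =>
    if j ∈ S.H k a then √(S.μ a j * (S.μ a j + S.lam k)) else 0
  have hd1 : ∀ j, S.dq k a j * d' j = S.muH k a j := by
    intro j
    have hμ := S.mu_pos a j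
    simp only [dq, d', muH]
    split_ifs
    · rw [← Real.sqrt_mul (by positivity)]
      have : S.μ a j / (S.μ a j + S.lam k) * (S.μ a j * (S.μ a j + S.lam k)) = S.μ a j ^ 2 := by
        field_simp
      rw [this, Real.sqrt_sq hμ.le]
    · simp
  have hd2 : ∀ j, d' j ^ 2 - S.muH k a j ^ 2 = S.lam k * S.muH k a j := by
    intro j
    have hμ := S.mu_pos a j
    simp only [d', muH]
    split_ifs
    · rw [Real.sq_sqrt (by positivity)]; ring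
    · simp
  set x' := Dg (S.p a) d' (S.Tt a t c) with hx'
  have hJx : S.Jm k a x' = Dg (S.p a) (S.muH k a) (S.Tt a t c) := by
    refine eq_of_inner_basis (S.p a) fun j => ?_
    rw [Jm, p_Dg, hx', p_Dg, p_Dg, ← mul_assoc, hd1]
  have hnorm : ‖x'‖ ^ 2 - ‖S.Jm k a x'‖ ^ 2 = S.lam k * ⟪c, S.Ao k a t c⟫_ℝ := by
    rw [hJx, hx', norm_Dg_sq, norm_Dg_sq, inner_Ao, mul_sum, ← sum_sub_distrib]
    refine sum_congr rfl fun j _ => ?_
    rw [← sub_mul, hd2]; ring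
  have hin : ⟪y, S.Ao k a t c⟫_ℝ =
      ∑ l, ⟪u l, S.Jm k a (S.Tt a t y)⟫_ℝ * ⟪u l, x'⟫_ℝ := by
    rw [← inner_eq_sum, hJs, hJx, ← inner_T']; rfl
  have hcs := sum_sq_le_sum_mul_sum_of_sq_le_mul univ
    (r := fun l => ⟪u l, S.Jm k a (S.Tt a t y)⟫_ℝ * ⟪u l, x'⟫_ℝ)
    (f := fun l => (1 - σ l) * ⟪u l, x'⟫_ℝ ^ 2)
    (g := fun l => (1 - σ l)⁻¹ * ⟪u l, S.Jm k a (S.Tt a t y)⟫_ℝ ^ 2)
    (fun l _ => mul_nonneg (by linarith [hσ l]) (sq_nonneg _))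
    (fun l _ => mul_nonneg (inv_nonneg.2 (by linarith [hσ l])) (sq_nonneg _))
    (fun l _ => by
      have : 1 - σ l ≠ 0 := by linarith [hσ l]
      apply le_of_eq; field_simp)
  have hF : ∑ l, (1 - σ l) * ⟪u l, x'⟫_ℝ ^ 2 ≤
      2 * (‖S.M t c‖ ^ 2 + S.lam k * ⟪c, S.M t c⟫_ℝ) := by
    rw [hu, hnorm, hJx]
    exact S.first_factor k hat htb hP0 hP c
  have hG : ∑ l, (1 - σ l)⁻¹ * ⟪u l, S.Jm k a (S.Tt a t y)⟫_ℝ ^ 2 ≤
      2 * ‖S.Jm k a (S.Tt a t y)‖ ^ 2 + ∑ l ∈ univ.filter (fun l => 1 / 2 < σ l),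
        (1 - σ l)⁻¹ * ⟪S.T a t (S.Jm k a (u l)), y⟫_ℝ ^ 2 := by
    rw [← u.sum_sq_inner_right, mul_sum, sum_filter, ← sum_add_distrib]
    refine sum_le_sum fun l _ => ?_
    rw [S.inner_T, hJs]
    have h0 := sq_nonneg ⟪u l, S.Jm k a (S.Tt a t y)⟫_ℝ
    split_ifs with h
    · linarith
    · have : (1 - σ l)⁻¹ ≤ 2 := by
        rw [inv_le_comm₀ (by linarith [hσ l]) (by norm_num)]; linarith [not_lt.1 h]
      nlinarith
  have hG0 : 0 ≤ ∑ l, (1 - σ l)⁻¹ * ⟪u l, S.Jm k a (S.Tt a t y)⟫_ℝ ^ 2 :=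
    sum_nonneg fun l _ => mul_nonneg (inv_nonneg.2 (by linarith [hσ l])) (sq_nonneg _)
  have hβ : 0 ≤ ‖S.M t c‖ ^ 2 + S.lam k * ⟪c, S.M t c⟫_ℝ :=
    add_nonneg (sq_nonneg _) (mul_nonneg hl.le (S.M_nonneg t c))
  rw [hin]
  refine hcs.trans ((mul_le_mul hF hG hG0 (by linarith)).trans (le_of_eq ?_))
  ring

theorem trace_bound (k a b : ℕ) {Pc : E →ₗ[ℝ] E} {m : ℕ} {e : Fin m → E}
    (he : ∀ r, ‖e r‖ = 1) (hP : ∀ z, ‖Pc z‖ ^ 2 = ‖z‖ ^ 2 - ∑ r, ⟪e r, z⟫_ℝ ^ 2) :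
    ∑ j, (‖S.Jm k a (S.p a j)‖ ^ 2 - ‖Pc (S.T a b (S.Jm k a (S.p a j)))‖ ^ 2) ≤
      S.Dd k a b + m := by
  have h1 : ∑ j, ∑ r, ⟪e r, S.T a b (S.p a j)⟫_ℝ ^ 2 ≤ m := by
    rw [sum_comm]
    calc ∑ r, ∑ j, ⟪e r, S.T a b (S.p a j)⟫_ℝ ^ 2 ≤ ∑ _r : Fin m, (1 : ℝ) := by
          refine sum_le_sum fun r _ => ?_
          simp only [inner_T']
          rw [(S.p a).sum_sq_inner_left]
          have := S.norm_Tt_le a b (e r)
          rw [he] at this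
          nlinarith [norm_nonneg (S.Tt a b (e r))]
      _ = m := by simp
  have h2 : S.Dd k a b =
      ∑ j, if j ∈ S.H k a then (1 - ‖S.T a b (S.p a j)‖ ^ 2) else 0 := by
    rw [Dd, ← sum_filter]; simp
  refine le_trans ?_ (add_le_add_right h1 _)
  rw [h2, ← sum_add_distrib]
  refine sum_le_sum fun j _ => ?_
  rw [Jm, Dg_basis, map_smul, map_smul, norm_smul, norm_smul, mul_pow, mul_pow, hP,
    (S.p a).norm_eq_one, Real.norm_eq_abs, sq_abs]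
  have h3 : 0 ≤ ∑ r, ⟪e r, S.T a b (S.p a j)⟫_ℝ ^ 2 := sum_nonneg fun r _ => sq_nonneg _
  have h4 : ‖S.T a b (S.p a j)‖ ^ 2 ≤ 1 := by
    have := S.norm_T_le a b (S.p a j)
    rw [(S.p a).norm_eq_one] at this
    nlinarith [norm_nonneg (S.T a b (S.p a j))]
  have h5 := S.dq_sq_lt k a j
  have h6 := sq_nonneg (S.dq k a j)
  split_ifs with h
  · nlinarith
  · rw [dq_sq, if_neg h]; linarith

theorem card_old (k a : ℕ) :
    ((univ.filter fun j => j ∈ S.H k a ∧ S.μ a j < S.lam k / eps).card : ℝ) ≤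
      (1 + 1 / eps) * S.nn k a := by
  have hl := S.lam_pos k
  have he := eps_pos
  rw [card_eq_sum_ones, Nat.cast_sum, nn, mul_sum]
  refine le_trans (sum_le_sum fun j hj => ?_) (sum_le_sum_of_subset_of_nonneg
    (fun j hj => (mem_filter.1 hj).2.1) fun j _ _ => ?_)
  · have hμ := S.mu_pos a j
    have h := (mem_filter.1 hj).2.2
    rw [Nat.cast_one, ← mul_div_assoc, le_div_iff₀ (by positivity)]
    have : (1 + 1 / eps) * S.lam k = S.lam k + S.lam k / eps := by ring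
    linarith
  · have hμ := S.mu_pos a j
    positivity

theorem heavy_col (k i : ℕ) :
    S.lam k * ⟪√(S.w i / S.lam k) • S.φ i,
      S.R (i + 1) (S.lam k) (√(S.w i / S.lam k) • S.φ i)⟫_ℝ ≤ 1 := by
  have hl := S.lam_pos k
  have hw := S.w_pos i
  have h1 := res_rank_one (S.M_symm (i + 1)) (S.M_nonneg (i + 1)) hl (v := √(S.w i) • S.φ i)
    (fun u => by
      rw [S.inner_M_succ, inner_smul_left]
      have := S.M_nonneg i (Ph (S.φ i) u)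
      simp only [conj_trivial, mul_pow, Real.sq_sqrt hw.le]
      nlinarith)
  have h2 : ‖√(S.w i) • S.φ i‖ ^ 2 / (‖√(S.w i) • S.φ i‖ ^ 2 + S.lam k) ≤ 1 := by
    rw [div_le_one (by positivity)]; linarith
  have h3 := h1.trans h2
  simp only [R, map_smul, inner_smul_left, inner_smul_right, conj_trivial, ← mul_assoc] at h3 ⊢
  rw [Real.mul_self_sqrt hw.le] at h3
  have : S.lam k * √(S.w i / S.lam k) * √(S.w i / S.lam k) = S.w i := by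
    rw [mul_assoc, Real.mul_self_sqrt (by positivity)]; field_simp
  rw [this]; exact h3


/-- **Domination lemma.**  Notation: `λ = lam k`, `ε = eps`, `p j = p a j`, `μ j = μ a j`,
`q j = μ j/(μ j + λ)`, `H = H k a`, `hv = hv k a b`, `T' = T a b`.
`J x = ∑_{j∈H} (√(q j) ⟪p j, x⟫) • p j` (symmetric), `U = span {A i b | i ∈ hv}`, `Π` the
orthogonal projection onto `U` (`finrank U ≤ card hv`), `Pc = 1 - Π`.
`Em = J (1 - Tt a b ∘ Pc ∘ T') J`, symmetric, `⟪x, Em x⟫ = ‖J x‖² - ‖Pc T' J x‖² ≥ 0`; eigen-data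
`u l, σ l` (`exists_eig`): `0 ≤ σ l ≤ ‖J (u l)‖² < 1`, and
`∑ σ l = ∑_j ⟪p j, Em (p j)⟫ = ∑_{j∈H} q j (1 - ‖T' p j‖² + ‖Π T' p j‖²) ≤ Dd + card hv`
(Bessel with an orthonormal basis of `U` and `norm_Tt_le`), so `#{l | 1/2 < σ l} ≤ 2 (Dd + card hv)`.
Columns (`C` = a sum of three subtypes):
1. `p j` for `j ∈ H` with `μ j < λ/ε`, born at `a` (number `≤ (1 + 1/ε) nn`);
2. `(1 - σ l)^(-1/2) • J (u l)` for `σ l > 1/2`, born at `a`; `λ ⟪J u, R J u⟫ =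
   ∑_H q j (1 - q j) ⟪p j, u⟫² ≤ 1 - ‖J u‖² ≤ 1 - σ`;
3. `√(w i/λ) • φ i` for `i ∈ hv`, born at `i + 1`; `w i ⟪φ, R (i+1) λ φ⟫ ≤ 1` by `res_rank_one`
   with `v = √w • φ` (`inner_M_succ`).
Fix `t ∈ [a, b]`, `y`; `T = T a t`, `c = R t λ y`, `β = beta = ⟪y, M c⟫ = λ ⟪c, M c⟫ + ‖M c‖²`
(`y = M c + λ c`).  By `M_decomp`, `M t = Ao + Ah + Al` as forms/maps, where
`Ao v = T (∑_{j∈H} μ j ⟪T p j, v⟫ • p j)`, `Ah v = ∑_{i ∈ hv k a t} w i ⟪A i t, v⟫ • A i t`, and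
`Al` (old eigenvalues `< ελ`, light steps) is symmetric with `0 ≤ Al ≤ M t` and `Al ≤ ελ`
(`id_decomp`).
* `⟪Ah c, y⟫² ≤ λ⟪c, Ah c⟫ · U₃ ≤ β U₃`, `U₃ = ∑_{hv k a t} (w i/λ) ⟪A i t, y⟫²`;
* `⟪Al c, y⟫² ≤ ⟪c, Al c⟫ ⟪y, Al y⟫ ≤ β · ⟪y, Al y⟫/λ` (`psd_cs`), and splitting `y = y₁ + y₂`
  along the eigenbasis of `M t` (`μ ≤ ελ` or not) gives
  `⟪y, Al y⟫/λ ≤ 2 ∑_i ⟪p t i, y⟫² min (μ t i/λ) ε`;
* `x = ∑_H μ j ⟪T p j, c⟫ • p j = J x'`, `x' = ∑_H (μ j/√(q j)) ⟪T p j, c⟫ • p j`,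
  `⟪Ao c, y⟫ = ⟪x', J (Tt a t y)⟫ = ∑_l ⟪u l, x'⟫ ⟪u l, J Tt y⟫`, Cauchy–Schwarz with weights
  `1 - σ l`: `∑ (1-σ l) ⟪u l, x'⟫² = ‖x'‖² - ‖x‖² + ‖Pc T' x‖² = λ ⟪c, Ao c⟫ + ‖Pc T' x‖²`,
  `Pc T' x = Pc (T t b (T x + Ah c))` (`T_comp`, `T_A`), so `‖Pc T' x‖² ≤ ‖M c - Al c‖²
  ≤ 2‖M c‖² + 2 ελ ⟪c, Al c⟫` (`psd_norm_sq_le`): first factor `≤ 2β`.  Second factor:
  `1/(1-σ) ≤ 2 + 1[σ > 1/2]/(1-σ)`, `‖J Tt y‖² = ∑_H q j ⟪T p j, y⟫² ≤ U₁ + (ε/λ) ⟪y, M t y⟫`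
  (`q j ≤ 1`; for `μ j ≥ λ/ε`, `q j ≤ 1 ≤ ε μ j/λ`), so it is `≤ 2U₁ + 2(ε/λ)⟪y, M y⟫ + U₂`.
Hence `β ≤ √β (√(2·second) + √U₃ + √(⟪y, Al y⟫/λ))`, `β ≤ 3 (2·second + U₃ + ⟪y, Al y⟫/λ)`. -/
theorem dom (k : ℕ) {a b : ℕ} (hab : a ≤ b) :
    ∃ (C : Type) (_ : Fintype C) (τ : C → ℕ) (z : C → E),
      (∀ c, a ≤ τ c ∧ τ c ≤ b) ∧
      (∀ c, S.lam k * ⟪z c, S.R (τ c) (S.lam k) (z c)⟫_ℝ ≤ 1) ∧
      (Fintype.card C : ℝ) ≤
        (1 + 1 / eps) * S.nn k a + 2 * S.Dd k a b + 3 * (S.hv k a b).card ∧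
      ∀ t, a ≤ t → t ≤ b → ∀ y : E, S.beta k t y ≤ 12 * S.colE τ z t y + S.err k t y := by
  classical
  have hl := S.lam_pos k
  have he := eps_pos
  obtain ⟨Pc, m, e, hm, he1, hP0, hP⟩ := exists_proj (S.hv k a b) (fun i => S.A i b)
  have hP' : ∀ z, ‖Pc z‖ ^ 2 ≤ ‖z‖ ^ 2 := fun z => by
    rw [hP]; linarith [sum_nonneg fun r (_ : r ∈ univ) => sq_nonneg ⟪e r, z⟫_ℝ]
  obtain ⟨u, σ, hσ1, hσ2, hσ3⟩ :=
    exists_defect (S.p a) (S.Jm k a) (Pc ∘ₗ S.T a b ∘ₗ S.Jm k a)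
  simp only [LinearMap.comp_apply] at hσ1 hσ2 hσ3
  have hσ0 : ∀ l, 0 ≤ σ l := fun l => by
    have h1 := hP' (S.T a b (S.Jm k a (u l)))
    have h2 := pow_le_pow_left₀ (norm_nonneg _) (S.norm_T_le a b (S.Jm k a (u l))) 2
    rw [hσ1]; linarith
  have hσJ : ∀ l, σ l ≤ ‖S.Jm k a (u l)‖ ^ 2 := fun l => by
    rw [hσ1]; linarith [sq_nonneg ‖Pc (S.T a b (S.Jm k a (u l)))‖]
  have hσlt : ∀ l, σ l < 1 := fun l => (hσJ l).trans_lt (S.norm_Jm_lt k a (u.norm_eq_one l))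
  let F1 := univ.filter fun j => j ∈ S.H k a ∧ S.μ a j < S.lam k / eps
  let F2 := univ.filter fun l => 1 / 2 < σ l
  refine ⟨F1 ⊕ F2 ⊕ S.hv k a b, inferInstance,
    Sum.elim (fun _ => a) (Sum.elim (fun _ => a) (fun i => i.1 + 1)),
    Sum.elim (fun j => S.p a j.1) (Sum.elim (fun l => (√(1 - σ l.1))⁻¹ • S.Jm k a (u l.1))
      (fun i => √(S.w i.1 / S.lam k) • S.φ i.1)), ?_, ?_, ?_, ?_⟩
  · rintro (j | l | ⟨i, hi⟩)
    · exact ⟨le_rfl, hab⟩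
    · exact ⟨le_rfl, hab⟩
    · simp only [hv, mem_filter, mem_Ico] at hi
      simp only [Sum.elim_inr]
      omega
  · rintro (j | l | i)
    · simp only [Sum.elim_inl]
      have hμ := S.mu_pos a j.1
      rw [S.R_p a hl, inner_smul_right, real_inner_self_eq_norm_sq, (S.p a).norm_eq_one,
        one_pow, mul_one, ← div_eq_mul_inv, div_le_one (by positivity)]
      linarith
    · simp only [Sum.elim_inr, Sum.elim_inl, map_smul, inner_smul_left, inner_smul_right,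
        conj_trivial]
      have h1 := S.lam_R_Jm k a (u l.1)
      rw [u.norm_eq_one, one_pow] at h1
      have h2 : 0 < 1 - σ l.1 := by linarith [hσlt l.1]
      have h3 : (√(1 - σ l.1))⁻¹ * (√(1 - σ l.1))⁻¹ = (1 - σ l.1)⁻¹ := by
        rw [← mul_inv, Real.mul_self_sqrt h2.le]
      calc _ = (√(1 - σ l.1))⁻¹ * (√(1 - σ l.1))⁻¹ *
            (S.lam k * ⟪S.Jm k a (u l.1), S.R a (S.lam k) (S.Jm k a (u l.1))⟫_ℝ) := by ring
        _ ≤ (1 - σ l.1)⁻¹ * (1 - σ l.1) := by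
            rw [h3]
            exact mul_le_mul_of_nonneg_left (by linarith [hσJ l.1]) (inv_nonneg.2 h2.le)
        _ = 1 := inv_mul_cancel₀ h2.ne'
    · exact S.heavy_col k i.1
  · have h1 := S.card_old k a
    have h2 := card_filter_half_le σ hσ0
    have h3 := S.trace_bound k a b he1 hP
    have h4 : (m : ℝ) ≤ (S.hv k a b).card := by exact_mod_cast hm
    simp only [Fintype.card_sum, Fintype.card_coe, Nat.cast_add]
    rw [← hσ2] at h3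
    linarith
  · intro t hat htb y
    set U1 := ∑ j ∈ F1, ⟪S.T a t (S.p a j), y⟫_ℝ ^ 2 with hU1
    set U2 := ∑ l ∈ F2, (1 - σ l)⁻¹ * ⟪S.T a t (S.Jm k a (u l)), y⟫_ℝ ^ 2 with hU2
    set U3 := ∑ i ∈ S.hv k a t, S.w i / S.lam k * ⟪S.A i t, y⟫_ℝ ^ 2 with hU3
    have hcol : S.colE (C := F1 ⊕ F2 ⊕ S.hv k a b)
        (Sum.elim (fun _ => a) (Sum.elim (fun _ => a) (fun i => i.1 + 1)))
        (Sum.elim (fun j => S.p a j.1) (Sum.elim (fun l => (√(1 - σ l.1))⁻¹ • S.Jm k a (u l.1))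
          (fun i => √(S.w i.1 / S.lam k) • S.φ i.1))) t y = U1 + (U2 + U3) := by
      simp only [colE, Fintype.sum_sum_type, Sum.elim_inl, Sum.elim_inr, if_pos hat]
      congr 1
      · exact sum_coe_sort F1 (fun j => ⟪S.T a t (S.p a j), y⟫_ℝ ^ 2)
      congr 1
      · rw [hU2, ← sum_coe_sort F2]
        refine sum_congr rfl fun l _ => ?_
        have h2 : 0 < 1 - σ l.1 := by linarith [hσlt l.1]
        rw [map_smul, inner_smul_left, conj_trivial, mul_pow, inv_pow, Real.sq_sqrt h2.le]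
      · rw [sum_coe_sort (S.hv k a b) (fun i => if i + 1 ≤ t then
          ⟪S.T (i + 1) t (√(S.w i / S.lam k) • S.φ i), y⟫_ℝ ^ 2 else 0), ← sum_filter]
        refine sum_congr ?_ fun i _ => ?_
        · ext i
          simp only [hv, mem_filter, mem_Ico]
          constructor
          · rintro ⟨⟨⟨h1, -⟩, h2⟩, h3⟩
            exact ⟨⟨h1, by omega⟩, h2⟩
          · rintro ⟨⟨h1, h3⟩, h2⟩
            exact ⟨⟨⟨h1, by omega⟩, h2⟩, by omega⟩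
        · have hw := S.w_pos i
          rw [map_smul, inner_smul_left, conj_trivial, mul_pow, Real.sq_sqrt (by positivity)]
          rfl
    rw [hcol]
    set c := S.R t (S.lam k) y with hc
    have hβ := S.beta_eq k t y
    rw [← hc] at hβ
    have hU1' : 0 ≤ U1 := sum_nonneg fun _ _ => sq_nonneg _
    have hU2' : 0 ≤ U2 := sum_nonneg fun l _ =>
      mul_nonneg (inv_nonneg.2 (by linarith [hσlt l])) (sq_nonneg _)
    have hU3' : 0 ≤ U3 := sum_nonneg fun i _ =>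
      mul_nonneg (div_nonneg (S.w_pos i).le hl.le) (sq_nonneg _)
    have hMc := S.M_nonneg t c
    have hsum := S.M_eq_sum k a t c c
    have hAo := S.Ao_nonneg k a t c
    have hAh := S.Ah_nonneg k a t c
    have hAl := S.Al_nonneg k hat c
    have hO := S.old_bound k hat htb hP0 hP' u σ hσlt hσ3 c y
    rw [← hβ] at hO
    have hH : ⟪y, S.Ah k a t c⟫_ℝ ^ 2 ≤ S.beta k t y * U3 := by
      have h1 := psd_cs (A := S.Ah k a t) (rkSum_symm _ _ _) (S.Ah_nonneg k a t) y c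
      have h2 : ⟪y, S.Ah k a t y⟫_ℝ = S.lam k * U3 := by
        rw [Ah, inner_rkSum, hU3, mul_sum]
        refine sum_congr rfl fun i _ => ?_
        field_simp
      have h3 : S.lam k * ⟪c, S.Ah k a t c⟫_ℝ ≤ S.beta k t y := by
        rw [hβ, hsum]
        nlinarith [sq_nonneg ‖S.M t c‖, mul_nonneg hl.le hAo, mul_nonneg hl.le hAl]
      rw [h2] at h1
      nlinarith [mul_le_mul_of_nonneg_right h3 hU3']
    set L := 2 * ∑ i, ⟪S.p t i, y⟫_ℝ ^ 2 * min (S.μ t i / S.lam k) eps with hL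
    have hL' : 0 ≤ L := mul_nonneg (by norm_num) (sum_nonneg fun i _ =>
      mul_nonneg (sq_nonneg _) (le_min (div_nonneg (S.mu_pos t i).le hl.le) he.le))
    have hLt : ⟪y, S.Al k a t c⟫_ℝ ^ 2 ≤ S.beta k t y * L := by
      have h1 := psd_cs (S.Al_symm k hat) (S.Al_nonneg k hat) y c
      have h2 := S.Al_light k hat y
      have h3 : S.lam k * ⟪c, S.Al k a t c⟫_ℝ ≤ S.beta k t y := by
        rw [hβ, hsum]
        nlinarith [sq_nonneg ‖S.M t c‖, mul_nonneg hl.le hAo, mul_nonneg hl.le hAh]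
      nlinarith [mul_le_mul_of_nonneg_right h3 hL', mul_le_mul_of_nonneg_right h2 hAl]
    have hfin := final_three (β := S.beta k t y) (S.M_eq_sum k a t y c) hO hH hLt
      (by positivity) hU3' hL'
    have hJ := S.norm_Jm_Tt k hat y
    have herr : S.err k t y = 12 * (eps / S.lam k * ⟪y, S.M t y⟫_ℝ) + 3 * L := by
      rw [err, hL]; ring
    rw [herr]
    linarith

end Sys

end Crest.Agent.R239
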