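import Crest.Agent.R239.Dyn

/-! # Linear algebra for the domination lemma -/

set_option autoImplicit false
set_option linter.unusedSectionVars false

namespace Crest.Agent.R239

open Finset Module
open scoped InnerProductSpace

variable {E : Type} [NormedAddCommGroup E] [InnerProductSpace ℝ E] [FiniteDimensional ℝ E]

section diag
variable {ι : Type} [Fintype ι]

/-- a sum of weighted rank one maps -/
noncomputable def rkSum {κ : Type} (s : Finset κ) (d : κ → ℝ) (v : κ → E) : E →ₗ[ℝ] E :=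
  ∑ j ∈ s, d j • rk (v j) (v j)

theorem rkSum_apply {κ : Type} (s : Finset κ) (d : κ → ℝ) (v : κ → E) (x : E) :
    rkSum s d v x = ∑ j ∈ s, (d j * ⟪v j, x⟫_ℝ) • v j := by
  simp [rkSum, LinearMap.sum_apply, rk_apply, smul_smul]

theorem inner_rkSum {κ : Type} (s : Finset κ) (d : κ → ℝ) (v : κ → E) (x y : E) :
    ⟪x, rkSum s d v y⟫_ℝ = ∑ j ∈ s, d j * (⟪v j, x⟫_ℝ * ⟪v j, y⟫_ℝ) := by
  rw [rkSum_apply, inner_sum]
  refine sum_congr rfl fun j _ => ?_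
  rw [inner_smul_right, real_inner_comm x]; ring

theorem rkSum_symm {κ : Type} (s : Finset κ) (d : κ → ℝ) (v : κ → E) :
    (rkSum s d v).IsSymmetric := by
  intro x y
  rw [real_inner_comm, inner_rkSum, inner_rkSum]
  exact sum_congr rfl fun j _ => by ring

theorem rkSum_nonneg {κ : Type} {s : Finset κ} {d : κ → ℝ} (hd : ∀ j ∈ s, 0 ≤ d j) (v : κ → E)
    (x : E) : 0 ≤ ⟪x, rkSum s d v x⟫_ℝ := by
  rw [inner_rkSum]
  exact sum_nonneg fun j hj => mul_nonneg (hd j hj) (mul_self_nonneg _)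

/-- diagonal map in an orthonormal basis -/
noncomputable def Dg (p : OrthonormalBasis ι ℝ E) (d : ι → ℝ) : E →ₗ[ℝ] E := rkSum univ d p

theorem p_Dg (p : OrthonormalBasis ι ℝ E) (d : ι → ℝ) (j : ι) (x : E) :
    ⟪p j, Dg p d x⟫_ℝ = d j * ⟪p j, x⟫_ℝ := by
  classical
  rw [Dg, inner_rkSum, sum_eq_single j]
  · rw [real_inner_self_eq_norm_sq, p.norm_eq_one]; ring
  · intro i _ hi
    rw [p.orthonormal.2 hi]; ring
  · simp

theorem inner_eq_sum (p : OrthonormalBasis ι ℝ E) (x y : E) :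
    ⟪x, y⟫_ℝ = ∑ j, ⟪p j, x⟫_ℝ * ⟪p j, y⟫_ℝ := by
  rw [← p.sum_inner_mul_inner x y]
  exact sum_congr rfl fun j _ => by rw [real_inner_comm]

theorem norm_Dg_sq (p : OrthonormalBasis ι ℝ E) (d : ι → ℝ) (x : E) :
    ‖Dg p d x‖ ^ 2 = ∑ j, d j ^ 2 * ⟪p j, x⟫_ℝ ^ 2 := by
  rw [← p.sum_sq_inner_right]
  exact sum_congr rfl fun j _ => by rw [p_Dg]; ring

theorem eq_of_inner_basis (p : OrthonormalBasis ι ℝ E) {x y : E}
    (h : ∀ j, ⟪p j, x⟫_ℝ = ⟪p j, y⟫_ℝ) : x = y := by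
  rw [← p.sum_repr' x, ← p.sum_repr' y]
  exact sum_congr rfl fun j _ => by rw [h j]

theorem Dg_basis (p : OrthonormalBasis ι ℝ E) (d : ι → ℝ) (j : ι) : Dg p d (p j) = d j • p j := by
  classical
  refine eq_of_inner_basis p fun i => ?_
  rw [p_Dg, inner_smul_right]
  by_cases h : i = j
  · subst h; rfl
  · rw [p.orthonormal.2 h]; ring

end diag

/-- a map killing finitely many vectors and losing the energy of few unit directions -/
theorem exists_proj {κ : Type} (s : Finset κ) (v : κ → E) :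
    ∃ (Pc : E →ₗ[ℝ] E) (m : ℕ) (e : Fin m → E), m ≤ s.card ∧ (∀ r, ‖e r‖ = 1) ∧
      (∀ i ∈ s, Pc (v i) = 0) ∧ ∀ z, ‖Pc z‖ ^ 2 = ‖z‖ ^ 2 - ∑ r, ⟪e r, z⟫_ℝ ^ 2 := by
  classical
  let U : Submodule ℝ E := Submodule.span ℝ (s.image v : Set E)
  let b := stdOrthonormalBasis ℝ U
  have hon : Orthonormal ℝ (fun r => (b r : E)) := b.orthonormal.comp_linearIsometry U.subtypeₗᵢ
  refine ⟨LinearMap.id - rkSum univ (fun _ => 1) (fun r => (b r : E)), finrank ℝ U,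
    fun r => b r, ?_, fun r => hon.1 r, ?_, ?_⟩
  · exact (finrank_span_finset_le_card (R := ℝ) (s.image v)).trans card_image_le
  · intro i hi
    have hm : v i ∈ U := Submodule.subset_span (by simpa using ⟨i, hi, rfl⟩)
    have := congrArg (Subtype.val) (b.sum_repr' ⟨v i, hm⟩)
    simp only [AddSubmonoidClass.coe_finsetSum, SetLike.val_smul, Submodule.coe_inner] at this
    simp only [LinearMap.sub_apply, LinearMap.id_apply, rkSum_apply, one_mul]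
    rw [this, sub_self]
  · intro z
    simp only [LinearMap.sub_apply, LinearMap.id_apply]
    rw [norm_sub_sq_real, inner_rkSum, ← real_inner_self_eq_norm_sq (rkSum _ _ _ _),
      inner_rkSum]
    have h1 : ∀ r, ⟪(b r : E), rkSum univ (fun _ => (1 : ℝ)) (fun r => (b r : E)) z⟫_ℝ =
        ⟪(b r : E), z⟫_ℝ := by
      intro r
      rw [inner_rkSum, sum_eq_single r]
      · rw [real_inner_self_eq_norm_sq, hon.1 r]; ring
      · intro i _ hi
        rw [hon.2 hi]; ring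
      · simp
    simp only [h1, one_mul, ← sq]
    ring

theorem psd_add_le {A : E →ₗ[ℝ] E} (hA : A.IsSymmetric) (hpos : ∀ y, 0 ≤ ⟪y, A y⟫_ℝ) (x y : E) :
    ⟪x + y, A (x + y)⟫_ℝ ≤ 2 * ⟪x, A x⟫_ℝ + 2 * ⟪y, A y⟫_ℝ := by
  have h := hpos (x - y)
  have hs : ⟪y, A x⟫_ℝ = ⟪x, A y⟫_ℝ := by rw [← hA, real_inner_comm]
  simp only [map_add, map_sub, inner_add_left, inner_add_right, inner_sub_left,
    inner_sub_right, hs] at h ⊢
  linarith

theorem final_three {β o h l A B C : ℝ} (hβ : β = o + h + l) (ho : o ^ 2 ≤ β * A)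
    (hh : h ^ 2 ≤ β * B) (hl : l ^ 2 ≤ β * C) (hA : 0 ≤ A) (hB : 0 ≤ B) (hC : 0 ≤ C) :
    β ≤ 3 * (A + B + C) := by
  by_contra hc
  push Not at hc
  have hpos : 0 < β := lt_of_le_of_lt (by positivity) hc
  have h1 : β ^ 2 ≤ 3 * (o ^ 2 + h ^ 2 + l ^ 2) := by
    rw [hβ]; nlinarith [sq_nonneg (o - h), sq_nonneg (o - l), sq_nonneg (h - l)]
  nlinarith

/-- the spectral data of `J J - Bᵀ B` when `‖B x‖ ≤ ‖J x‖` -/
theorem exists_defect {ι : Type} [Fintype ι] (p : OrthonormalBasis ι ℝ E) (J B : E →ₗ[ℝ] E) :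
    ∃ (u : OrthonormalBasis (Fin (finrank ℝ E)) ℝ E) (σ : Fin (finrank ℝ E) → ℝ),
      (∀ l, σ l = ‖J (u l)‖ ^ 2 - ‖B (u l)‖ ^ 2) ∧
      (∑ l, σ l = ∑ j, (‖J (p j)‖ ^ 2 - ‖B (p j)‖ ^ 2)) ∧
      ∀ x, ∑ l, (1 - σ l) * ⟪u l, x⟫_ℝ ^ 2 = ‖x‖ ^ 2 - ‖J x‖ ^ 2 + ‖B x‖ ^ 2 := by
  let Em : E →ₗ[ℝ] E := LinearMap.adjoint J ∘ₗ J - LinearMap.adjoint B ∘ₗ B
  have hform : ∀ x y, ⟪x, Em y⟫_ℝ = ⟪J x, J y⟫_ℝ - ⟪B x, B y⟫_ℝ := by
    intro x y
    simp [Em, inner_sub_right, LinearMap.adjoint_inner_right]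
  have hsym : Em.IsSymmetric := by
    intro x y
    rw [real_inner_comm, hform, hform, real_inner_comm (J x), real_inner_comm (B x)]
  have hq : ∀ x, ⟪x, Em x⟫_ℝ = ‖J x‖ ^ 2 - ‖B x‖ ^ 2 := by
    intro x
    rw [hform, real_inner_self_eq_norm_sq, real_inner_self_eq_norm_sq]
  obtain ⟨u, σ, hu⟩ := exists_eig hsym
  have h1 : ∀ l, σ l = ⟪u l, Em (u l)⟫_ℝ := by
    intro l
    rw [hu, inner_smul_right, real_inner_self_eq_norm_sq, u.norm_eq_one]; ring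
  refine ⟨u, σ, fun l => by rw [h1, hq], ?_, fun x => ?_⟩
  · simp only [h1, ← hq]
    rw [← LinearMap.trace_eq_sum_inner, ← LinearMap.trace_eq_sum_inner]
  · have h2 := inner_eig u σ hu x x
    rw [hq] at h2
    have h3 := u.sum_sq_inner_right x
    simp only [sub_mul, one_mul, sum_sub_distrib]
    rw [h3]
    have : ∑ l, σ l * ⟪u l, x⟫_ℝ ^ 2 = ∑ l, σ l * (⟪u l, x⟫_ℝ * ⟪u l, x⟫_ℝ) :=
      sum_congr rfl fun l _ => by ring
    rw [this, ← h2]; ring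

theorem card_filter_half_le {ι : Type} [Fintype ι] (σ : ι → ℝ) (h : ∀ l, 0 ≤ σ l) :
    ((univ.filter fun l => 1 / 2 < σ l).card : ℝ) ≤ 2 * ∑ l, σ l := by
  rw [card_eq_sum_ones, Nat.cast_sum, sum_filter, mul_sum]
  refine sum_le_sum fun l _ => ?_
  split_ifs with h1
  · simp; linarith
  · simp; exact h l

end Crest.Agent.R239
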