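import Crest.Agent.R239.DomA

/-! # The decomposition of the covariance used in the domination lemma -/

set_option autoImplicit false
set_option linter.unusedSectionVars false

namespace Crest.Agent.R239

open Finset Module
open scoped InnerProductSpace

variable {E : Type} [NormedAddCommGroup E] [InnerProductSpace ℝ E] [FiniteDimensional ℝ E]

namespace Sys
variable (S : Sys E)

noncomputable def dq (k a : ℕ) (j : Fin (finrank ℝ E)) : ℝ :=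
  if j ∈ S.H k a then √(S.μ a j / (S.μ a j + S.lam k)) else 0

noncomputable def muH (k a : ℕ) (j : Fin (finrank ℝ E)) : ℝ := if j ∈ S.H k a then S.μ a j else 0

noncomputable def Jm (k a : ℕ) : E →ₗ[ℝ] E := Dg (S.p a) (S.dq k a)

noncomputable def Ao (k a t : ℕ) : E →ₗ[ℝ] E := S.T a t ∘ₗ Dg (S.p a) (S.muH k a) ∘ₗ S.Tt a t

noncomputable def Ah (k a t : ℕ) : E →ₗ[ℝ] E := rkSum (S.hv k a t) S.w (fun i => S.A i t)

noncomputable def Al (k a t : ℕ) : E →ₗ[ℝ] E := S.M t - S.Ao k a t - S.Ah k a t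

theorem dq_sq (k a : ℕ) (j : Fin (finrank ℝ E)) :
    S.dq k a j ^ 2 = if j ∈ S.H k a then S.μ a j / (S.μ a j + S.lam k) else 0 := by
  have h1 := S.mu_pos a j
  have h2 := S.lam_pos k
  unfold dq
  split_ifs
  · rw [Real.sq_sqrt (by positivity)]
  · simp

theorem dq_sq_lt (k a : ℕ) (j : Fin (finrank ℝ E)) : S.dq k a j ^ 2 < 1 := by
  have h1 := S.mu_pos a j
  have h2 := S.lam_pos k
  rw [dq_sq]
  split_ifs
  · rw [div_lt_one (by positivity)]; linarith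
  · norm_num

theorem muH_nonneg (k a : ℕ) (j : Fin (finrank ℝ E)) : 0 ≤ S.muH k a j := by
  unfold muH
  split_ifs
  · exact (S.mu_pos a j).le
  · exact le_rfl

theorem inner_T' (a b : ℕ) (x y : E) : ⟪x, S.T a b y⟫_ℝ = ⟪S.Tt a b x, y⟫_ℝ := by
  rw [real_inner_comm, S.inner_T, real_inner_comm]

theorem inner_Ao (k a t : ℕ) (x y : E) :
    ⟪x, S.Ao k a t y⟫_ℝ =
      ∑ j, S.muH k a j * (⟪S.p a j, S.Tt a t x⟫_ℝ * ⟪S.p a j, S.Tt a t y⟫_ℝ) := by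
  simp only [Ao, LinearMap.comp_apply]
  rw [inner_T', Dg, inner_rkSum]

theorem Ao_nonneg (k a t : ℕ) (x : E) : 0 ≤ ⟪x, S.Ao k a t x⟫_ℝ := by
  rw [inner_Ao]
  exact sum_nonneg fun j _ => mul_nonneg (S.muH_nonneg k a j) (mul_self_nonneg _)

theorem Ah_nonneg (k a t : ℕ) (x : E) : 0 ≤ ⟪x, S.Ah k a t x⟫_ℝ :=
  rkSum_nonneg (fun i _ => (S.w_pos i).le) _ _

theorem inner_Al (k : ℕ) {a t : ℕ} (h : a ≤ t) (x y : E) :
    ⟪x, S.Al k a t y⟫_ℝ =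
      ∑ j, (S.μ a j - S.muH k a j) * (⟪S.p a j, S.Tt a t x⟫_ℝ * ⟪S.p a j, S.Tt a t y⟫_ℝ) +
      ∑ i ∈ Ico a t, (if eps * S.lam k ≤ S.w i then 0 else S.w i) *
        (⟪S.A i t, x⟫_ℝ * ⟪S.A i t, y⟫_ℝ) := by
  simp only [Al, LinearMap.sub_apply, inner_sub_right]
  rw [S.M_decomp h, inner_Ao, Ah, inner_rkSum, S.inner_M_eig, hv, sum_filter]
  simp only [sub_mul, sum_sub_distrib]
  have : ∑ i ∈ Ico a t, (if eps * S.lam k ≤ S.w i then 0 else S.w i) *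
        (⟪S.A i t, x⟫_ℝ * ⟪S.A i t, y⟫_ℝ) =
      ∑ i ∈ Ico a t, S.w i * (⟪S.A i t, x⟫_ℝ * ⟪S.A i t, y⟫_ℝ) -
      ∑ i ∈ Ico a t, if eps * S.lam k ≤ S.w i then
        S.w i * (⟪S.A i t, x⟫_ℝ * ⟪S.A i t, y⟫_ℝ) else 0 := by
    rw [← sum_sub_distrib]
    refine sum_congr rfl fun i _ => ?_
    split_ifs <;> ring
  rw [this]; ring

theorem Al_symm (k : ℕ) {a t : ℕ} (h : a ≤ t) : (S.Al k a t).IsSymmetric := by
  intro x y
  rw [real_inner_comm, S.inner_Al k h, S.inner_Al k h]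
  congr 1 <;> exact sum_congr rfl fun j _ => by ring

theorem mu_sub_muH (k a : ℕ) (j : Fin (finrank ℝ E)) :
    0 ≤ S.μ a j - S.muH k a j ∧ S.μ a j - S.muH k a j ≤ eps * S.lam k := by
  have h1 := S.mu_pos a j
  have h2 := mul_pos eps_pos (S.lam_pos k)
  unfold muH
  split_ifs with h
  · constructor <;> linarith
  · simp only [H, mem_filter, mem_univ, true_and, not_le] at h
    constructor <;> linarith

theorem Al_nonneg (k : ℕ) {a t : ℕ} (h : a ≤ t) (x : E) : 0 ≤ ⟪x, S.Al k a t x⟫_ℝ := by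
  rw [S.inner_Al k h]
  refine add_nonneg (sum_nonneg fun j _ => mul_nonneg (S.mu_sub_muH k a j).1 (mul_self_nonneg _))
    (sum_nonneg fun i _ => mul_nonneg ?_ (mul_self_nonneg _))
  split_ifs
  · exact le_rfl
  · exact (S.w_pos i).le

theorem M_eq_sum (k a t : ℕ) (x y : E) :
    ⟪x, S.M t y⟫_ℝ = ⟪x, S.Ao k a t y⟫_ℝ + ⟪x, S.Ah k a t y⟫_ℝ + ⟪x, S.Al k a t y⟫_ℝ := by
  simp only [Al, LinearMap.sub_apply, inner_sub_right]; ring

theorem Al_le_M (k a t : ℕ) (x : E) : ⟪x, S.Al k a t x⟫_ℝ ≤ ⟪x, S.M t x⟫_ℝ := by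
  rw [S.M_eq_sum k a t]
  linarith [S.Ao_nonneg k a t x, S.Ah_nonneg k a t x]

theorem Al_le_eps (k : ℕ) {a t : ℕ} (h : a ≤ t) (x : E) :
    ⟪x, S.Al k a t x⟫_ℝ ≤ eps * S.lam k * ‖x‖ ^ 2 := by
  have h2 := mul_pos eps_pos (S.lam_pos k)
  rw [S.inner_Al k h, ← real_inner_self_eq_norm_sq, S.id_decomp h,
    inner_eq_sum (S.p a) (S.Tt a t x), mul_add, mul_sum, mul_sum]
  refine add_le_add (sum_le_sum fun j _ =>
    mul_le_mul_of_nonneg_right (S.mu_sub_muH k a j).2 (mul_self_nonneg _))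
    (sum_le_sum fun i _ => mul_le_mul_of_nonneg_right ?_ (mul_self_nonneg _))
  split_ifs with h'
  · exact h2.le
  · exact (not_le.1 h').le

theorem Al_light (k : ℕ) {a t : ℕ} (h : a ≤ t) (y : E) :
    ⟪y, S.Al k a t y⟫_ℝ ≤
      S.lam k * (2 * ∑ i, ⟪S.p t i, y⟫_ℝ ^ 2 * min (S.μ t i / S.lam k) eps) := by
  have hl := S.lam_pos k
  let d : Fin (finrank ℝ E) → ℝ := fun i => if S.μ t i ≤ eps * S.lam k then 1 else 0
  have hy : y = Dg (S.p t) d y + Dg (S.p t) (fun i => 1 - d i) y := by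
    refine eq_of_inner_basis (S.p t) fun j => ?_
    rw [inner_add_right, p_Dg, p_Dg]; ring
  have h1 := psd_add_le (S.Al_symm k h) (S.Al_nonneg k h) (Dg (S.p t) d y)
    (Dg (S.p t) (fun i => 1 - d i) y)
  rw [← hy] at h1
  have h2 := S.Al_le_M k a t (Dg (S.p t) d y)
  have h3 := S.Al_le_eps k h (Dg (S.p t) (fun i => 1 - d i) y)
  rw [S.inner_M_eig] at h2
  rw [norm_Dg_sq, mul_sum] at h3
  simp only [p_Dg] at h2
  have h4 : ∑ j, S.μ t j * (d j * ⟪S.p t j, y⟫_ℝ * (d j * ⟪S.p t j, y⟫_ℝ)) +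
      ∑ j, eps * S.lam k * ((1 - d j) ^ 2 * ⟪S.p t j, y⟫_ℝ ^ 2) =
      S.lam k * ∑ i, ⟪S.p t i, y⟫_ℝ ^ 2 * min (S.μ t i / S.lam k) eps := by
    rw [← sum_add_distrib, mul_sum]
    refine sum_congr rfl fun j _ => ?_
    by_cases hj : S.μ t j ≤ eps * S.lam k
    · have : S.μ t j / S.lam k ≤ eps := by rwa [div_le_iff₀ hl]
      simp only [d, if_pos hj, min_eq_left this]
      field_simp
      ring
    · have : eps ≤ S.μ t j / S.lam k := by rw [le_div_iff₀ hl]; exact (not_le.1 hj).le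
      simp only [d, if_neg hj, min_eq_right this]
      ring
  linarith

theorem beta_eq (k t : ℕ) (y : E) :
    S.beta k t y = ‖S.M t (S.R t (S.lam k) y)‖ ^ 2 +
      S.lam k * ⟪S.R t (S.lam k) y, S.M t (S.R t (S.lam k) y)⟫_ℝ := by
  have h := S.R_spec t (S.lam_pos k) y
  unfold beta
  generalize S.R t (S.lam k) y = c at h ⊢
  rw [← h, inner_add_left, inner_smul_left, real_inner_self_eq_norm_sq]
  simp

/-- `J` strictly contracts unit vectors -/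
theorem norm_Jm_lt (k a : ℕ) {u : E} (hu : ‖u‖ = 1) : ‖S.Jm k a u‖ ^ 2 < 1 := by
  have h1 := (S.p a).sum_sq_inner_right u
  rw [hu, one_pow] at h1
  rw [Jm, norm_Dg_sq, ← h1]
  obtain ⟨j, hj⟩ : ∃ j, 0 < ⟪S.p a j, u⟫_ℝ ^ 2 := by
    by_contra hc
    push Not at hc
    have : ∑ j, ⟪S.p a j, u⟫_ℝ ^ 2 ≤ 0 := sum_nonpos fun j _ => hc j
    linarith
  refine sum_lt_sum (fun i _ => ?_) ⟨j, mem_univ _, ?_⟩
  · nlinarith [S.dq_sq_lt k a i, sq_nonneg ⟪S.p a i, u⟫_ℝ]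
  · nlinarith [S.dq_sq_lt k a j]

theorem norm_Jm_le (k a : ℕ) (u : E) : ‖S.Jm k a u‖ ^ 2 ≤ ‖u‖ ^ 2 := by
  rw [Jm, norm_Dg_sq, ← (S.p a).sum_sq_inner_right u]
  exact sum_le_sum fun i _ => by nlinarith [S.dq_sq_lt k a i, sq_nonneg ⟪S.p a i, u⟫_ℝ]

theorem lam_R_Jm (k a : ℕ) (u : E) :
    S.lam k * ⟪S.Jm k a u, S.R a (S.lam k) (S.Jm k a u)⟫_ℝ ≤ ‖u‖ ^ 2 - ‖S.Jm k a u‖ ^ 2 := by
  have hl := S.lam_pos k
  rw [S.inner_R_eig a hl, Jm, norm_Dg_sq, ← (S.p a).sum_sq_inner_right u, mul_sum,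
    ← sum_sub_distrib]
  refine sum_le_sum fun j _ => ?_
  have hμ := S.mu_pos a j
  rw [p_Dg]
  have e : S.lam k * ((S.μ a j + S.lam k)⁻¹ * (S.dq k a j * ⟪S.p a j, u⟫_ℝ *
      (S.dq k a j * ⟪S.p a j, u⟫_ℝ))) =
      S.lam k / (S.μ a j + S.lam k) * S.dq k a j ^ 2 * ⟪S.p a j, u⟫_ℝ ^ 2 := by
    rw [div_eq_mul_inv]; ring
  rw [e]
  have h1 : S.lam k / (S.μ a j + S.lam k) * S.dq k a j ^ 2 ≤ 1 - S.dq k a j ^ 2 := by
    have h2 := S.dq_sq_lt k a j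
    have h3 : S.lam k / (S.μ a j + S.lam k) ≤ 1 - S.dq k a j ^ 2 := by
      rw [dq_sq]
      split_ifs
      · apply le_of_eq; field_simp; ring
      · rw [sub_zero, div_le_one (by positivity)]; linarith
    have h4 : 0 ≤ S.lam k / (S.μ a j + S.lam k) := by positivity
    nlinarith [sq_nonneg (S.dq k a j)]
  nlinarith [sq_nonneg ⟪S.p a j, u⟫_ℝ]

/-- the old directions which are not columns are controlled by the energy -/
theorem norm_Jm_Tt (k : ℕ) {a t : ℕ} (h : a ≤ t) (y : E) :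
    ‖S.Jm k a (S.Tt a t y)‖ ^ 2 ≤
      ∑ j ∈ univ.filter (fun j => j ∈ S.H k a ∧ S.μ a j < S.lam k / eps),
        ⟪S.T a t (S.p a j), y⟫_ℝ ^ 2 + eps / S.lam k * ⟪y, S.M t y⟫_ℝ := by
  have hl := S.lam_pos k
  have he := eps_pos
  have h1 : ∑ j, S.μ a j * (⟪S.p a j, S.Tt a t y⟫_ℝ * ⟪S.p a j, S.Tt a t y⟫_ℝ) ≤
      ⟪y, S.M t y⟫_ℝ := by
    rw [S.M_decomp h, S.inner_M_eig]
    exact le_add_of_nonneg_right
      (sum_nonneg fun i _ => mul_nonneg (S.w_pos i).le (mul_self_nonneg _))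
  refine le_trans ?_ (add_le_add_right (mul_le_mul_of_nonneg_left h1 (by positivity)) _)
  rw [Jm, norm_Dg_sq, sum_filter, mul_sum, ← sum_add_distrib]
  refine sum_le_sum fun j _ => ?_
  have hμ := S.mu_pos a j
  have h2 := S.dq_sq_lt k a j
  rw [S.inner_T]
  set b := ⟪S.p a j, S.Tt a t y⟫_ℝ
  have hb : 0 ≤ eps / S.lam k * (S.μ a j * (b * b)) :=
    mul_nonneg (by positivity) (mul_nonneg hμ.le (mul_self_nonneg _))
  split_ifs with h3
  · nlinarith [sq_nonneg b]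
  · by_cases h4 : j ∈ S.H k a
    · have h5 : S.lam k / eps ≤ S.μ a j := not_lt.1 fun h' => h3 ⟨h4, h'⟩
      have h6 : 1 ≤ eps / S.lam k * S.μ a j := by
        rw [div_le_iff₀ he] at h5
        rw [div_mul_eq_mul_div, le_div_iff₀ hl]; linarith
      nlinarith [sq_nonneg b, mul_self_nonneg b]
    · rw [dq_sq, if_neg h4]; linarith

end Sys

end Crest.Agent.R239
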