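import Crest.Agent.R239.Ctl

/-! # Linear algebra and the basic identities of the dynamics -/

set_option autoImplicit false
set_option linter.unusedSectionVars false

namespace Crest.Agent.R239

open Finset Module
open scoped InnerProductSpace

variable {E : Type} [NormedAddCommGroup E] [InnerProductSpace ℝ E] [FiniteDimensional ℝ E]

/-! ### constants -/

theorem eps_pos : 0 < eps := by norm_num [eps]
theorem eps_le : eps ≤ 1 / 2 := by norm_num [eps]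
theorem del_pos : 0 < del := by norm_num [del, eps]
theorem del_le : del ≤ 1 / 2 := by norm_num [del, eps]
theorem del_eps : del * (1 + 1 / eps) ≤ 1 / 24 := by norm_num [del, eps]

/-! ### rank one maps and `Ph` -/

theorem rk_apply (a b x : E) : rk a b x = ⟪b, x⟫_ℝ • a := by
  simp [rk]

theorem rr_sq {φ : E} (h : ‖φ‖ ^ 2 ≤ 1 / 2) : rr φ ^ 2 = 1 - ‖φ‖ ^ 2 := by
  unfold rr
  exact Real.sq_sqrt (by linarith)

theorem half_le_rr_sq {φ : E} (h : ‖φ‖ ^ 2 ≤ 1 / 2) : 1 / 2 ≤ rr φ ^ 2 := by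
  rw [rr_sq h]; linarith

theorem rr_pos {φ : E} (h : ‖φ‖ ^ 2 ≤ 1 / 2) : 0 < rr φ := by
  unfold rr
  exact Real.sqrt_pos.2 (by linarith)

theorem rr_le_one (φ : E) : rr φ ≤ 1 := by
  unfold rr
  exact Real.sqrt_le_one.2 (by nlinarith [sq_nonneg ‖φ‖])

theorem gam_pos (φ : E) : 0 < gam φ := by
  have : 0 ≤ rr φ := Real.sqrt_nonneg _
  unfold gam
  positivity

theorem gam_le_one (φ : E) : gam φ ≤ 1 := by
  have : 0 ≤ rr φ := Real.sqrt_nonneg _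
  unfold gam
  rw [div_le_one (by positivity)]
  linarith

theorem Ph_apply (φ x : E) : Ph φ x = x - (gam φ * ⟪φ, x⟫_ℝ) • φ := by
  simp [Ph, rk_apply, smul_smul]

/-- `1 - gam φ * ‖φ‖² = rr φ` because `‖φ‖² = (1 - rr)(1 + rr)` -/
theorem Ph_self {φ : E} (h : ‖φ‖ ^ 2 ≤ 1 / 2) : Ph φ φ = rr φ • φ := by
  have h1 := rr_sq h
  have h2 := rr_pos h
  have h3 : gam φ * ⟪φ, φ⟫_ℝ = 1 - rr φ := by
    rw [real_inner_self_eq_norm_sq, gam]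
    field_simp
    linarith
  rw [Ph_apply, h3, sub_smul, one_smul]
  abel

theorem inner_Ph_self {φ : E} (h : ‖φ‖ ^ 2 ≤ 1 / 2) (x : E) :
    ⟪φ, Ph φ x⟫_ℝ = rr φ * ⟪φ, x⟫_ℝ := by
  rw [← Sys.Ph_symm, Ph_self h, real_inner_smul_left]

/-- `2 gam - gam² ‖φ‖² = 1` -/
theorem inner_Ph_Ph {φ : E} (h : ‖φ‖ ^ 2 ≤ 1 / 2) (x y : E) :
    ⟪Ph φ x, Ph φ y⟫_ℝ = ⟪x, y⟫_ℝ - ⟪φ, x⟫_ℝ * ⟪φ, y⟫_ℝ := by
  have h1 := rr_pos h
  have h3 : gam φ * (1 + rr φ) = 1 := by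
    rw [gam]; field_simp
  rw [Ph_apply φ x, inner_sub_left, real_inner_smul_left, inner_Ph_self h, Ph_apply φ y,
    inner_sub_right, real_inner_smul_right, real_inner_comm φ x]
  linear_combination (-(⟪φ, x⟫_ℝ * ⟪φ, y⟫_ℝ)) * h3

theorem norm_Ph_sq {φ : E} (h : ‖φ‖ ^ 2 ≤ 1 / 2) (x : E) :
    ‖Ph φ x‖ ^ 2 = ‖x‖ ^ 2 - ⟪φ, x⟫_ℝ ^ 2 := by
  rw [← real_inner_self_eq_norm_sq, inner_Ph_Ph h, real_inner_self_eq_norm_sq]
  ring

theorem Ph_injective {φ : E} (h : ‖φ‖ ^ 2 ≤ 1 / 2) : Function.Injective (Ph φ) := by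
  rw [injective_iff_map_eq_zero]
  intro x hx
  have h1 := norm_Ph_sq h x
  rw [hx, norm_zero] at h1
  have h2 : ⟪φ, x⟫_ℝ ^ 2 ≤ ‖φ‖ ^ 2 * ‖x‖ ^ 2 := by
    rw [← mul_pow, ← sq_abs]
    exact pow_le_pow_left₀ (abs_nonneg _) (abs_real_inner_le_norm φ x) 2
  have h3 : ‖x‖ ^ 2 ≤ 0 := by nlinarith [sq_nonneg ‖x‖]
  have h4 : ‖x‖ ^ 2 = 0 := le_antisymm h3 (sq_nonneg _)
  simpa using h4

/-! ### positive semidefinite maps and resolvents -/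

section psd
variable {A : E →ₗ[ℝ] E} (hA : A.IsSymmetric) (hpos : ∀ y, 0 ≤ ⟪y, A y⟫_ℝ)
include hA hpos

/-- Cauchy–Schwarz for a positive semidefinite form (discriminant) -/
theorem psd_cs (x y : E) : ⟪x, A y⟫_ℝ ^ 2 ≤ ⟪x, A x⟫_ℝ * ⟪y, A y⟫_ℝ := by
  have key : ∀ t : ℝ, 0 ≤ ⟪y, A y⟫_ℝ * (t * t) + 2 * ⟪x, A y⟫_ℝ * t + ⟪x, A x⟫_ℝ := by
    intro t
    have h1 := hpos (x + t • y)
    have h2 : ⟪y, A x⟫_ℝ = ⟪x, A y⟫_ℝ := by rw [← hA, real_inner_comm]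
    rw [map_add, map_smul, inner_add_left, inner_add_right, inner_add_right, real_inner_smul_left,
      real_inner_smul_left, real_inner_smul_right, real_inner_smul_right, h2] at h1
    nlinarith
  have := discrim_le_zero key
  unfold discrim at this
  nlinarith

/-- `‖A x‖⁴ = ⟪A x, A x⟫² ≤ ⟪A x, A (A x)⟫ ⟪x, A x⟫ ≤ a ‖A x‖² ⟪x, A x⟫` -/
theorem psd_norm_sq_le {a : ℝ} (ha : 0 ≤ a) (hle : ∀ y, ⟪y, A y⟫_ℝ ≤ a * ‖y‖ ^ 2) (x : E) :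
    ‖A x‖ ^ 2 ≤ a * ⟪x, A x⟫_ℝ := by
  have h1 := psd_cs hA hpos (A x) x
  rw [real_inner_self_eq_norm_sq] at h1
  have h2 := hle (A x)
  have h3 := hpos x
  rcases (sq_nonneg ‖A x‖).eq_or_lt with h | h
  · rw [← h]; exact mul_nonneg ha h3
  · have h4 : ‖A x‖ ^ 2 * ‖A x‖ ^ 2 ≤ ‖A x‖ ^ 2 * (a * ⟪x, A x⟫_ℝ) := by
      nlinarith [mul_le_mul_of_nonneg_right h2 h3]
    exact le_of_mul_le_mul_left h4 h

theorem isUnit_add {x : ℝ} (hx : 0 < x) :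
    IsUnit (M := Module.End ℝ E) (A + x • LinearMap.id) := by
  rw [LinearMap.isUnit_iff_ker_eq_bot, LinearMap.ker_eq_bot']
  intro y hy
  have h1 : ⟪y, A y + x • y⟫_ℝ = 0 := by
    have : A y + x • y = 0 := by simpa using hy
    rw [this, inner_zero_right]
  rw [inner_add_right, real_inner_smul_right, real_inner_self_eq_norm_sq] at h1
  have h2 := hpos y
  have h3 : ‖y‖ ^ 2 ≤ 0 := by
    by_contra hc
    have := mul_pos hx (not_le.1 hc)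
    linarith
  have h4 : ‖y‖ ^ 2 = 0 := le_antisymm h3 (sq_nonneg _)
  simpa using h4

/-- `A + x` is injective, hence a unit of `Module.End ℝ E` (`LinearMap.isUnit_iff_ker_eq_bot`);
use `Ring.mul_inverse_cancel` -/
theorem res_spec {x : ℝ} (hx : 0 < x) (y : E) : A (res A x y) + x • res A x y = y := by
  have h := Ring.mul_inverse_cancel _ (isUnit_add hA hpos hx)
  have h1 := LinearMap.congr_fun h y
  simpa [res] using h1

theorem res_spec' {x : ℝ} (hx : 0 < x) (y : E) : res A x (A y + x • y) = y := by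
  have h := Ring.inverse_mul_cancel _ (isUnit_add hA hpos hx)
  have h1 := LinearMap.congr_fun h y
  simpa [res] using h1

theorem res_symm {x : ℝ} (hx : 0 < x) : (res A x).IsSymmetric := by
  intro y z
  conv_lhs => rw [← res_spec hA hpos hx z]
  conv_rhs => rw [← res_spec hA hpos hx y]
  rw [inner_add_left, inner_add_right, real_inner_smul_left, real_inner_smul_right, hA]

theorem res_nonneg {x : ℝ} (hx : 0 < x) (y : E) : 0 ≤ ⟪y, res A x y⟫_ℝ := by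
  have h := res_spec hA hpos hx y
  set u := res A x y
  rw [← h, inner_add_left, real_inner_smul_left, real_inner_self_eq_norm_sq, real_inner_comm]
  have := hpos u
  positivity

theorem res_le {x : ℝ} (hx : 0 < x) (y : E) : x * ⟪y, res A x y⟫_ℝ ≤ ‖y‖ ^ 2 := by
  have h := res_spec hA hpos hx y
  set u := res A x y
  have h1 : ⟪y, u⟫_ℝ = ⟪u, A u⟫_ℝ + x * ‖u‖ ^ 2 := by
    conv_lhs => rw [← h]
    rw [inner_add_left, real_inner_smul_left, real_inner_self_eq_norm_sq, real_inner_comm]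
  have h2 := hpos u
  have h3 : 0 ≤ ‖y - x • u‖ ^ 2 := sq_nonneg _
  rw [norm_sub_sq_real, real_inner_smul_right, norm_smul, mul_pow, Real.norm_of_nonneg hx.le] at h3
  nlinarith [mul_nonneg hx.le h2]

theorem res_eig {x : ℝ} (hx : 0 < x) {y : E} {μ : ℝ} (hμ : 0 ≤ μ) (hy : A y = μ • y) :
    res A x y = (μ + x)⁻¹ • y := by
  have h1 := res_spec' hA hpos hx y
  rw [hy, ← add_smul, map_smul] at h1
  have h2 : μ + x ≠ 0 := by positivity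
  conv_rhs => rw [← h1]
  rw [smul_smul, inv_mul_cancel₀ h2, one_smul]

/-- if `v vᵀ ≤ A` then `vᵀ (A + x)⁻¹ v ≤ ‖v‖²/(‖v‖² + x)`: with `u = res A x v`, `σ = ⟪v, u⟫`:
`σ = ⟪u, A u⟫ + x ‖u‖² ≥ σ² + x ‖u‖²` and `σ² ≤ ‖v‖² ‖u‖²` -/
theorem res_rank_one {x : ℝ} (hx : 0 < x) {v : E} (hv : ∀ u, ⟪v, u⟫_ℝ ^ 2 ≤ ⟪u, A u⟫_ℝ) :
    ⟪v, res A x v⟫_ℝ ≤ ‖v‖ ^ 2 / (‖v‖ ^ 2 + x) := by
  have h := res_spec hA hpos hx v
  have h0 := res_nonneg hA hpos hx v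
  set u := res A x v
  have h1 : ⟪v, u⟫_ℝ = ⟪u, A u⟫_ℝ + x * ‖u‖ ^ 2 := by
    conv_lhs => rw [← h]
    rw [inner_add_left, real_inner_smul_left, real_inner_self_eq_norm_sq, real_inner_comm]
  have h2 := hv u
  have h3 : ⟪v, u⟫_ℝ ^ 2 ≤ ‖v‖ ^ 2 * ‖u‖ ^ 2 := by
    rw [← mul_pow, ← sq_abs]
    exact pow_le_pow_left₀ (abs_nonneg _) (abs_real_inner_le_norm v u) 2
  rw [le_div_iff₀ (by positivity)]
  rcases h0.eq_or_lt with h4 | h4
  · rw [← h4, zero_mul]; positivity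
  · have h5 : ⟪v, u⟫_ℝ * (⟪v, u⟫_ℝ * (‖v‖ ^ 2 + x)) ≤ ⟪v, u⟫_ℝ * ‖v‖ ^ 2 := by
      have a1 : ⟪v, u⟫_ℝ ^ 2 + x * ‖u‖ ^ 2 ≤ ⟪v, u⟫_ℝ := by linarith
      nlinarith [mul_le_mul_of_nonneg_left a1 (sq_nonneg ‖v‖), mul_le_mul_of_nonneg_left h3 hx.le]
    exact le_of_mul_le_mul_left h5 h4

end psd

/-- spectral theorem, existential form -/
theorem exists_eig {A : E →ₗ[ℝ] E} (hA : A.IsSymmetric) :
    ∃ (u : OrthonormalBasis (Fin (finrank ℝ E)) ℝ E) (σ : Fin (finrank ℝ E) → ℝ),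
      ∀ j, A (u j) = σ j • u j :=
  ⟨hA.eigenvectorBasis rfl, hA.eigenvalues rfl, hA.apply_eigenvectorBasis rfl⟩

/-- the form of a map in an orthonormal eigenbasis -/
theorem inner_eig {ι : Type} [Fintype ι] {A : E →ₗ[ℝ] E} (u : OrthonormalBasis ι ℝ E) (σ : ι → ℝ)
    (h : ∀ j, A (u j) = σ j • u j) (x y : E) :
    ⟪x, A y⟫_ℝ = ∑ j, σ j * (⟪u j, x⟫_ℝ * ⟪u j, y⟫_ℝ) := by
  conv_lhs => rw [← u.sum_repr' y]
  rw [map_sum, inner_sum]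
  refine sum_congr rfl fun j _ => ?_
  rw [map_smul, h, real_inner_smul_right, real_inner_smul_right, real_inner_comm x]
  ring

namespace Sys
variable (S : Sys E)

/-! ### transport -/

theorem T_self (a : ℕ) : S.T a a = LinearMap.id := by
  cases a with
  | zero => rfl
  | succ a => simp [T]

theorem T_succ {a b : ℕ} (h : a ≤ b) (x : E) : S.T a (b + 1) x = Ph (S.φ b) (S.T a b x) := by
  simp [T, h]

theorem Tt_self (a : ℕ) : S.Tt a a = LinearMap.id := by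
  cases a with
  | zero => rfl
  | succ a => simp [Tt]

theorem Tt_succ {a b : ℕ} (h : a ≤ b) (x : E) : S.Tt a (b + 1) x = S.Tt a b (Ph (S.φ b) x) := by
  simp [Tt, h]

theorem T_comp {a b c : ℕ} (hab : a ≤ b) (hbc : b ≤ c) (x : E) :
    S.T b c (S.T a b x) = S.T a c x := by
  induction c, hbc using Nat.le_induction with
  | base => simp [T_self]
  | succ c hbc ih => rw [S.T_succ hbc, S.T_succ (hab.trans hbc), ih]

theorem inner_T (a b : ℕ) (x y : E) : ⟪S.T a b x, y⟫_ℝ = ⟪x, S.Tt a b y⟫_ℝ := by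
  induction b generalizing y with
  | zero => rfl
  | succ b ih =>
    by_cases h : a ≤ b
    · rw [S.T_succ h, S.Tt_succ h, Ph_symm, ih]
    · simp [T, Tt, h]

theorem norm_T_le (a b : ℕ) (x : E) : ‖S.T a b x‖ ≤ ‖x‖ := by
  induction b with
  | zero => exact le_rfl
  | succ b ih =>
    by_cases h : a ≤ b
    · rw [S.T_succ h]
      refine le_trans ?_ ih
      have h1 := norm_Ph_sq (S.hφ b) (S.T a b x)
      exact (pow_le_pow_iff_left₀ (norm_nonneg _) (norm_nonneg _) two_ne_zero).1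
        (by nlinarith [sq_nonneg ⟪S.φ b, S.T a b x⟫_ℝ])
    · simp [T, h]

theorem norm_Tt_le (a b : ℕ) (x : E) : ‖S.Tt a b x‖ ≤ ‖x‖ := by
  have h1 : ‖S.Tt a b x‖ ^ 2 ≤ ‖S.Tt a b x‖ * ‖x‖ := by
    rw [← real_inner_self_eq_norm_sq, ← S.inner_T]
    exact (real_inner_le_norm _ _).trans
      (mul_le_mul_of_nonneg_right (S.norm_T_le _ _ _) (norm_nonneg _))
  rcases (norm_nonneg (S.Tt a b x)).eq_or_lt with h | h
  · rw [← h]; exact norm_nonneg _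
  · rw [sq] at h1
    exact le_of_mul_le_mul_left h1 h

theorem norm_T_sq {a b : ℕ} (h : a ≤ b) (x : E) :
    ‖S.T a b x‖ ^ 2 = ‖x‖ ^ 2 - ∑ s ∈ Ico a b, ⟪S.φ s, S.T a s x⟫_ℝ ^ 2 := by
  induction b, h using Nat.le_induction with
  | base => simp [T_self]
  | succ b hab ih => rw [S.T_succ hab, norm_Ph_sq (S.hφ b), ih, sum_Ico_succ_top hab]; ring

theorem T_A {i t t' : ℕ} (hi : i < t) (ht : t ≤ t') : S.T t t' (S.A i t) = S.A i t' :=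
  S.T_comp hi ht _

/-! ### the weighted covariance -/

theorem w_pos (t : ℕ) : 0 < S.w t := S.om_pos.trans_le (S.hw t)

theorem lam_pos (k : ℕ) : 0 < S.lam k := mul_pos (by positivity) S.om_pos

theorem inner_M_succ (t : ℕ) (x y : E) :
    ⟪x, S.M (t + 1) y⟫_ℝ = ⟪Ph (S.φ t) x, S.M t (Ph (S.φ t) y)⟫_ℝ +
      S.w t * (⟪S.φ t, x⟫_ℝ * ⟪S.φ t, y⟫_ℝ) := by
  simp only [M, LinearMap.add_apply, LinearMap.comp_apply, LinearMap.smul_apply, inner_add_right,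
    real_inner_smul_right, rk_apply]
  rw [← Ph_symm, real_inner_comm (S.φ t) x]
  ring

theorem M_lower (t : ℕ) (x : E) : S.om * ‖x‖ ^ 2 ≤ ⟪x, S.M t x⟫_ℝ := by
  induction t generalizing x with
  | zero => simp [M, real_inner_smul_right]
  | succ t ih =>
    rw [inner_M_succ]
    have h1 := ih (Ph (S.φ t) x)
    rw [norm_Ph_sq (S.hφ t)] at h1
    nlinarith [mul_le_mul_of_nonneg_right (S.hw t) (mul_self_nonneg ⟪S.φ t, x⟫_ℝ)]

theorem M_nonneg (t : ℕ) (x : E) : 0 ≤ ⟪x, S.M t x⟫_ℝ := by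
  exact le_trans (mul_nonneg S.om_pos.le (sq_nonneg _)) (S.M_lower t x)

theorem M_upper {W : ℝ} (hW : ∀ s, S.w s ≤ W) (t : ℕ) (x : E) :
    ⟪x, S.M t x⟫_ℝ ≤ W * ‖x‖ ^ 2 := by
  induction t generalizing x with
  | zero =>
    have := mul_le_mul_of_nonneg_right ((S.hw 0).trans (hW 0)) (sq_nonneg ‖x‖)
    simpa [M, real_inner_smul_right] using this
  | succ t ih =>
    rw [inner_M_succ]
    have h1 := ih (Ph (S.φ t) x)
    rw [norm_Ph_sq (S.hφ t)] at h1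
    nlinarith [mul_le_mul_of_nonneg_right (hW t) (mul_self_nonneg ⟪S.φ t, x⟫_ℝ)]

theorem mu_lower (t : ℕ) (j : Fin (finrank ℝ E)) : S.om ≤ S.μ t j := by
  have h := S.M_lower t (S.p t j)
  rw [S.M_p, real_inner_smul_right, real_inner_self_eq_norm_sq, (S.p t).orthonormal.1 j] at h
  simpa using h

theorem mu_pos (t : ℕ) (j : Fin (finrank ℝ E)) : 0 < S.μ t j :=
  S.om_pos.trans_le (S.mu_lower t j)

theorem mu_upper {W : ℝ} (hW : ∀ s, S.w s ≤ W) (t : ℕ) (j : Fin (finrank ℝ E)) :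
    S.μ t j ≤ W := by
  have h := S.M_upper hW t (S.p t j)
  rw [S.M_p, real_inner_smul_right, real_inner_self_eq_norm_sq, (S.p t).orthonormal.1 j] at h
  simpa using h

theorem A_self (i : ℕ) : S.A i (i + 1) = S.φ i := by
  simp [A, T_self]

theorem inner_A_succ {i t : ℕ} (hi : i < t) (x : E) :
    ⟪S.A i (t + 1), x⟫_ℝ = ⟪S.A i t, Ph (S.φ t) x⟫_ℝ := by
  rw [A, S.T_succ hi, Ph_symm, A]

theorem M_decomp {a t : ℕ} (h : a ≤ t) (x y : E) :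
    ⟪x, S.M t y⟫_ℝ = ⟪S.Tt a t x, S.M a (S.Tt a t y)⟫_ℝ +
      ∑ i ∈ Ico a t, S.w i * (⟪S.A i t, x⟫_ℝ * ⟪S.A i t, y⟫_ℝ) := by
  induction t, h using Nat.le_induction generalizing x y with
  | base => simp [Tt_self]
  | succ t hat ih =>
    rw [inner_M_succ, ih, sum_Ico_succ_top hat, S.Tt_succ hat, S.Tt_succ hat, A_self, add_assoc]
    congr 2
    refine sum_congr rfl fun i hi => ?_
    rw [S.inner_A_succ (mem_Ico.1 hi).2, S.inner_A_succ (mem_Ico.1 hi).2]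

theorem id_decomp {a t : ℕ} (h : a ≤ t) (x y : E) :
    ⟪x, y⟫_ℝ = ⟪S.Tt a t x, S.Tt a t y⟫_ℝ +
      ∑ i ∈ Ico a t, ⟪S.A i t, x⟫_ℝ * ⟪S.A i t, y⟫_ℝ := by
  induction t, h using Nat.le_induction generalizing x y with
  | base => simp [Tt_self]
  | succ t hat ih =>
    have h1 := inner_Ph_Ph (S.hφ t) x y
    have h2 := ih (Ph (S.φ t) x) (Ph (S.φ t) y)
    rw [sum_Ico_succ_top hat, S.Tt_succ hat, S.Tt_succ hat, A_self]
    have h3 : ∑ i ∈ Ico a t, ⟪S.A i (t + 1), x⟫_ℝ * ⟪S.A i (t + 1), y⟫_ℝ =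
        ∑ i ∈ Ico a t, ⟪S.A i t, Ph (S.φ t) x⟫_ℝ * ⟪S.A i t, Ph (S.φ t) y⟫_ℝ :=
      sum_congr rfl fun i hi => by
        rw [S.inner_A_succ (mem_Ico.1 hi).2, S.inner_A_succ (mem_Ico.1 hi).2]
    rw [h3]
    linarith

theorem inner_M_eig (t : ℕ) (x y : E) :
    ⟪x, S.M t y⟫_ℝ = ∑ j, S.μ t j * (⟪S.p t j, x⟫_ℝ * ⟪S.p t j, y⟫_ℝ) :=
  inner_eig (S.p t) (S.μ t) (S.M_p t) x y

theorem R_spec (t : ℕ) {x : ℝ} (hx : 0 < x) (y : E) :
    S.M t (S.R t x y) + x • S.R t x y = y :=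
  res_spec (S.M_symm t) (S.M_nonneg t) hx y

theorem R_symm (t : ℕ) {x : ℝ} (hx : 0 < x) : (S.R t x).IsSymmetric :=
  res_symm (S.M_symm t) (S.M_nonneg t) hx

theorem R_p (t : ℕ) {x : ℝ} (hx : 0 < x) (j : Fin (finrank ℝ E)) :
    S.R t x (S.p t j) = (S.μ t j + x)⁻¹ • S.p t j :=
  res_eig (S.M_symm t) (S.M_nonneg t) hx (S.mu_pos t j).le (S.M_p t j)

theorem inner_R_eig (t : ℕ) {x : ℝ} (hx : 0 < x) (y z : E) :
    ⟪y, S.R t x z⟫_ℝ = ∑ j, (S.μ t j + x)⁻¹ * (⟪S.p t j, y⟫_ℝ * ⟪S.p t j, z⟫_ℝ) :=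
  inner_eig (S.p t) (fun j => (S.μ t j + x)⁻¹) (S.R_p t hx) y z

theorem p_R (t : ℕ) {x : ℝ} (hx : 0 < x) (j : Fin (finrank ℝ E)) (y : E) :
    ⟪S.p t j, S.R t x y⟫_ℝ = (S.μ t j + x)⁻¹ * ⟪S.p t j, y⟫_ℝ := by
  rw [← S.R_symm t hx, S.R_p t hx, real_inner_smul_left]

theorem p_M (t : ℕ) (j : Fin (finrank ℝ E)) (y : E) :
    ⟪S.p t j, S.M t y⟫_ℝ = S.μ t j * ⟪S.p t j, y⟫_ℝ := by
  rw [← S.M_symm t, S.M_p, real_inner_smul_left]

theorem norm_sq_eig (t : ℕ) (y : E) : ‖y‖ ^ 2 = ∑ j, ⟪S.p t j, y⟫_ℝ ^ 2 := by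
  rw [← real_inner_self_eq_norm_sq, ← (S.p t).sum_inner_mul_inner y y]
  exact sum_congr rfl fun j _ => by rw [real_inner_comm (S.p t j) y, sq]

theorem M_succ_phi (s : ℕ) :
    ⟪S.φ s, S.M (s + 1) (S.φ s)⟫_ℝ ≤ ⟪S.φ s, S.M s (S.φ s)⟫_ℝ + S.w s := by
  rw [inner_M_succ, Ph_self (S.hφ s), map_smul, real_inner_smul_left, real_inner_smul_right,
    real_inner_self_eq_norm_sq]
  have h1 := S.M_nonneg s (S.φ s)
  have h2 := rr_sq (S.hφ s)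
  have h3 := S.hφ s
  have h4 := S.w_pos s
  have h5 : ‖S.φ s‖ ^ 2 * ‖S.φ s‖ ^ 2 ≤ 1 := by nlinarith [sq_nonneg ‖S.φ s‖]
  have h6 : rr (S.φ s) * (rr (S.φ s) * ⟪S.φ s, S.M s (S.φ s)⟫_ℝ) ≤ ⟪S.φ s, S.M s (S.φ s)⟫_ℝ := by
    nlinarith [mul_nonneg (sq_nonneg ‖S.φ s‖) h1]
  nlinarith

theorem trace_step (t : ℕ) :
    ∑ j, S.μ (t + 1) j = ∑ j, S.μ t j - ⟪S.φ t, S.M t (S.φ t)⟫_ℝ + S.w t * ‖S.φ t‖ ^ 2 := by
  have h1 : ∀ j, S.μ (t + 1) j = ⟪S.p (t + 1) j, S.M (t + 1) (S.p (t + 1) j)⟫_ℝ := fun j => by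
    rw [S.M_p, real_inner_smul_right, real_inner_self_eq_norm_sq, (S.p (t + 1)).orthonormal.1 j]
    simp
  have h2 : ∀ l, ∑ j, ⟪S.p t l, Ph (S.φ t) (S.p (t + 1) j)⟫_ℝ *
      ⟪S.p t l, Ph (S.φ t) (S.p (t + 1) j)⟫_ℝ = 1 - ⟪S.p t l, S.φ t⟫_ℝ * ⟪S.p t l, S.φ t⟫_ℝ := by
    intro l
    have a1 := S.norm_sq_eig (t + 1) (Ph (S.φ t) (S.p t l))
    rw [norm_Ph_sq (S.hφ t), (S.p t).orthonormal.1 l, real_inner_comm, one_pow] at a1
    rw [← sq, a1]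
    exact sum_congr rfl fun j _ => by rw [← Ph_symm, real_inner_comm, sq]
  have h3 : ∑ j, ⟪S.φ t, S.p (t + 1) j⟫_ℝ * ⟪S.φ t, S.p (t + 1) j⟫_ℝ = ‖S.φ t‖ ^ 2 := by
    rw [S.norm_sq_eig (t + 1)]
    exact sum_congr rfl fun j _ => by rw [real_inner_comm, sq]
  simp only [h1, inner_M_succ, sum_add_distrib, ← mul_sum, h3]
  congr 1
  simp only [S.inner_M_eig t]
  rw [sum_comm, ← sum_sub_distrib]
  exact sum_congr rfl fun l _ => by rw [← mul_sum, h2]; ring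

/-- trace identity.  One step: `∑_j μ (t+1) j = ∑_j ⟪q j, M (t+1) (q j)⟫` with `q = p (t+1)`;
`∑_j ⟪Φ q j, M t (Φ q j)⟫ = ∑_l μ t l ∑_j ⟪Φ (p t l), q j⟫² = ∑_l μ t l ‖Φ (p t l)‖²
= ∑_l μ t l - ⟪φ, M t φ⟫`. -/
theorem trace_id (N : ℕ) :
    ∑ t ∈ range N, ⟪S.φ t, S.M t (S.φ t)⟫_ℝ + ∑ j, S.μ N j =
      S.om * finrank ℝ E + ∑ t ∈ range N, S.w t * ‖S.φ t‖ ^ 2 := by
  induction N with
  | zero =>
    have h : ∀ j, S.μ 0 j = S.om := fun j => by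
      have h1 := S.p_M 0 j (S.p 0 j)
      simpa [M, real_inner_smul_right, (S.p 0).orthonormal.1 j] using h1.symm
    simp [h, mul_comm]
  | succ N ih =>
    rw [sum_range_succ, sum_range_succ, trace_step]
    linarith

end Sys

end Crest.Agent.R239
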