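import Crest.Agent.R239.Dyn

/-! # The state, the innovations, whiteness and quadratic variation -/

set_option autoImplicit false
set_option linter.unusedSectionVars false

namespace Crest.Agent.R239

open Finset Module
open scoped InnerProductSpace

variable {E : Type} [NormedAddCommGroup E] [InnerProductSpace ℝ E] [FiniteDimensional ℝ E]

namespace Inno

theorem e_self (i : ℕ) : e i i = 1 := by simp [e]

theorem e_ne {i j : ℕ} (h : j ≠ i) : e i j = 0 := by simp [e, h]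

theorem nW_le_range {N t : ℕ} {w : ℕ → ℝ} (hw : ∀ i, 0 ≤ w i) {f : G →ₗ[ℝ] ℝ}
    (hf : ∀ i, t ≤ i → f (e i) = 0) : nW N w f ≤ ∑ i ∈ range t, w i * f (e i) ^ 2 := by
  have h1 : ∑ i ∈ range t, w i * f (e i) ^ 2 = ∑ i ∈ range (max N t), w i * f (e i) ^ 2 := by
    refine sum_subset (range_subset_range.2 (le_max_right _ _)) fun i _ hi => ?_
    rw [hf i (by simpa using hi)]
    simp
  rw [h1]
  exact sum_le_sum_of_subset_of_nonneg (range_subset_range.2 (le_max_left _ _))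
    fun i _ _ => mul_nonneg (hw i) (sq_nonneg _)

theorem Ph_Ph {φ : E} (h : ‖φ‖ ^ 2 ≤ 1 / 2) (y : E) : Ph φ (Ph φ y) = y - ⟪φ, y⟫_ℝ • φ := by
  refine ext_inner_left ℝ fun v => ?_
  rw [← Sys.Ph_symm, inner_Ph_Ph h, inner_sub_right, inner_smul_right, real_inner_comm φ v]
  ring

end Inno

namespace Sys
variable (S : Sys E)

theorem st_succ (t : ℕ) (g : G) : S.st (t + 1) g = Ph (S.φ t) (S.st t g) + g t • S.φ t := by
  simp [st]

theorem pair_apply (t : ℕ) (u : E) (g : G) : S.pair t u g = ⟪u, S.st t g⟫_ℝ := by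
  simp [pair]

theorem iota_apply (x : ℝ) (t : ℕ) (g : G) :
    S.iota x t g = g t - (S.w t + x) / rr (S.φ t) * ⟪S.R t x (S.φ t), S.st t g⟫_ℝ := by
  simp [iota, pair]

theorem st_causal (t : ℕ) {g g' : G} (h : ∀ i < t, g i = g' i) : S.st t g = S.st t g' := by
  induction t with
  | zero => simp [st]
  | succ t ih =>
    rw [st_succ, st_succ, ih fun i hi => h i (by omega), h t (by omega)]

theorem st_e {t i : ℕ} (h : t ≤ i) : S.st t (e i) = 0 := by
  rw [S.st_causal t (g' := 0) fun j hj => Inno.e_ne (by omega), map_zero]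

theorem iota_e (x : ℝ) {s i : ℕ} (h : s < i) : S.iota x s (e i) = 0 := by
  rw [iota_apply, S.st_e h.le, Inno.e_ne h.ne, inner_zero_right, mul_zero, sub_zero]

/-- Induction on `t` for `∑_{i<t} w i * ⟪u, st t (e i)⟫² ≤ ⟪u, M t u⟫` (all `u`); note
`st t (e i) = 0` for `t ≤ i` (causality), so `nW N ≤ ∑_{i<t}` (weights are `≥ 0`). -/
theorem nW_pair (N t : ℕ) (u : E) : nW N S.w (S.pair t u) ≤ ⟪u, S.M t u⟫_ℝ := by
  refine (Inno.nW_le_range (fun i => (S.w_pos i).le) (t := t) ?_).trans ?_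
  · intro i hi
    rw [pair_apply, S.st_e hi, inner_zero_right]
  · simp only [pair_apply]
    induction t generalizing u with
    | zero => simpa using S.M_nonneg 0 u
    | succ t ih =>
      rw [sum_range_succ, inner_M_succ]
      refine add_le_add (le_trans (le_of_eq ?_) (ih (Ph (S.φ t) u))) (le_of_eq ?_)
      · refine sum_congr rfl fun i hi => ?_
        have hi' : t ≠ i := (mem_range.1 hi).ne'
        rw [st_succ, Inno.e_ne hi', zero_smul, add_zero, Ph_symm]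
      · rw [st_succ, S.st_e le_rfl, map_zero, zero_add, Inno.e_self, one_smul, real_inner_comm, sq]

theorem white_aux {x : ℝ} (hx : 0 < x) (t : ℕ) (c : ℕ → ℝ) (u : E) :
    ∑ i ∈ range t, (S.w i + x) *
        (∑ s ∈ range t, c s * S.iota x s (e i) + ⟪u, S.st t (e i)⟫_ℝ) ^ 2 ≤
      ∑ s ∈ range t, c s ^ 2 * S.V x s + ⟪u, S.M t u⟫_ℝ + x * ‖u‖ ^ 2 := by
  induction t generalizing u with
  | zero =>
    have := S.M_nonneg 0 u
    simp only [range_zero, sum_empty, zero_add]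
    positivity
  | succ t ih =>
    have hr := rr_pos (S.hφ t)
    set b := c t * (S.w t + x) / rr (S.φ t) with hb
    set v := S.R t x (S.φ t) with hv
    have key : ∀ g, ∑ s ∈ range (t + 1), c s * S.iota x s g + ⟪u, S.st (t + 1) g⟫_ℝ =
        (∑ s ∈ range t, c s * S.iota x s g + ⟪Ph (S.φ t) u - b • v, S.st t g⟫_ℝ) +
          (c t + ⟪S.φ t, u⟫_ℝ) * g t := by
      intro g
      rw [sum_range_succ, S.iota_apply x t, st_succ, inner_add_right, inner_smul_right,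
        inner_sub_left, real_inner_smul_left, Ph_symm, real_inner_comm (S.φ t) u, hb]
      ring
    have h1 := ih (Ph (S.φ t) u - b • v)
    have hRv : S.M t v + x • v = S.φ t := S.R_spec t hx _
    have h2 : ⟪Ph (S.φ t) u - b • v, S.M t (Ph (S.φ t) u - b • v)⟫_ℝ +
        x * ‖Ph (S.φ t) u - b • v‖ ^ 2 =
        ⟪Ph (S.φ t) u, S.M t (Ph (S.φ t) u)⟫_ℝ + x * ‖Ph (S.φ t) u‖ ^ 2 -
          2 * b * (rr (S.φ t) * ⟪S.φ t, u⟫_ℝ) + b ^ 2 * ⟪S.φ t, v⟫_ℝ := by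
      have a1 : ⟪Ph (S.φ t) u, S.M t v⟫_ℝ + x * ⟪Ph (S.φ t) u, v⟫_ℝ =
          rr (S.φ t) * ⟪S.φ t, u⟫_ℝ := by
        rw [← inner_Ph_self (S.hφ t), real_inner_comm (Ph (S.φ t) u), ← inner_smul_right,
          ← inner_add_right, hRv]
      have a2 : ⟪v, S.M t v⟫_ℝ + x * ⟪v, v⟫_ℝ = ⟪S.φ t, v⟫_ℝ := by
        rw [real_inner_comm v (S.φ t), ← inner_smul_right, ← inner_add_right, hRv]
      have a3 : ⟪v, S.M t (Ph (S.φ t) u)⟫_ℝ = ⟪Ph (S.φ t) u, S.M t v⟫_ℝ := by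
        rw [← S.M_symm t, real_inner_comm]
      rw [← real_inner_self_eq_norm_sq, ← real_inner_self_eq_norm_sq, ← a1, ← a2]
      simp only [map_sub, map_smul, inner_sub_left, inner_sub_right, real_inner_smul_left,
        real_inner_smul_right, a3, real_inner_comm (Ph (S.φ t) u) v]
      ring
    simp only [key]
    rw [sum_range_succ, sum_range_succ, inner_M_succ]
    have e1 : ∑ i ∈ range t, (S.w i + x) * ((∑ s ∈ range t, c s * S.iota x s (e i) +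
        ⟪Ph (S.φ t) u - b • v, S.st t (e i)⟫_ℝ) + (c t + ⟪S.φ t, u⟫_ℝ) * e i t) ^ 2 =
        ∑ i ∈ range t, (S.w i + x) * (∑ s ∈ range t, c s * S.iota x s (e i) +
          ⟪Ph (S.φ t) u - b • v, S.st t (e i)⟫_ℝ) ^ 2 :=
      sum_congr rfl fun i hi => by rw [Inno.e_ne (mem_range.1 hi).ne', mul_zero, add_zero]
    have e2 : ∑ s ∈ range t, c s * S.iota x s (e t) = 0 :=
      sum_eq_zero fun s hs => by rw [S.iota_e x (mem_range.1 hs), mul_zero]
    rw [e1, e2, S.st_e le_rfl, Inno.e_self, inner_zero_right]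
    have e3 := norm_Ph_sq (S.hφ t) u
    have e4 : b * rr (S.φ t) = c t * (S.w t + x) := by rw [hb]; field_simp
    have e5 : c t ^ 2 * S.V x t = c t ^ 2 * (S.w t + x) + b ^ 2 * ⟪S.φ t, v⟫_ℝ := by
      unfold V
      rw [hb, ← hv]
      field_simp
    have e6 : 2 * b * (rr (S.φ t) * ⟪S.φ t, u⟫_ℝ) = 2 * (c t * (S.w t + x)) * ⟪S.φ t, u⟫_ℝ := by
      rw [← e4]; ring
    rw [e3, e6] at h2
    rw [e5]
    nlinarith

/-- **Whiteness.**  Prove by induction on `t`, for all `c` and `u`, with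
`F = ∑_{s<t} c s • iota x s + pair t u`:
`∑_{i<t} (w i + x) * F (e i)² ≤ ∑_{s<t} c s² * V x s + ⟪u, M t u⟫ + x ‖u‖²`, and `F (e i) = 0`
for `t ≤ i`.  Step: `c t • iota x t + pair (t+1) u = (c t + ⟪u, φ⟫) • proj t + pair t u'` with
`u' = Φ u - (c t (w + x)/r) • R t x φ`; `⟪u', (M t + x) u'⟫ = ⟪Φ u, (M t + x) Φ u⟫
- 2 c (w+x) ⟪u, φ⟫ + c² (w+x)²/r² ⟪φ, R φ⟫` (`R_spec`, `inner_Ph_self`), so the cross terms
cancel.  Then take `t` above all elements of `I`, `c` extended by zero outside `I`, `u = 0`. -/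
theorem white (N : ℕ) {x : ℝ} (hx : 0 < x) (I : Finset ℕ) (c : ℕ → ℝ) :
    nW N S.w (∑ s ∈ I, c s • S.iota x s) ≤ ∑ s ∈ I, c s ^ 2 * S.V x s := by
  classical
  obtain ⟨t, ht⟩ : ∃ t, ∀ s ∈ I, s < t :=
    ⟨I.sup id + 1, fun s hs => Nat.lt_succ_of_le (le_sup (f := id) hs)⟩
  have hI : I ⊆ range t := fun s hs => mem_range.2 (ht s hs)
  have h := S.white_aux hx t (fun s => if s ∈ I then c s else 0) 0
  have e1 : ∀ g, ∑ s ∈ range t, (if s ∈ I then c s else 0) * S.iota x s g =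
      ∑ s ∈ I, c s * S.iota x s g := by
    intro g
    rw [← sum_subset hI (fun s _ hs => by rw [if_neg hs, zero_mul])]
    exact sum_congr rfl fun s hs => by rw [if_pos hs]
  have e2 : ∑ s ∈ range t, (if s ∈ I then c s else 0) ^ 2 * S.V x s =
      ∑ s ∈ I, c s ^ 2 * S.V x s := by
    rw [← sum_subset hI (fun s _ hs => by rw [if_neg hs]; simp)]
    exact sum_congr rfl fun s hs => by rw [if_pos hs]
  simp only [e1, e2, inner_zero_left, norm_zero, add_zero] at h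
  have e3 : ∀ g, (∑ s ∈ I, c s • S.iota x s) g = ∑ s ∈ I, c s * S.iota x s g := by
    intro g
    simp [LinearMap.sum_apply]
  refine (Inno.nW_le_range (fun i => (S.w_pos i).le) (t := t) ?_).trans ?_
  · intro i hi
    rw [e3]
    exact sum_eq_zero fun s hs => by rw [S.iota_e x ((ht s hs).trans_le hi), mul_zero]
  · refine le_trans (sum_le_sum fun i _ => ?_) (h.trans (le_of_eq (by simp)))
    rw [e3]
    exact mul_le_mul_of_nonneg_right (by linarith) (sq_nonneg _)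

theorem V_ge {x : ℝ} (hx : 0 < x) (t : ℕ) : S.w t + x ≤ S.V x t := by
  have h : 0 ≤ ⟪S.φ t, S.R t x (S.φ t)⟫_ℝ := res_nonneg (S.M_symm t) (S.M_nonneg t) hx _
  have : 0 ≤ (S.w t + x) ^ 2 / rr (S.φ t) ^ 2 * ⟪S.φ t, S.R t x (S.φ t)⟫_ℝ := by positivity
  unfold V
  linarith

/-- `res_le`: `x ⟪φ, R φ⟫ ≤ ‖φ‖² ≤ 1/2`, `rr² ≥ 1/2` -/
theorem V_le {x : ℝ} (hx : 0 < x) {t : ℕ} (h : S.w t < 4 * x) : S.V x t ≤ 30 * x := by
  have h0 : 0 ≤ ⟪S.φ t, S.R t x (S.φ t)⟫_ℝ := res_nonneg (S.M_symm t) (S.M_nonneg t) hx _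
  have h1 : x * ⟪S.φ t, S.R t x (S.φ t)⟫_ℝ ≤ 1 / 2 :=
    (res_le (S.M_symm t) (S.M_nonneg t) hx _).trans (S.hφ t)
  have h2 := half_le_rr_sq (S.hφ t)
  have h3 := S.w_pos t
  have h4 : (S.w t + x) ^ 2 / rr (S.φ t) ^ 2 ≤ 50 * x ^ 2 := by
    rw [div_le_iff₀ (by linarith)]
    have : (S.w t + x) ^ 2 ≤ (5 * x) ^ 2 := pow_le_pow_left₀ (by linarith) (by linarith) 2
    nlinarith [sq_nonneg x]
  have h5 := mul_le_mul_of_nonneg_right h4 h0
  unfold V
  nlinarith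

/-- key algebra: with `y = R (t+1) x (Φ z)`, `q = ⟪y, φ⟫`, `a = w t + x`, `r = rr φ`:
`(M (t+1) + x) y = Φ z` reads `Φ ((M t + x) (Φ y) + (a q / r) • φ - z) = 0`
(use `Φ (Φ y) = y - ⟪φ, y⟫ φ`, `Φ φ = r φ`), so by injectivity of `Φ` and `res_spec'`,
`R t x z = Φ y + (a q / r) • R t x φ`. -/
theorem R_step {x : ℝ} (hx : 0 < x) (t : ℕ) (z : E) :
    S.R t x z = Ph (S.φ t) (S.R (t + 1) x (Ph (S.φ t) z)) +
      ((S.w t + x) * ⟪S.R (t + 1) x (Ph (S.φ t) z), S.φ t⟫_ℝ / rr (S.φ t)) • S.R t x (S.φ t) := by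
  set y := S.R (t + 1) x (Ph (S.φ t) z) with hy
  have hr := rr_pos (S.hφ t)
  have h1 : S.M (t + 1) y + x • y = Ph (S.φ t) z := S.R_spec (t + 1) hx _
  have h2 : S.M (t + 1) y = Ph (S.φ t) (S.M t (Ph (S.φ t) y)) + (S.w t * ⟪y, S.φ t⟫_ℝ) • S.φ t := by
    simp only [M, LinearMap.add_apply, LinearMap.comp_apply, LinearMap.smul_apply, rk_apply,
      smul_smul, real_inner_comm]
  have h3 : z = S.M t (Ph (S.φ t) y) + x • Ph (S.φ t) y +
      ((S.w t + x) * ⟪y, S.φ t⟫_ℝ / rr (S.φ t)) • S.φ t := by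
    apply Ph_injective (S.hφ t)
    rw [← h1, h2, map_add, map_add, map_smul, map_smul, Inno.Ph_Ph (S.hφ t), Ph_self (S.hφ t),
      smul_smul, div_mul_cancel₀ _ hr.ne', real_inner_comm (S.φ t) y]
    module
  have h4 : S.R t x (S.M t (Ph (S.φ t) y) + x • Ph (S.φ t) y) = Ph (S.φ t) y :=
    res_spec' (S.M_symm t) (S.M_nonneg t) hx _
  conv_lhs => rw [h3]
  rw [map_add, h4, map_smul]

theorem pair_step {x : ℝ} (hx : 0 < x) (t : ℕ) (z : E) (g : G) :
    ⟪Ph (S.φ t) z, S.R (t + 1) x (S.st (t + 1) g)⟫_ℝ =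
      ⟪z, S.R t x (S.st t g)⟫_ℝ +
        ⟪Ph (S.φ t) z, S.R (t + 1) x (S.φ t)⟫_ℝ * S.iota x t g := by
  rw [← S.R_symm (t + 1) hx, ← S.R_symm (t + 1) hx, ← S.R_symm t hx, S.R_step hx t z, st_succ,
    iota_apply, inner_add_right, inner_add_left, inner_smul_right, real_inner_smul_left, Ph_symm]
  ring

theorem qv_step {x : ℝ} (hx : 0 < x) (t : ℕ) (z : E) :
    ⟪Ph (S.φ t) z, S.R (t + 1) x (Ph (S.φ t) z)⟫_ℝ +
      S.V x t * ⟪Ph (S.φ t) z, S.R (t + 1) x (S.φ t)⟫_ℝ ^ 2 = ⟪z, S.R t x z⟫_ℝ := by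
  have hr := rr_pos (S.hφ t)
  have h1 := S.R_step hx t z
  have h2 : ⟪z, S.R t x (S.φ t)⟫_ℝ = rr (S.φ t) * ⟪S.R (t + 1) x (Ph (S.φ t) z), S.φ t⟫_ℝ +
      ((S.w t + x) * ⟪S.R (t + 1) x (Ph (S.φ t) z), S.φ t⟫_ℝ / rr (S.φ t)) *
        ⟪S.φ t, S.R t x (S.φ t)⟫_ℝ := by
    rw [← S.R_symm t hx, h1, inner_add_left, real_inner_smul_left, real_inner_comm,
      inner_Ph_self (S.hφ t), real_inner_comm (S.φ t), real_inner_comm (S.φ t)]
  rw [h1, inner_add_right, inner_smul_right, h2, ← Ph_symm (S.φ t) z,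
    ← S.R_symm (t + 1) hx (Ph (S.φ t) z) (S.φ t)]
  unfold V
  field_simp

theorem pair_sum {x : ℝ} (hx : 0 < x) {a t : ℕ} (h : a ≤ t) (z : E) (g : G) :
    ⟪S.T a t z, S.R t x (S.st t g)⟫_ℝ =
      ⟪z, S.R a x (S.st a g)⟫_ℝ +
        ∑ s ∈ Ico a t, ⟪S.T a (s + 1) z, S.R (s + 1) x (S.φ s)⟫_ℝ * S.iota x s g := by
  induction t, h using Nat.le_induction with
  | base => simp [T_self]
  | succ t h ih =>
    rw [sum_Ico_succ_top h, ← add_assoc, ← ih, S.T_succ h, S.pair_step hx]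

theorem qv_sum {x : ℝ} (hx : 0 < x) {a t : ℕ} (h : a ≤ t) (z : E) :
    ⟪S.T a t z, S.R t x (S.T a t z)⟫_ℝ +
      ∑ s ∈ Ico a t, S.V x s * ⟪S.T a (s + 1) z, S.R (s + 1) x (S.φ s)⟫_ℝ ^ 2 =
        ⟪z, S.R a x z⟫_ℝ := by
  induction t, h using Nat.le_induction with
  | base => simp [T_self]
  | succ t h ih =>
    rw [sum_Ico_succ_top h, ← ih, S.T_succ h, ← S.qv_step hx t (S.T a t z)]
    ring

/-- whiteness of the class streams: `nW_sub_le`, `white`, `V_le`, `lam (k+1) = 4 lam k`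
(`2 * 30 + 2 * 30/4 = 75`) -/
theorem white_eta (N k : ℕ) (I : Finset ℕ) (c : ℕ → ℝ) :
    nW N S.w (∑ s ∈ I, c s • S.eta k s) ≤ 75 * S.lam k * ∑ s ∈ I, c s ^ 2 := by
  have hZ : ∀ k, nW N S.w (∑ s ∈ I, c s • S.Z (k + 1) s) ≤ 30 * S.lam k * ∑ s ∈ I, c s ^ 2 := by
    intro k
    have e : ∑ s ∈ I, c s • S.Z (k + 1) s =
        ∑ s ∈ I.filter (fun s => S.w s < 4 * S.lam k), c s • S.iota (S.lam k) s := by
      rw [sum_filter]
      refine sum_congr rfl fun s _ => ?_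
      simp only [Z]
      split_ifs <;> simp
    rw [e]
    refine (S.white N (S.lam_pos k) _ c).trans ?_
    have hl := S.lam_pos k
    rw [mul_sum]
    refine le_trans (sum_le_sum fun s hs => ?_)
      (sum_le_sum_of_subset_of_nonneg (filter_subset (fun s => S.w s < 4 * S.lam k) I)
        fun s _ _ => by positivity)
    rw [mul_comm]
    exact mul_le_mul_of_nonneg_right (S.V_le hl (mem_filter.1 hs).2) (sq_nonneg _)
  have e : ∑ s ∈ I, c s • S.eta k s = ∑ s ∈ I, c s • S.Z (k + 1) s - ∑ s ∈ I, c s • S.Z k s := by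
    simp only [eta, smul_sub, sum_sub_distrib]
  have hc : 0 ≤ ∑ s ∈ I, c s ^ 2 := sum_nonneg fun s _ => sq_nonneg _
  have hl := S.lam_pos k
  rw [e]
  refine (nW_sub_le (fun i => (S.w_pos i).le) _ _).trans ?_
  have h1 := hZ k
  cases k with
  | zero =>
    have : ∑ s ∈ I, c s • S.Z 0 s = 0 := by simp [Z]
    rw [this, nW_zero]
    nlinarith [mul_nonneg hl.le hc]
  | succ k =>
    have h2 := hZ k
    have h3 : S.lam (k + 1) = 4 * S.lam k := by simp only [lam]; ring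
    rw [h3] at h1 ⊢
    linarith

/-- telescoping (`Finset.sum_range_sub`) -/
theorem iota_split (k s : ℕ) :
    S.iota (S.lam k) s = (if 4 * S.lam k ≤ S.w s then S.iota (S.lam k) s else 0) +
      ∑ k' ∈ range (k + 1), S.eta k' s := by
  have h := sum_range_sub (fun k' => S.Z k' s) (k + 1)
  simp only [eta, h]
  simp only [Z, sub_zero]
  by_cases h1 : S.w s < 4 * S.lam k
  · rw [if_neg (not_le.2 h1), if_pos h1, zero_add]
  · rw [if_pos (not_lt.1 h1), if_neg h1, add_zero]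

end Sys

end Crest.Agent.R239
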