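import Crest.Agent.R239.Defs

/-! # Closed-loop Karingula–Lovett lemma -/

set_option autoImplicit false

namespace Crest.Agent.R239

open Finset

namespace KL

variable {V : Type} [AddCommGroup V] [Module ℝ V]

lemma finsum_two {X W : Type} [AddCommMonoid W] (F : X × ℝ → W)
    (h : ∀ x s, s ≠ 0 → s ≠ 1 → F (x, s) = 0)
    (h0 : (Function.support fun x => F (x, 0)).Finite)
    (h1 : (Function.support fun x => F (x, 1)).Finite) :
    ∑ᶠ p, F p = ∑ᶠ x, (F (x, 0) + F (x, 1)) := by
  classical
  set T := h0.toFinset ∪ h1.toFinset with hT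
  have hsub : Function.support F ⊆ ((T ×ˢ ({0, 1} : Finset ℝ) : Finset (X × ℝ)) : Set (X × ℝ)) := by
    rintro ⟨x, s⟩ hx
    by_cases hs0 : s = 0
    · subst hs0
      simp only [hT, coe_product, Set.mem_prod, mem_coe, mem_union, Set.Finite.mem_toFinset]
      exact ⟨Or.inl hx, by simp⟩
    by_cases hs1 : s = 1
    · subst hs1
      simp only [hT, coe_product, Set.mem_prod, mem_coe, mem_union, Set.Finite.mem_toFinset]
      exact ⟨Or.inr hx, by simp⟩
    exact absurd (h x s hs0 hs1) hx
  have hsub' : Function.support (fun x => F (x, 0) + F (x, 1)) ⊆ (T : Set X) := by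
    intro x hx
    by_contra hn
    simp only [hT, mem_coe, mem_union, Set.Finite.mem_toFinset, Function.mem_support, not_or,
      not_not] at hn
    exact hx (by simp only [hn.1, hn.2, add_zero])
  rw [finsum_eq_sum_of_support_subset F hsub, finsum_eq_sum_of_support_subset _ hsub',
    Finset.sum_product]
  refine Finset.sum_congr rfl fun x _ => ?_
  rw [Finset.sum_pair zero_ne_one]

omit [Module ℝ V] in
lemma fin_shift {P : V → ℝ} (hP : (Function.support P).Finite) (c : V) :
    (Function.support fun x => P (x - c)).Finite :=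
  Set.Finite.preimage (f := fun x => x - c) (sub_left_injective.injOn) hP

omit [Module ℝ V] in
lemma finsum_shift {W : Type} [AddCommMonoid W] (F : V → W) (c : V) :
    ∑ᶠ x, F (x - c) = ∑ᶠ x, F x :=
  finsum_comp_equiv (Equiv.subRight c) (f := F)

lemma fin_mono {X W W' : Type} [Zero W] [Zero W'] {F : X → W} {F' : X → W'}
    (h : (Function.support F).Finite) (h' : ∀ x, F x = 0 → F' x = 0) :
    (Function.support F').Finite :=
  h.subset fun x hx hx' => hx (h' x hx')

lemma fin_mono₂ {X W W' : Type} [Zero W] [Zero W'] {F₁ F₂ : X → W} {F' : X → W'}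
    (h₁ : (Function.support F₁).Finite) (h₂ : (Function.support F₂).Finite)
    (h' : ∀ x, F₁ x = 0 → F₂ x = 0 → F' x = 0) : (Function.support F').Finite :=
  (h₁.union h₂).subset fun x hx => by
    by_contra hn
    simp only [Set.mem_union, Function.mem_support, not_or, not_not] at hn
    exact hx (h' x hn.1 hn.2)

lemma mean_shift {P : V → ℝ} (hP : IsDist P) (c : V) :
    ∑ᶠ x, P (x - c) • x = mean P + c := by
  have h1 : ∑ᶠ x, P (x - c) • x = ∑ᶠ x, P x • (x + c) := by
    rw [← finsum_shift (fun x => P x • (x + c)) c]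
    simp
  rw [h1]
  simp only [smul_add]
  rw [finsum_add_distrib (fin_mono hP.fin fun x hx => by simp [hx])
    (fin_mono hP.fin fun x hx => by simp [hx]), ← finsum_smul' hP.fin, hP.total, one_smul]
  rfl

omit [Module ℝ V] in
lemma ov_shift (P : V → ℝ) (c w : V) : ov (fun x => P (x - c)) w = ov P w := by
  unfold ov
  rw [← finsum_shift (fun x => min (P x) (P (x - w))) c]
  simp only [sub_right_comm]

lemma mean_mem {P : V → ℝ} {K : Set V} (hP : IsDist P) (hK : Convex ℝ K)
    (hs : Function.support P ⊆ K) : mean P ∈ K := by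
  unfold mean
  rw [finsum_eq_sum_of_support_subset (s := hP.fin.toFinset) _ (by
    intro x hx
    simp only [Set.Finite.coe_toFinset, Function.mem_support]
    intro h
    exact hx (by simp [h]))]
  refine hK.sum_mem (fun x _ => hP.nonneg x) ?_ (fun x hx => hs (by simpa using hx))
  rw [← hP.total, finsum_eq_sum_of_support_subset (s := hP.fin.toFinset) _ (by simp)]

lemma lattice_ineq (a b a' b' : ℝ) :
    min a a' + min b b' ≤ min (max a b) (max a' b') + min (min a b) (min a' b') := by
  simp only [min_def, max_def]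
  split_ifs <;> linarith

/-- the lifted distribution -/
noncomputable def lift {X : Type} (a b : X → ℝ) (p : X × ℝ) : ℝ :=
  if p.2 = 0 then max (a p.1) (b p.1) / 2 else if p.2 = 1 then min (a p.1) (b p.1) / 2 else 0

lemma lift_zero {X : Type} (a b : X → ℝ) (x : X) : lift a b (x, 0) = max (a x) (b x) / 2 := by
  simp [lift]

lemma lift_one {X : Type} (a b : X → ℝ) (x : X) : lift a b (x, 1) = min (a x) (b x) / 2 := by
  simp [lift]

lemma lift_other {X : Type} (a b : X → ℝ) (x : X) {s : ℝ} (h0 : s ≠ 0) (h1 : s ≠ 1) :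
    lift a b (x, s) = 0 := by
  simp [lift, h0, h1]

lemma isDist_lift {X : Type} {a b : X → ℝ} (ha : IsDist a) (hb : IsDist b) :
    IsDist (lift a b) := by
  have f0 : (Function.support fun x => lift a b (x, 0)).Finite :=
    fin_mono₂ ha.fin hb.fin fun x h1 h2 => by simp [lift_zero, h1, h2]
  have f1 : (Function.support fun x => lift a b (x, 1)).Finite :=
    fin_mono₂ ha.fin hb.fin fun x h1 h2 => by simp [lift_one, h1, h2]
  refine ⟨?_, ?_, ?_⟩
  · refine ((f0.image fun x => (x, (0 : ℝ))).union (f1.image fun x => (x, (1 : ℝ)))).subset ?_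
    rintro ⟨x, s⟩ hx
    by_cases hs0 : s = 0
    · subst hs0; exact Or.inl ⟨x, hx, rfl⟩
    by_cases hs1 : s = 1
    · subst hs1; exact Or.inr ⟨x, hx, rfl⟩
    exact absurd (lift_other a b x hs0 hs1) hx
  · rintro ⟨x, s⟩
    have h1 := ha.nonneg x
    have h2 := hb.nonneg x
    unfold lift
    split_ifs
    · exact div_nonneg (le_max_of_le_left h1) (by norm_num)
    · exact div_nonneg (le_min h1 h2) (by norm_num)
    · exact le_rfl
  · rw [finsum_two _ (fun x s => lift_other a b x) f0 f1]
    have : ∀ x, lift a b (x, 0) + lift a b (x, 1) = (1 / 2 : ℝ) * a x + (1 / 2 : ℝ) * b x := by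
      intro x
      rw [lift_zero, lift_one]
      have := max_add_min (a x) (b x)
      linarith
    simp only [this]
    rw [finsum_add_distrib (fin_mono ha.fin fun x hx => by simp [hx])
      (fin_mono hb.fin fun x hx => by simp [hx]), ← mul_finsum' _ _ ha.fin,
      ← mul_finsum' _ _ hb.fin, ha.total, hb.total]
    norm_num

lemma mean_lift {a b : V → ℝ} (ha : IsDist a) (hb : IsDist b) :
    mean (lift a b) = ((1 / 2 : ℝ) • mean a + (1 / 2 : ℝ) • mean b,
      (1 / 2 : ℝ) * ∑ᶠ x, min (a x) (b x)) := by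
  classical
  unfold mean
  rw [finsum_two (fun p : V × ℝ => lift a b p • p)
    (fun x s h0 h1 => by simp [lift_other a b x h0 h1])
    (fin_mono₂ ha.fin hb.fin fun x h1 h2 => by simp [lift_zero, h1, h2])
    (fin_mono₂ ha.fin hb.fin fun x h1 h2 => by simp [lift_one, h1, h2])]
  set T := ha.fin.toFinset ∪ hb.fin.toFinset with hT
  have key : ∀ {W : Type} [AddCommMonoid W] (F : V → W), (∀ x, a x = 0 → b x = 0 → F x = 0) →
      ∑ᶠ x, F x = ∑ x ∈ T, F x := by
    intro W _ F hF
    refine finsum_eq_sum_of_support_subset _ fun x hx => ?_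
    by_contra hn
    simp only [hT, mem_coe, mem_union, Set.Finite.mem_toFinset, Function.mem_support, not_or,
      not_not] at hn
    exact hx (hF x hn.1 hn.2)
  rw [key _ (fun x h1 h2 => by simp [lift_zero, lift_one, h1, h2]),
    key (fun x => a x • x) (fun x h1 _ => by simp [h1]),
    key (fun x => b x • x) (fun x _ h2 => by simp [h2]),
    key (fun x => min (a x) (b x)) (fun x h1 h2 => by simp [h1, h2])]
  refine Prod.ext ?_ ?_
  · simp only [Prod.fst_sum, Finset.smul_sum, ← Finset.sum_add_distrib]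
    refine Finset.sum_congr rfl fun x _ => ?_
    simp only [lift_zero, lift_one, Prod.fst_add, Prod.smul_fst, smul_smul, ← add_smul]
    congr 1
    have := max_add_min (a x) (b x)
    linarith
  · simp only [Prod.snd_sum, Finset.mul_sum]
    refine Finset.sum_congr rfl fun x _ => ?_
    simp only [lift_zero, lift_one, Prod.snd_add, Prod.smul_snd, smul_eq_mul]
    ring

omit [Module ℝ V] in
lemma ov_lift {a b : V → ℝ} (ha : IsDist a) (hb : IsDist b) (w : V) :
    (1 / 2 : ℝ) * ov a w + (1 / 2 : ℝ) * ov b w ≤ ov (lift a b) (w, 0) := by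
  have hl := isDist_lift ha hb
  have fa : (Function.support fun x => min (a x) (a (x - w))).Finite :=
    fin_mono ha.fin fun x hx => by rw [hx]; exact min_eq_left (ha.nonneg _)
  have fb : (Function.support fun x => min (b x) (b (x - w))).Finite :=
    fin_mono hb.fin fun x hx => by rw [hx]; exact min_eq_left (hb.nonneg _)
  have f0 : (Function.support fun x =>
      min (lift a b (x, 0)) (lift a b ((x, 0) - (w, 0)))).Finite :=
    fin_mono₂ ha.fin hb.fin fun x h1 h2 => by
      have : lift a b (x, 0) = 0 := by simp [lift_zero, h1, h2]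
      rw [this]; exact min_eq_left (hl.nonneg _)
  have f1 : (Function.support fun x =>
      min (lift a b (x, 1)) (lift a b ((x, 1) - (w, 0)))).Finite :=
    fin_mono₂ ha.fin hb.fin fun x h1 h2 => by
      have : lift a b (x, 1) = 0 := by simp [lift_one, h1, h2]
      rw [this]; exact min_eq_left (hl.nonneg _)
  unfold ov
  rw [finsum_two (fun p : V × ℝ => min (lift a b p) (lift a b (p - (w, 0))))
    (fun x s h0 h1 => by
      rw [lift_other a b x h0 h1]; exact min_eq_left (hl.nonneg _)) f0 f1,
    mul_finsum' _ _ fa, mul_finsum' _ _ fb,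
    ← finsum_add_distrib (fin_mono fa fun x hx => by rw [hx, mul_zero])
      (fin_mono fb fun x hx => by rw [hx, mul_zero])]
  refine finsum_le_finsum' (fin_mono₂ fa fb fun x h1 h2 => by rw [h1, h2]; simp)
    (fin_mono₂ f0 f1 fun x h1 h2 => by rw [h1, h2]; simp) fun x => ?_
  simp only [Prod.mk_sub_mk, sub_zero, lift_zero, lift_one]
  rw [min_div_div_right (by norm_num), min_div_div_right (by norm_num)]
  have := lattice_ineq (a x) (b x) (a (x - w)) (b (x - w))
  linarith

omit [Module ℝ V] in
lemma isDist_shift {P : V → ℝ} (hP : IsDist P) (c : V) : IsDist fun x => P (x - c) :=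
  ⟨fin_shift hP.fin c, fun _ => hP.nonneg _, (finsum_shift P c).trans hP.total⟩

lemma convex_line {K : Set V} (hK : Convex ℝ K) (z u : V) {l r τ : ℝ} (hl : z + l • u ∈ K)
    (hr : z + r • u ∈ K) (h1 : l ≤ τ) (h2 : τ ≤ r) : z + τ • u ∈ K := by
  have hc : Convex ℝ {τ : ℝ | z + τ • u ∈ K} := by
    intro x hx y hy a b ha hb hab
    have := hK hx hy ha hb hab
    have e : z + (a • x + b • y) • u = a • (z + x • u) + b • (z + y • u) := by
      have hz : z = (a + b) • z := by rw [hab, one_smul]
      conv_lhs => rw [hz]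
      simp only [smul_eq_mul]
      module
    show z + (a • x + b • y) • u ∈ K
    rw [e]; exact this
  exact hc.ordConnected.out hl hr ⟨h1, h2⟩

lemma convex_lift {K : Set V} (hK : Convex ℝ K) (u : V) :
    Convex ℝ {p : V × ℝ | ∃ α : ℝ, |α| ≤ 1 - p.2 ∧ p.1 + (4 * (α - p.2)) • u ∈ K ∧
      p.1 + (4 * (α + p.2)) • u ∈ K} := by
  rintro ⟨x, β⟩ ⟨α, h1, h2, h3⟩ ⟨x', β'⟩ ⟨α', h1', h2', h3'⟩ a b ha hb hab
  refine ⟨a * α + b * α', ?_, ?_, ?_⟩
  · simp only [Prod.snd_add, Prod.smul_snd, smul_eq_mul] at *
    have e1 := abs_le.1 h1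
    have e2 := abs_le.1 h1'
    rw [abs_le]
    constructor <;> nlinarith [e1.1, e1.2, e2.1, e2.2]
  · have := hK h2 h2' ha hb hab
    convert this using 1
    simp only [Prod.fst_add, Prod.smul_fst, Prod.snd_add, Prod.smul_snd, smul_eq_mul]
    module
  · have := hK h3 h3' ha hb hab
    convert this using 1
    simp only [Prod.fst_add, Prod.smul_fst, Prod.snd_add, Prod.smul_snd, smul_eq_mul]
    module

end KL

open KL

/-- **Closed-loop Karingula–Lovett lemma.**
Induction on `n` (for all `V, P, u, K`).  `n = 0`: `mean P ∈ K` (convex combination; write the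
`finsum`s as sums over `hP.fin.toFinset`, `Convex.sum_mem`).
Step `n + 1`: let `u = u n`, `a x = P (x - 4•u)`, `b x = P (x + 4•u)`; on `V × ℝ` put
`P' (x, 1) = min (a x) (b x) / 2`, `P' (x, 0) = max (a x) (b x) / 2`, `P' = 0` elsewhere.
* `IsDist P'` (`max + min = a + b`; translation invariance of `finsum`, e.g. `finsum_comp_equiv`
  with `Equiv.subRight/addRight`);
* `mean P' = (mean P, β)` with `β = ov P (8•u) / 2 ∈ [7/16, 1/2]`;
* `ov P' (8•(u i, 0)) ≥ ov P (8•u i)` from the lattice inequality
  `min (max a b) (max a' b') + min (min a b) (min a' b') ≥ min a a' + min b b'`;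
* `K' = {(x, β) | ∃ α, |α| ≤ 1 - β ∧ x + (4*(α-β))•u ∈ K ∧ x + (4*(α+β))•u ∈ K}` is convex and
  contains `support P'` (level `1`: `α = 0`; level `0`: `α = ±1`).
The induction hypothesis gives `g` with `(z, β) ∈ K'`, `z = mean P + ∑_{i<n} g i • u i`.  By
convexity `z + τ•u ∈ K` for all `τ ∈ [4(α-β), 4(α+β)]`; if `α ≥ 0` this interval contains
`[1/2, 3/2] ∋ m n g + 1`, if `α ≤ 0` it contains `[-3/2, -1/2] ∋ m n g - 1`
(use `7/16 ≤ β`, `|α| ≤ 1 - β`).  Take `g' = Function.update g n τ` and use causality. -/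
theorem kl (n : ℕ) (m : ℕ → (ℕ → ℝ) → ℝ)
    (hc : ∀ t g g', (∀ i < t, g i = g' i) → m t g = m t g')
    (hm : ∀ t g, |m t g| ≤ 1 / 2)
    (V : Type) [AddCommGroup V] [Module ℝ V] (P : V → ℝ) (u : ℕ → V) (K : Set V)
    (hP : IsDist P) (hK : Convex ℝ K) (hs : Function.support P ⊆ K)
    (ho : ∀ i < n, 7 / 8 ≤ ov P ((8 : ℝ) • u i)) :
    ∃ g : ℕ → ℝ, (∀ t < n, g t = m t g + 1 ∨ g t = m t g - 1) ∧
      mean P + ∑ i ∈ range n, g i • u i ∈ K := by
  induction n generalizing V with
  | zero => exact ⟨0, fun t ht => absurd ht (Nat.not_lt_zero t), by simpa using mean_mem hP hK hs⟩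
  | succ n ih =>
    have ha := isDist_shift hP ((4 : ℝ) • u n)
    have hb := isDist_shift hP (-((4 : ℝ) • u n))
    have hsupp : Function.support (lift (fun x => P (x - (4 : ℝ) • u n))
        (fun x => P (x - -((4 : ℝ) • u n)))) ⊆
        {p : V × ℝ | ∃ α : ℝ, |α| ≤ 1 - p.2 ∧ p.1 + (4 * (α - p.2)) • u n ∈ K ∧
          p.1 + (4 * (α + p.2)) • u n ∈ K} := by
      rintro ⟨x, s⟩ hx
      have em : x + (4 * (-1 : ℝ)) • u n = x - (4 : ℝ) • u n := by module
      have ep : x + (4 * (1 : ℝ)) • u n = x - -((4 : ℝ) • u n) := by module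
      by_cases hs0 : s = 0
      · subst hs0
        rw [Function.mem_support, lift_zero] at hx
        by_cases h1 : P (x - (4 : ℝ) • u n) = 0
        · have h2 : P (x - -((4 : ℝ) • u n)) ≠ 0 := fun h2 => hx (by rw [h1, h2]; simp)
          refine ⟨1, by simp, ?_, ?_⟩
          · simp only [sub_zero]; rw [ep]; exact hs h2
          · simp only [add_zero]; rw [ep]; exact hs h2
        · refine ⟨-1, by simp, ?_, ?_⟩
          · simp only [sub_zero]; rw [em]; exact hs h1
          · simp only [add_zero]; rw [em]; exact hs h1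
      by_cases hs1 : s = 1
      · subst hs1
        rw [Function.mem_support, lift_one] at hx
        have h1 : P (x - (4 : ℝ) • u n) ≠ 0 := fun h =>
          hx (by rw [h, min_eq_left (hP.nonneg _)]; simp)
        have h2 : P (x - -((4 : ℝ) • u n)) ≠ 0 := fun h =>
          hx (by rw [h, min_eq_right (hP.nonneg _)]; simp)
        refine ⟨0, by simp, ?_, ?_⟩
        · simp only [zero_sub]; rw [em]; exact hs h1
        · simp only [zero_add]; rw [ep]; exact hs h2
      exact absurd (lift_other _ _ x hs0 hs1) hx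
    obtain ⟨g, hg, α, h1, h2, h3⟩ := ih (V × ℝ) _ (fun i => (u i, 0)) _ (isDist_lift ha hb)
      (convex_lift hK (u n)) hsupp (fun i hi => by
        have := ov_lift ha hb ((8 : ℝ) • u i)
        rw [ov_shift, ov_shift] at this
        have e : (8 : ℝ) • ((u i, 0) : V × ℝ) = ((8 : ℝ) • u i, 0) := by simp
        rw [e]
        linarith [ho i (Nat.lt_succ_of_lt hi)])
    have hβ : ∑ᶠ x, min (P (x - (4 : ℝ) • u n)) (P (x - -((4 : ℝ) • u n)))
        = ov P ((8 : ℝ) • u n) := by
      unfold ov
      rw [← finsum_shift (fun x => min (P x) (P (x - (8 : ℝ) • u n))) (-((4 : ℝ) • u n))]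
      refine finsum_congr fun x => ?_
      rw [min_comm]
      congr 2
      module
    have hmean : mean (lift (fun x => P (x - (4 : ℝ) • u n)) (fun x => P (x - -((4 : ℝ) • u n))))
        = (mean P, (1 / 2 : ℝ) * ov P ((8 : ℝ) • u n)) := by
      rw [mean_lift ha hb, hβ]
      congr 1
      have e1 := mean_shift hP ((4 : ℝ) • u n)
      have e2 := mean_shift hP (-((4 : ℝ) • u n))
      unfold mean at *
      rw [e1, e2]
      module
    rw [hmean] at h1 h2 h3
    simp only [Prod.fst_add, Prod.snd_add, Prod.fst_sum, Prod.snd_sum, Prod.smul_fst,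
      Prod.smul_snd, smul_zero, Finset.sum_const_zero, add_zero] at h1 h2 h3
    have hov := ho n (Nat.lt_succ_self n)
    have hα := abs_le.1 h1
    have hmn := abs_le.1 (hm n g)
    have final : ∀ τ : ℝ, (τ = m n g + 1 ∨ τ = m n g - 1) →
        mean P + ∑ i ∈ range n, g i • u i + τ • u n ∈ K →
        ∃ g : ℕ → ℝ, (∀ t < n + 1, g t = m t g + 1 ∨ g t = m t g - 1) ∧
          mean P + ∑ i ∈ range (n + 1), g i • u i ∈ K := by
      intro τ hτ hmem
      have hcg : ∀ t ≤ n, m t (Function.update g n τ) = m t g := fun t ht =>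
        hc t _ _ fun i hi => Function.update_of_ne (by omega) _ _
      refine ⟨Function.update g n τ, fun t ht => ?_, ?_⟩
      · rw [hcg t (by omega)]
        rcases Nat.lt_succ_iff_lt_or_eq.1 ht with h | h
        · rw [Function.update_of_ne h.ne]; exact hg t h
        · subst h; rw [Function.update_self]; exact hτ
      · rw [Finset.sum_range_succ, Function.update_self, ← add_assoc,
          Finset.sum_congr rfl fun i hi => by
            rw [Function.update_of_ne (Finset.mem_range.1 hi).ne]]
        exact hmem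
    rcases le_total 0 α with h | h
    · exact final _ (Or.inl rfl) (convex_line hK _ _ h2 h3 (by linarith) (by linarith))
    · exact final _ (Or.inr rfl) (convex_line hK _ _ h2 h3 (by linarith) (by linarith))

end Crest.Agent.R239
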