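import Crest.Agent.R239.Col
import Crest.Agent.R239.Dom
import Crest.Agent.R239.Cmp

/-! # One level: greedy windows -/

set_option autoImplicit false
set_option linter.unusedSectionVars false

namespace Crest.Agent.R239

open Finset Module
open scoped InnerProductSpace

variable {E : Type} [NormedAddCommGroup E] [InnerProductSpace ℝ E] [FiniteDimensional ℝ E]

namespace Sys
variable (S : Sys E)

theorem nn_nonneg (k a : ℕ) : 0 ≤ S.nn k a :=
  sum_nonneg fun j _ => div_nonneg (S.lam_pos k).le (add_pos (S.mu_pos a j) (S.lam_pos k)).le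

theorem clock_nonneg (k s : ℕ) : 0 ≤ S.clock k s := by
  unfold clock
  split_ifs <;> positivity

theorem qq_nonneg (k t : ℕ) : 0 ≤ S.qq k t := sum_nonneg fun _ _ => sq_nonneg _

theorem bud_nonneg (N k s : ℕ) : 0 ≤ S.bud N k s := by
  unfold bud
  refine add_nonneg ?_ (sum_nonneg fun k' _ => mul_nonneg (by positivity)
    (nW_nonneg (fun i => (S.w_pos i).le) _))
  split_ifs
  · exact (S.lam_pos k).le
  · exact le_rfl

/-- the bound for the band energy at level `k` -/
noncomputable def bnd (Γ : ℝ) (k t : ℕ) (g : G) : ℝ :=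
  12 * (111 * Γ) ^ 2 * (3 + 1 / eps) * (8 / del * ∑ i, Gf (S.lam k) (S.μ t i)) +
    S.err k t (S.Y k t g)

/-- one window -/
theorem win (N k : ℕ) {Γ : ℝ} (hΓ : 0 < Γ) {a b : ℕ} (hab : a ≤ b)
    (hc : ∑ s ∈ Ico a b, S.clock k s ≤ S.nn k a / 4) :
    Ctl N S.w {g | ∀ t, a ≤ t → t ≤ b → S.beta k t (S.Y k t g) ≤ S.bnd Γ k t g}
      (1100 / Γ ^ 2 * (S.lam k * ((3 + 1 / eps) * S.nn k a) + ∑ s ∈ Ico a b, S.bud N k s)) := by
  obtain ⟨C, _, τ, z, hτ, hz, hcard, hdom⟩ := S.dom k hab
  have hn := S.nn_nonneg k a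
  have hhv : (0 : ℝ) ≤ (S.hv k a b).card := Nat.cast_nonneg _
  have hcard' : (Fintype.card C : ℝ) ≤ (3 + 1 / eps) * S.nn k a := by
    have h1 := (S.window k hab hc).1
    have hD : 0 ≤ S.Dd k a b := by
      refine sum_nonneg fun j _ => ?_
      have h2 := S.norm_T_le a b (S.p a j)
      rw [(S.p a).orthonormal.1 j] at h2
      nlinarith [norm_nonneg (S.T a b (S.p a j))]
    nlinarith
  refine (S.col N k a b hΓ τ z hτ hz).mono (fun g hg t hat htb => ?_) ?_
  · have h1 := hg t hat htb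
    have h2 := hdom t hat htb (S.Y k t g)
    have hc' : ∑ s ∈ Ico a t, S.clock k s ≤ S.nn k a / 4 :=
      le_trans (sum_le_sum_of_subset_of_nonneg (Ico_subset_Ico_right htb)
        fun s _ _ => S.clock_nonneg k s) hc
    have h3 := (S.window k hat hc').2.2
    have he : 0 ≤ 3 + 1 / eps := by have := eps_pos; positivity
    have h4 : (Fintype.card C : ℝ) ≤ (3 + 1 / eps) * (8 / del * ∑ i, Gf (S.lam k) (S.μ t i)) :=
      hcard'.trans (mul_le_mul_of_nonneg_left h3 he)
    have h5 := mul_le_mul_of_nonneg_left h4 (sq_nonneg (111 * Γ))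
    unfold bnd
    nlinarith
  · refine mul_le_mul_of_nonneg_left ?_ (by positivity)
    have := mul_le_mul_of_nonneg_left hcard' (S.lam_pos k).le
    linarith

/-- **Level lemma** -/
theorem level (N k : ℕ) {Γ : ℝ} (hΓ : 0 < Γ) (a : ℕ) (ha : a ≤ N) :
    Ctl N S.w {g | ∀ t, a ≤ t → t ≤ N → S.beta k t (S.Y k t g) ≤ S.bnd Γ k t g}
      (1100 / Γ ^ 2 * ((3 + 1 / eps) *
        (4 * ∑ s ∈ Ico a N, S.lam k * S.clock k s + 2 * (S.lam k * S.qq k N)) +
          ∑ s ∈ Ico a N, S.bud N k s)) := by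
  induction' hn : N - a using Nat.strong_induction_on with n ih generalizing a
  have he : 0 ≤ 3 + 1 / eps := by have := eps_pos; positivity
  have hl := S.lam_pos k
  have hΓ' : 0 ≤ 1100 / Γ ^ 2 := by positivity
  by_cases hfin : ∑ s ∈ Ico a N, S.clock k s ≤ S.nn k a / 4
  · refine (S.win N k hΓ ha hfin).mono le_rfl (mul_le_mul_of_nonneg_left ?_ hΓ')
    have h1 := (S.window k ha hfin).2.1
    have h2 : 0 ≤ ∑ s ∈ Ico a N, S.lam k * S.clock k s :=
      sum_nonneg fun s _ => mul_nonneg hl.le (S.clock_nonneg k s)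
    have h3 : S.lam k * S.nn k a ≤
        4 * ∑ s ∈ Ico a N, S.lam k * S.clock k s + 2 * (S.lam k * S.qq k N) := by
      nlinarith [mul_le_mul_of_nonneg_left h1 hl.le]
    have h4 := mul_le_mul_of_nonneg_left h3 he
    nlinarith
  · -- first overshoot
    have hex : ∃ b, S.nn k a / 4 < ∑ s ∈ Ico a (b + 1), S.clock k s := by
      have hN : a < N := by
        rcases ha.lt_or_eq with h | h
        · exact h
        · exfalso; apply hfin; subst h; simpa using by linarith [S.nn_nonneg k a]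
      refine ⟨N - 1, ?_⟩
      rw [Nat.sub_add_cancel (by omega)]
      exact not_le.1 hfin
    classical
    let b := Nat.find hex
    have hb : S.nn k a / 4 < ∑ s ∈ Ico a (b + 1), S.clock k s := Nat.find_spec hex
    have hab : a ≤ b := by
      by_contra hlt
      rw [Ico_eq_empty (by omega), sum_empty] at hb
      linarith [S.nn_nonneg k a]
    have hbN : b + 1 ≤ N := by
      by_contra hlt
      have hN : a < N := by
        rcases ha.lt_or_eq with h | h
        · exact h
        · exfalso; apply hfin; subst h; simpa using by linarith [S.nn_nonneg k a]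
      have := Nat.find_min hex (m := N - 1) (by omega)
      rw [Nat.sub_add_cancel (by omega)] at this
      exact this (not_le.1 hfin)
    have hc : ∑ s ∈ Ico a b, S.clock k s ≤ S.nn k a / 4 := by
      rcases hab.lt_or_eq with h | h
      · have := Nat.find_min hex (m := b - 1) (by omega)
        rw [Nat.sub_add_cancel (by omega)] at this
        exact not_lt.1 this
      · rw [← h]; simpa using by linarith [S.nn_nonneg k a]
    have h1 := S.win N k hΓ hab hc
    have h2 := ih (N - (b + 1)) (by omega) (b + 1) hbN rfl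
    refine (h1.inter h2).mono (fun g hg t hat htN => ?_) ?_
    · rcases le_or_gt t b with h | h
      · exact hg.1 t hat h
      · exact hg.2 t h htN
    · rw [← mul_add]
      refine mul_le_mul_of_nonneg_left ?_ hΓ'
      have e1 : ∑ s ∈ Ico a N, S.lam k * S.clock k s =
          ∑ s ∈ Ico a (b + 1), S.lam k * S.clock k s +
            ∑ s ∈ Ico (b + 1) N, S.lam k * S.clock k s :=
        (sum_Ico_consecutive _ (by omega) hbN).symm
      have e2 : ∑ s ∈ Ico a N, S.bud N k s =
          ∑ s ∈ Ico a (b + 1), S.bud N k s + ∑ s ∈ Ico (b + 1) N, S.bud N k s :=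
        (sum_Ico_consecutive _ (by omega) hbN).symm
      have e3 : ∑ s ∈ Ico a b, S.bud N k s ≤ ∑ s ∈ Ico a (b + 1), S.bud N k s :=
        sum_le_sum_of_subset_of_nonneg (Ico_subset_Ico_right (by omega))
          fun s _ _ => S.bud_nonneg N k s
      have e4 : S.lam k * S.nn k a ≤ 4 * ∑ s ∈ Ico a (b + 1), S.lam k * S.clock k s := by
        rw [← mul_sum]; nlinarith
      have e5 := mul_le_mul_of_nonneg_left e4 he
      rw [e1, e2]
      nlinarith

/-- the constant in the cost of all levels -/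
noncomputable def cC : ℝ := 1100 * ((3 + 1 / eps) * (4 * (12 / del + 6 / eps) + 4 / del) + 1200)

/-- the constant in the bound for the state -/
noncomputable def cB : ℝ := 40 * (12 * 111 ^ 2 * (3 + 1 / eps) * (8 / del * 2))

/-- **All levels.**  If `A` bounds `om * d + ∑ w ‖φ‖²` and `∑ w`, then the states are controlled
at cost `cC * A / Γ²`. -/
theorem all_levels (N : ℕ) {Γ : ℝ} (hΓ : 0 < Γ) {W A : ℝ} (hW : ∀ s, S.w s ≤ W)
    (hA : S.om * finrank ℝ E + ∑ t ∈ range N, S.w t * ‖S.φ t‖ ^ 2 ≤ A)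
    (hA' : ∑ t ∈ range N, S.w t ≤ A) :
    Ctl N S.w {g | ∀ t, t ≤ N → ‖S.st t g‖ ^ 2 ≤ cB * Γ ^ 2 * finrank ℝ E} (cC * A / Γ ^ 2) := by
  obtain ⟨K, hK⟩ : ∃ K : ℕ, W ≤ S.lam K := by
    obtain ⟨K, hK⟩ := pow_unbounded_of_one_lt (W / S.om) (by norm_num : (1 : ℝ) < 4)
    exact ⟨K, by rw [div_lt_iff₀ S.om_pos] at hK; exact hK.le⟩
  have he : 0 ≤ 3 + 1 / eps := by have := eps_pos; positivity
  have hd := del_pos
  have hε := eps_pos
  have h := Ctl.biInter (range (K + 1)) _ _ fun k _ => S.level N k hΓ 0 (Nat.zero_le N)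
  refine h.mono (fun g hg t ht => ?_) ?_
  · have h1 := S.sum_beta hW hK t g
    have h2 : ∑ k ∈ range (K + 1), S.beta k t (S.Y k t g) ≤ ∑ k ∈ range (K + 1), S.bnd Γ k t g :=
      sum_le_sum fun k hk => hg k hk t (Nat.zero_le t) ht
    simp only [bnd, sum_add_distrib, ← mul_sum] at h2
    have h3 := S.sum_err (K + 1) t g
    have h4 := S.sum_Gf (K + 1) t
    have h5 : 12 * (111 * Γ) ^ 2 * (3 + 1 / eps) *
        (8 / del * ∑ k ∈ range (K + 1), ∑ i, Gf (S.lam k) (S.μ t i)) ≤
        12 * (111 * Γ) ^ 2 * (3 + 1 / eps) * (8 / del * (2 * finrank ℝ E)) :=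
      mul_le_mul_of_nonneg_left (mul_le_mul_of_nonneg_left h4 (by positivity)) (by positivity)
    have h6 : cB * Γ ^ 2 * finrank ℝ E =
        40 * (12 * (111 * Γ) ^ 2 * (3 + 1 / eps) * (8 / del * (2 * finrank ℝ E))) := by
      unfold cB; ring
    rw [h6]
    linarith
  · have htr := S.trace_id N
    have hφ : ∀ t, 0 ≤ ⟪S.φ t, S.M t (S.φ t)⟫_ℝ := fun t => S.M_nonneg t _
    have hs1 : 0 ≤ ∑ t ∈ range N, ⟪S.φ t, S.M t (S.φ t)⟫_ℝ := sum_nonneg fun t _ => hφ t
    have hs2 : 0 ≤ ∑ j, S.μ N j := sum_nonneg fun j _ => (S.mu_pos N j).le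
    have hP : ∑ t ∈ range N, ⟪S.φ t, S.M t (S.φ t)⟫_ℝ ≤ A := by linarith
    have hM : ∑ j, S.μ N j ≤ A := by linarith
    have c1 : ∑ k ∈ range (K + 1), ∑ s ∈ Ico 0 N, S.lam k * S.clock k s ≤
        (12 / del + 6 / eps) * A := by
      rw [sum_comm, ← range_eq_Ico]
      refine (sum_le_sum fun s _ => S.sum_clock (K + 1) s).trans ?_
      rw [sum_add_distrib, ← mul_sum, ← mul_sum, sum_add_distrib]
      have a1 : 6 / del * (∑ t ∈ range N, ⟪S.φ t, S.M t (S.φ t)⟫_ℝ + ∑ t ∈ range N, S.w t) ≤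
          6 / del * (A + A) := mul_le_mul_of_nonneg_left (add_le_add hP hA') (by positivity)
      have a2 : 6 / eps * ∑ t ∈ range N, S.w t ≤ 6 / eps * A :=
        mul_le_mul_of_nonneg_left hA' (by positivity)
      calc _ ≤ 6 / del * (A + A) + 6 / eps * A := add_le_add a1 a2
        _ = _ := by ring
    have c2 : ∑ k ∈ range (K + 1), S.lam k * S.qq k N ≤ 2 / del * A :=
      (S.sum_qq (K + 1) N).trans (mul_le_mul_of_nonneg_left hM (by positivity))
    have c3 : ∑ k ∈ range (K + 1), ∑ s ∈ Ico 0 N, S.bud N k s ≤ 1200 * A := by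
      rw [sum_comm, ← range_eq_Ico]
      refine (sum_le_sum fun s _ => S.sum_bud N (K + 1) s).trans ?_
      rw [← mul_sum, sum_add_distrib]
      linarith
    rw [← mul_sum, sum_add_distrib, ← mul_sum, sum_add_distrib, ← mul_sum, ← mul_sum]
    have c4 : (3 + 1 / eps) * (4 * ∑ k ∈ range (K + 1), ∑ s ∈ Ico 0 N, S.lam k * S.clock k s +
        2 * ∑ k ∈ range (K + 1), S.lam k * S.qq k N) ≤
        (3 + 1 / eps) * (4 * ((12 / del + 6 / eps) * A) + 2 * (2 / del * A)) :=
      mul_le_mul_of_nonneg_left (by linarith) he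
    calc _ ≤ 1100 / Γ ^ 2 *
          ((3 + 1 / eps) * (4 * ((12 / del + 6 / eps) * A) + 2 * (2 / del * A)) + 1200 * A) :=
          mul_le_mul_of_nonneg_left (add_le_add c4 c3) (by positivity)
      _ = cC * A / Γ ^ 2 := by unfold cC; ring

end Sys

end Crest.Agent.R239
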