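import Crest.Agent.R239.KL
import Crest.Agent.R239.Dens

/-! # Minimax over the weights, and Part I -/

set_option autoImplicit false

namespace Crest.Agent.R239

open Finset

section mix

variable {V : Type} [AddCommGroup V] [Module ℝ V]

theorem mini_fin_mix {P Q : V → ℝ} (hP : IsDist P) (hQ : IsDist Q) (a b : ℝ) :
    Function.support (fun x => a * P x + b * Q x) ⊆ Function.support P ∪ Function.support Q := by
  intro x hx
  by_contra h
  simp only [Set.mem_union, Function.mem_support, not_or, not_not] at h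
  exact hx (by simp [h.1, h.2])

theorem mini_isDist_mix {P Q : V → ℝ} (hP : IsDist P) (hQ : IsDist Q) {a b : ℝ} (ha : 0 ≤ a)
    (hb : 0 ≤ b) (hab : a + b = 1) : IsDist (fun x => a * P x + b * Q x) where
  fin := (hP.fin.union hQ.fin).subset (mini_fin_mix hP hQ a b)
  nonneg x := add_nonneg (mul_nonneg ha (hP.nonneg x)) (mul_nonneg hb (hQ.nonneg x))
  total := by
    rw [finsum_add_distrib (hP.fin.subset fun x hx => right_ne_zero_of_mul hx)
      (hQ.fin.subset fun x hx => right_ne_zero_of_mul hx), ← mul_finsum _ _, ← mul_finsum _ _,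
      hP.total, hQ.total]
    linarith

theorem mini_mean_mix {P Q : V → ℝ} (hP : IsDist P) (hQ : IsDist Q) (a b : ℝ) :
    mean (fun x => a * P x + b * Q x) = a • mean P + b • mean Q := by
  have h1 : (Function.support fun x => P x • x).Finite :=
    hP.fin.subset fun x hx h => hx (by simp [h])
  have h2 : (Function.support fun x => Q x • x).Finite :=
    hQ.fin.subset fun x hx h => hx (by simp [h])
  simp only [mean, add_smul, mul_smul]
  rw [finsum_add_distrib (h1.subset fun x hx h => hx (by simp only at h; simp [h]))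
    (h2.subset fun x hx h => hx (by simp only at h; simp [h])), smul_finsum' _ h1,
    smul_finsum' _ h2]

theorem mini_fin_min {P : V → ℝ} (hP : IsDist P) (u : V) :
    (Function.support fun x => min (P x) (P (x - u))).Finite :=
  hP.fin.subset fun x hx h => hx (by simp only [h]; exact min_eq_left (hP.nonneg _))

theorem mini_ov_mix {P Q : V → ℝ} (hP : IsDist P) (hQ : IsDist Q) {a b : ℝ} (ha : 0 ≤ a)
    (hb : 0 ≤ b) (hab : a + b = 1) (u : V) :
    a * ov P u + b * ov Q u ≤ ov (fun x => a * P x + b * Q x) u := by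
  have h1 := mini_fin_min hP u
  have h2 := mini_fin_min hQ u
  have h1' : (Function.support fun x => a * min (P x) (P (x - u))).Finite :=
    h1.subset fun x hx => right_ne_zero_of_mul hx
  have h2' : (Function.support fun x => b * min (Q x) (Q (x - u))).Finite :=
    h2.subset fun x hx => right_ne_zero_of_mul hx
  simp only [ov]
  rw [mul_finsum _ _, mul_finsum _ _, ← finsum_add_distrib h1' h2']
  refine finsum_le_finsum' ((h1'.union h2').subset (Function.support_add _ _))
    (mini_fin_min (mini_isDist_mix hP hQ ha hb hab) u) fun x => ?_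
  refine le_min (add_le_add ?_ ?_) (add_le_add ?_ ?_)
  · exact mul_le_mul_of_nonneg_left (min_le_left _ _) ha
  · exact mul_le_mul_of_nonneg_left (min_le_left _ _) hb
  · exact mul_le_mul_of_nonneg_left (min_le_right _ _) ha
  · exact mul_le_mul_of_nonneg_left (min_le_right _ _) hb

open Classical in
theorem mini_dirac : ∃ P : V → ℝ, IsDist P ∧ mean P = 0 ∧ Function.support P ⊆ {0} := by
  have hs : Function.support (fun x : V => if x = 0 then (1 : ℝ) else 0) ⊆ {0} := by
    intro x hx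
    by_contra h
    exact hx (if_neg h)
  refine ⟨fun x => if x = 0 then 1 else 0, ⟨(Set.finite_singleton 0).subset hs, fun x => ?_, ?_⟩,
    ?_, hs⟩
  · split_ifs <;> norm_num
  · rw [finsum_eq_single _ 0 fun x hx => if_neg hx, if_pos rfl]
  · have : (fun x : V => (if x = 0 then (1 : ℝ) else 0) • x) = fun _ => 0 := by
      funext x
      split_ifs with h <;> simp [h]
    simp only [mean, this, finsum_zero]

end mix

/-- **Minimax.**  In `Fin N → ℝ` let
`𝒞 = {y | ∃ P, IsDist P ∧ mean P = 0 ∧ support P ⊆ Ω ∧ ∀ i, 1 - ov P (8 • e i) ≤ y i}`;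
it is convex (mixtures `a P + b Q`; `min (a p + b q) (a p' + b q') ≥ a min p p' + b min q q'`)
and nonempty (`P = Pi.single 0 1`, as `0 ∈ Ω`).  Let `U = {y | ∀ i, y i < 1/8}` (open, convex).
If `U` and `𝒞` were disjoint, `geometric_hahn_banach_open` gives `f, c` with `f < c` on `U`,
`c ≤ f` on `𝒞`; `f y = ∑ i, w i * y i` with `w i = f (Pi.single i 1) ≥ 0` (`U` is unbounded
below), `c ≥ f (1/9) = W/9` and `c > f 0 = 0`.  If `W = 0` then `f = 0` contradicts `𝒞` nonempty;
else the hypothesis (for `w` extended by `0`) gives a point of `𝒞` with `f ≤ W/10 < c`. -/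
theorem minimax (N : ℕ) (Ω : Set G) (h0 : (0 : G) ∈ Ω)
    (hD : ∀ w : ℕ → ℝ, (∀ i, 0 ≤ w i) → 0 < ∑ i ∈ range N, w i →
      ∃ P : G → ℝ, IsDist P ∧ mean P = 0 ∧ Function.support P ⊆ Ω ∧
        ∑ i ∈ range N, w i * (1 - ov P ((8 : ℝ) • e i)) ≤ (∑ i ∈ range N, w i) / 10) :
    ∃ P : G → ℝ, IsDist P ∧ mean P = 0 ∧ Function.support P ⊆ Ω ∧
      ∀ i < N, 7 / 8 ≤ ov P ((8 : ℝ) • e i) := by
  by_contra hcon
  let 𝒞 : Set (Fin N → ℝ) := {y | ∃ P : G → ℝ, IsDist P ∧ mean P = 0 ∧
    Function.support P ⊆ Ω ∧ ∀ i : Fin N, 1 - ov P ((8 : ℝ) • e i) ≤ y i}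
  let U : Set (Fin N → ℝ) := {y | ∀ i, y i < 1 / 8}
  have hUo : IsOpen U := by
    have : U = ⋂ i, {y : Fin N → ℝ | y i < 1 / 8} := by ext y; simp [U]
    rw [this]
    exact isOpen_iInter_of_finite fun i => isOpen_lt (continuous_apply i) continuous_const
  have hUc : Convex ℝ U := by
    have : U = ⋂ i, {y : Fin N → ℝ | y i < 1 / 8} := by ext y; simp [U]
    rw [this]
    exact convex_iInter fun i =>
      convex_halfSpace_lt (LinearMap.proj (R := ℝ) (φ := fun _ : Fin N => ℝ) i).isLinear _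
  have hCc : Convex ℝ 𝒞 := by
    rintro y ⟨P, hP, mP, sP, oP⟩ z ⟨Q, hQ, mQ, sQ, oQ⟩ a b ha hb hab
    refine ⟨fun x => a * P x + b * Q x, mini_isDist_mix hP hQ ha hb hab, ?_, ?_, fun i => ?_⟩
    · rw [mini_mean_mix hP hQ, mP, mQ]; simp
    · exact (mini_fin_mix hP hQ a b).trans (Set.union_subset sP sQ)
    · have h1 := mini_ov_mix hP hQ ha hb hab ((8 : ℝ) • e i)
      have h2 := mul_le_mul_of_nonneg_left (oP i) ha
      have h3 := mul_le_mul_of_nonneg_left (oQ i) hb
      simp only [Pi.add_apply, Pi.smul_apply, smul_eq_mul]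
      nlinarith
  have hdis : Disjoint U 𝒞 := by
    rw [Set.disjoint_left]
    rintro y hy ⟨P, hP, mP, sP, oP⟩
    refine hcon ⟨P, hP, mP, sP, fun i hi => ?_⟩
    have h1 := oP ⟨i, hi⟩
    have h2 := hy ⟨i, hi⟩
    simp only at h1
    linarith
  obtain ⟨f, c, hf1, hf2⟩ := geometric_hahn_banach_open hUc hUo hCc hdis
  set w : Fin N → ℝ := fun i => f (Pi.single i 1) with hw
  have hfy : ∀ y : Fin N → ℝ, f y = ∑ i, w i * y i := fun y => by
    conv_lhs => rw [← Finset.univ_sum_single y]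
    rw [map_sum]
    refine sum_congr rfl fun i _ => ?_
    rw [show (Pi.single i (y i) : Fin N → ℝ) = y i • Pi.single i 1 by
      rw [← Pi.single_smul, smul_eq_mul, mul_one], map_smul, smul_eq_mul, mul_comm]
  have hc0 : 0 < c := by simpa using hf1 0 fun i => by norm_num
  have hw0 : ∀ i, 0 ≤ w i := fun i => by
    by_contra hi
    push Not at hi
    have h1 := hf1 ((c / w i) • Pi.single i 1) fun j => by
      have : c / w i < 0 := div_neg_of_pos_of_neg hc0 hi
      simp only [Pi.smul_apply, smul_eq_mul, Pi.single_apply]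
      split_ifs <;> linarith
    rw [map_smul, smul_eq_mul] at h1
    change c / w i * w i < c at h1
    rw [div_mul_cancel₀ _ hi.ne] at h1
    exact lt_irrefl _ h1
  have h9 : (∑ i, w i) / 9 < c := by
    have := hf1 (fun _ => 1 / 9) fun i => by norm_num
    rw [hfy, ← sum_mul] at this
    linarith
  let w' : ℕ → ℝ := fun i => if h : i < N then w ⟨i, h⟩ else 0
  have hsum : ∀ g : ℕ → ℝ, ∑ i ∈ range N, w' i * g i = ∑ i : Fin N, w i * g i := fun g => by
    rw [← Fin.sum_univ_eq_sum_range (fun i => w' i * g i)]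
    exact sum_congr rfl fun i _ => by simp [w']
  have hsum1 : ∑ i ∈ range N, w' i = ∑ i : Fin N, w i := by simpa using hsum fun _ => 1
  rcases (sum_nonneg fun i (_ : i ∈ univ) => hw0 i).eq_or_lt with hW | hW
  · obtain ⟨P, hP, mP, sP⟩ := mini_dirac (V := G)
    have h1 := hf2 (fun i => 1 - ov P ((8 : ℝ) • e i))
      ⟨P, hP, mP, sP.trans (Set.singleton_subset_iff.2 h0), fun i => le_rfl⟩
    have h2 : ∀ i ∈ univ, w i = 0 := (sum_eq_zero_iff_of_nonneg fun i _ => hw0 i).1 hW.symm
    rw [hfy, sum_eq_zero fun i hi => by rw [h2 i hi, zero_mul]] at h1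
    linarith
  · obtain ⟨P, hP, mP, sP, oP⟩ := hD w' (fun i => by
      simp only [w']
      split_ifs
      exacts [hw0 _, le_rfl]) (by rwa [hsum1])
    have h1 := hf2 (fun i => 1 - ov P ((8 : ℝ) • e i)) ⟨P, hP, mP, sP, fun i => le_rfl⟩
    rw [hsum, hsum1] at oP
    rw [hfy] at h1
    linarith

/-- **Part I.** -/
theorem partI (N : ℕ) (Ω : Set G) (hΩ : Convex ℝ Ω) (h0 : (0 : G) ∈ Ω)
    (hC : ∀ w : ℕ → ℝ, (∀ i, 0 ≤ w i) → 0 < ∑ i ∈ range N, w i →
      Ctl N w Ω ((∑ i ∈ range N, w i) / 2 ^ 20))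
    (m : ℕ → (ℕ → ℝ) → ℝ)
    (hc : ∀ t g g', (∀ i < t, g i = g' i) → m t g = m t g')
    (hm : ∀ t g, |m t g| ≤ 1 / 2) :
    ∃ g : ℕ → ℝ, (∀ t < N, g t = m t g + 1 ∨ g t = m t g - 1) ∧
      ∑ i ∈ range N, g i • e i ∈ Ω := by
  obtain ⟨P, hP, hm0, hs, ho⟩ := minimax N Ω h0 fun w hw hpos => dens N w hw hpos Ω (hC w hw hpos)
  obtain ⟨g, hg, hK⟩ := kl N m hc hm G P e Ω hP hΩ hs ho
  exact ⟨g, hg, by simpa [hm0] using hK⟩

end Crest.Agent.R239
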