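import Crest.Agent.R239.Lev
import Crest.Agent.R239.Mini

/-! # Assembly -/

set_option autoImplicit false
set_option linter.unusedSectionVars false

namespace Crest.Agent.R239

open Finset Module
open scoped InnerProductSpace

variable {E : Type} [NormedAddCommGroup E] [InnerProductSpace ℝ E] [FiniteDimensional ℝ E]

theorem st_congr {S S' : Sys E} (h : S.φ = S'.φ) (t : ℕ) : S.st t = S'.st t := by
  induction t with
  | zero => rfl
  | succ t ih => simp only [Sys.st, ih, h]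

theorem cC_pos : 0 < Sys.cC := by
  have := eps_pos; have := del_pos
  unfold Sys.cC; positivity

theorem cB_pos : 0 < Sys.cB := by
  have := eps_pos; have := del_pos
  unfold Sys.cB; positivity

/-- the radius constant -/
noncomputable def cR : ℝ := √(Sys.cB * (2 ^ 22 * Sys.cC))

/-- the convex body -/
def Om (S : Sys E) (N : ℕ) : Set G :=
  {g | (∀ t, t ≤ N → ‖S.st t g‖ ≤ cR * √(finrank ℝ E)) ∧
    ∀ t ∈ range N, |gam (S.φ t) * ⟪S.φ t, S.st t g⟫_ℝ| ≤ 1 / 2}

theorem Om_convex (S : Sys E) (N : ℕ) : Convex ℝ (Om S N) := by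
  intro x hx y hy a b ha hb hab
  refine ⟨fun t ht => ?_, fun t ht => ?_⟩
  · rw [map_add, map_smul, map_smul]
    refine (norm_add_le _ _).trans ?_
    rw [norm_smul, norm_smul, Real.norm_of_nonneg ha, Real.norm_of_nonneg hb]
    have h1 := mul_le_mul_of_nonneg_left (hx.1 t ht) ha
    have h2 := mul_le_mul_of_nonneg_left (hy.1 t ht) hb
    have : a * (cR * √(finrank ℝ E)) + b * (cR * √(finrank ℝ E)) = cR * √(finrank ℝ E) := by
      rw [← add_mul, hab, one_mul]
    linarith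
  · rw [map_add, map_smul, map_smul, inner_add_right, inner_smul_right, inner_smul_right]
    have h1 := abs_le.1 (hx.2 t ht)
    have h2 := abs_le.1 (hy.2 t ht)
    rw [abs_le]
    constructor <;> nlinarith [mul_le_mul_of_nonneg_left h1.1 ha, mul_le_mul_of_nonneg_left h1.2 ha,
      mul_le_mul_of_nonneg_left h2.1 hb, mul_le_mul_of_nonneg_left h2.2 hb]

theorem Om_zero (S : Sys E) (N : ℕ) : (0 : G) ∈ Om S N := by
  refine ⟨fun t _ => ?_, fun t _ => ?_⟩
  · rw [map_zero, norm_zero]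
    exact mul_nonneg (Real.sqrt_nonneg _) (Real.sqrt_nonneg _)
  · simp

/-- **Part II.** -/
theorem partII (S₀ : Sys E) (hφ : ∀ t, ‖S₀.φ t‖ ^ 2 ≤ 1 / 2 ^ 26) (N : ℕ) (w : ℕ → ℝ)
    (hw : ∀ i, 0 ≤ w i) (hpos : 0 < ∑ i ∈ range N, w i) :
    Ctl N w (Om S₀ N) ((∑ i ∈ range N, w i) / 2 ^ 20) := by
  set W := ∑ i ∈ range N, w i with hWdef
  set d : ℝ := ((finrank ℝ E : ℕ) : ℝ) with hd
  have hd0 : 0 ≤ d := Nat.cast_nonneg _
  have hN0 : (0 : ℝ) ≤ N := Nat.cast_nonneg _
  set om : ℝ := W / 2 ^ 26 / (N + d + 1) with hom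
  have hom0 : 0 < om := by positivity
  have homN : om * N ≤ W / 2 ^ 26 := by
    rw [hom, div_mul_eq_mul_div, div_le_iff₀ (by positivity)]
    exact mul_le_mul_of_nonneg_left (by linarith) (by positivity)
  have homd : om * d ≤ W / 2 ^ 26 := by
    rw [hom, div_mul_eq_mul_div, div_le_iff₀ (by positivity)]
    exact mul_le_mul_of_nonneg_left (by linarith) (by positivity)
  let S : Sys E :=
    { φ := S₀.φ
      w := fun i => (if i < N then w i else 0) + om
      om := om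
      om_pos := hom0
      hφ := S₀.hφ
      hw := fun i => by
        have := hw i
        split_ifs <;> linarith }
  have hSw : ∀ i, S.w i = (if i < N then w i else 0) + om := fun _ => rfl
  have hst : ∀ t, S.st t = S₀.st t := st_congr rfl
  have hWb : ∀ s, S.w s ≤ W + om := fun s => by
    rw [hSw]
    split_ifs with h
    · have := single_le_sum (f := w) (fun i _ => hw i) (mem_range.2 h)
      linarith
    · linarith
  have hsum : ∑ t ∈ range N, S.w t ≤ 2 * W := by
    have : ∑ t ∈ range N, S.w t = W + N * om := by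
      simp only [hSw, sum_add_distrib, sum_const, card_range, nsmul_eq_mul]
      congr 1
      exact sum_congr rfl fun i hi => if_pos (mem_range.1 hi)
    rw [this]
    nlinarith
  have hA0 : S.om * finrank ℝ E + ∑ t ∈ range N, S.w t * ‖S.φ t‖ ^ 2 ≤ 3 * W / 2 ^ 26 := by
    have h1 : ∑ t ∈ range N, S.w t * ‖S.φ t‖ ^ 2 ≤ ∑ t ∈ range N, S.w t * (1 / 2 ^ 26) :=
      sum_le_sum fun t _ => mul_le_mul_of_nonneg_left (hφ t) (S.w_pos t).le
    rw [← sum_mul] at h1
    have h2 : S.om * finrank ℝ E ≤ W / 2 ^ 26 := homd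
    nlinarith
  have hΓ : 0 < √(2 ^ 22 * Sys.cC) := Real.sqrt_pos.2 (by have := cC_pos; positivity)
  have hΓ2 : √(2 ^ 22 * Sys.cC) ^ 2 = 2 ^ 22 * Sys.cC :=
    Real.sq_sqrt (by have := cC_pos; positivity)
  have h1 := S.all_levels N hΓ hWb (A := 2 * W) (by nlinarith) hsum
  have h2 := Ctl.biInter (N := N) (w := S.w) (range N) _ _ fun t _ =>
    Ctl.slab (gam (S.φ t) • S.pair t (S.φ t)) (θ := 1 / 2) (by norm_num)
  refine Ctl.weight (w' := S.w) ((h1.inter h2).mono
    (fun g hg => And.intro (fun t ht => ?_) (fun t ht => ?_)) ?_) ?_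
  · have h3 := hg.1 t ht
    rw [hst, hΓ2] at h3
    rw [cR, ← Real.sqrt_mul (by have := cC_pos; have := cB_pos; positivity)]
    exact Real.le_sqrt_of_sq_le h3
  · have h3 : |(gam (S.φ t) • S.pair t (S.φ t)) g| ≤ 1 / 2 := hg.2 t ht
    rw [LinearMap.smul_apply, S.pair_apply, hst] at h3
    exact h3
  · have h3 : ∑ t ∈ range N, nW N S.w (gam (S.φ t) • S.pair t (S.φ t)) / (1 / 2) ^ 2 ≤
        ∑ t ∈ range N, 4 * ⟪S.φ t, S.M t (S.φ t)⟫_ℝ := by
      refine sum_le_sum fun t _ => ?_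
      rw [nW_smul]
      have a1 := S.nW_pair N t (S.φ t)
      have a2 := nW_nonneg (N := N) (fun i => (S.w_pos i).le) (S.pair t (S.φ t))
      have a3 := gam_pos (S.φ t)
      have a4 := gam_le_one (S.φ t)
      have a5 : gam (S.φ t) ^ 2 ≤ 1 := by nlinarith
      have a6 := mul_le_mul_of_nonneg_right a5 a2
      rw [div_le_iff₀ (by norm_num)]
      nlinarith
    rw [← mul_sum] at h3
    have htr := S.trace_id N
    have hs2 : 0 ≤ ∑ j, S.μ N j := sum_nonneg fun j _ => (S.mu_pos N j).le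
    have h4 : Sys.cC * (2 * W) / √(2 ^ 22 * Sys.cC) ^ 2 = W / 2 ^ 21 := by
      rw [hΓ2]; have := cC_pos; field_simp
    rw [h4]
    linarith
  · intro i hi
    rw [hSw, if_pos hi]
    linarith

/-- clamp to `[-1/2, 1/2]` -/
noncomputable def clamp (x : ℝ) : ℝ := max (-1 / 2) (min (1 / 2) x)

theorem abs_clamp (x : ℝ) : |clamp x| ≤ 1 / 2 := by
  rw [abs_le]
  refine ⟨by unfold clamp; linarith [le_max_left (-1 / 2 : ℝ) (min (1 / 2) x)], ?_⟩
  exact max_le (by norm_num) (min_le_left _ _)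

theorem clamp_eq {x : ℝ} (h : |x| ≤ 1 / 2) : clamp x = x := by
  obtain ⟨h1, h2⟩ := abs_le.1 h
  unfold clamp
  rw [min_eq_right h2, max_eq_right (by linarith)]

theorem signs (S : Sys E) (hφ : ∀ t, ‖S.φ t‖ ^ 2 ≤ 1 / 2 ^ 26) (N : ℕ) :
    ∃ σ : ℕ → ℝ, (∀ t < N, σ t = 1 ∨ σ t = -1) ∧
      ∀ k ≤ N, ‖∑ i ∈ range k, σ i • S.φ i‖ ≤ cR * √(finrank ℝ E) := by
  obtain ⟨g, hg, hΩ⟩ := partI N (Om S N) (Om_convex S N) (Om_zero S N) (partII S hφ N)
    (fun t g => clamp (gam (S.φ t) * ⟪S.φ t, S.st t g⟫_ℝ))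
    (fun t g g' h => by simp only [S.st_causal t h]) (fun t g => abs_clamp _)
  have hx : ∀ t ≤ N, S.st t (∑ i ∈ range N, g i • e i) = S.st t g := by
    intro t ht
    refine S.st_causal t fun i hi => ?_
    rw [Finset.sum_apply, sum_eq_single i]
    · simp [e]
    · intro j _ hj
      simp [e, Pi.single_eq_of_ne hj.symm]
    · intro h; exact absurd (mem_range.2 (by omega)) h
  refine ⟨fun t => g t - gam (S.φ t) * ⟪S.φ t, S.st t g⟫_ℝ, fun t ht => ?_, fun k hk => ?_⟩
  · have h1 := hΩ.2 t (mem_range.2 ht)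
    rw [hx t ht.le] at h1
    have h2 := hg t ht
    simp only [clamp_eq h1] at h2
    rcases h2 with h | h
    · left; linarith
    · right; linarith
  · have h1 := hΩ.1 k hk
    rw [hx k hk] at h1
    have h2 : ∀ k, S.st k g =
        ∑ i ∈ range k, (g i - gam (S.φ i) * ⟪S.φ i, S.st i g⟫_ℝ) • S.φ i := by
      intro k
      induction k with
      | zero => simp [Sys.st]
      | succ k ih =>
        rw [sum_range_succ, ← ih, S.st_succ, Ph_apply, sub_smul]
        abel
    rwa [h2] at h1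

theorem main :
    ∃ C : ℝ, ∀ (d N : ℕ) (v : Fin N → EuclideanSpace ℝ (Fin d)),
      (∀ i, ‖v i‖ ≤ 1) →
      ∃ ε : Fin N → ℤ, (∀ i, ε i = 1 ∨ ε i = -1) ∧
        ∀ k : ℕ, k ≤ N →
          ‖∑ i ∈ Finset.univ.filter (fun i : Fin N => (i : ℕ) < k), (ε i : ℝ) • v i‖ ≤
            C * Real.sqrt d := by
  refine ⟨2 ^ 13 * cR, fun d N v hv => ?_⟩
  let v' : ℕ → EuclideanSpace ℝ (Fin d) := fun t => if h : t < N then v ⟨t, h⟩ else 0
  have hv' : ∀ t, ‖v' t‖ ≤ 1 := fun t => by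
    simp only [v']
    split_ifs with h
    · exact hv _
    · simp
  have hφ : ∀ t, ‖((1 / 2 ^ 13 : ℝ)) • v' t‖ ^ 2 ≤ 1 / 2 ^ 26 := fun t => by
    rw [norm_smul, mul_pow, Real.norm_of_nonneg (by positivity)]
    have h1 : ‖v' t‖ ^ 2 ≤ 1 := by nlinarith [hv' t, norm_nonneg (v' t)]
    nlinarith
  let S : Sys (EuclideanSpace ℝ (Fin d)) :=
    { φ := fun t => ((1 / 2 ^ 13 : ℝ)) • v' t
      w := fun _ => 1
      om := 1
      om_pos := one_pos
      hφ := fun t => (hφ t).trans (by norm_num)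
      hw := fun _ => le_rfl }
  obtain ⟨σ, hσ, hb⟩ := signs S hφ N
  classical
  refine ⟨fun i => if σ i = 1 then 1 else -1, fun i => by dsimp only; split_ifs <;> simp, fun k hk => ?_⟩
  have h1 := hb k hk
  rw [finrank_euclideanSpace, Fintype.card_fin] at h1
  have h2 : ∑ i ∈ Finset.univ.filter (fun i : Fin N => (i : ℕ) < k),
      (((if σ i = 1 then 1 else -1 : ℤ) : ℝ)) • v i = ∑ i ∈ range k, σ i • v' i := by
    refine sum_bij (fun i _ => (i : ℕ)) (fun i hi => by simpa using hi)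
      (fun i _ j _ h => Fin.ext h) (fun j hj => ?_) (fun i _ => ?_)
    · have := mem_range.1 hj
      exact ⟨⟨j, by omega⟩, by simpa using this, rfl⟩
    · have h3 : v' i = v i := by simp [v', i.2]
      rw [h3]
      congr 1
      rcases hσ i i.2 with h | h
      · simp [h]
      · rw [if_neg (by rw [h]; norm_num), h]; simp
  have h3 : ∑ i ∈ range k, σ i • S.φ i = (1 / 2 ^ 13 : ℝ) • ∑ i ∈ range k, σ i • v' i := by
    rw [smul_sum]
    exact sum_congr rfl fun i _ => smul_comm _ _ _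
  rw [h3, norm_smul, Real.norm_of_nonneg (by positivity)] at h1
  rw [h2]
  nlinarith

end Crest.Agent.R239
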